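import Mathlib

/-!
# P125: crossing chains in iterated wreath products

For every `M` we construct a group `H` of order automorphisms of a linear order, with Følner sets,
two elements `a`, `b` of `H` and an increasing chain `c 0 < ... < c M` such that the elements
`a, b, a⁻¹, b⁻¹, a, ...` push each point of the chain above the next one.
-/

namespace Vale.Agent.P125

open Finsupp

variable {Ω : Type} [LinearOrder Ω]

/-- Translate a configuration by an order automorphism. -/
noncomputable def push (g : Ω ≃o Ω) (v : Ω →₀ ℤ) : Ω →₀ ℤ :=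
  Finsupp.equivMapDomain g.toEquiv v

lemma push_apply (g : Ω ≃o Ω) (v : Ω →₀ ℤ) (x : Ω) : push g v x = v (g.symm x) := rfl

lemma push_add (g : Ω ≃o Ω) (v w : Ω →₀ ℤ) : push g (v + w) = push g v + push g w := by
  ext x; simp [push_apply]

lemma push_neg (g : Ω ≃o Ω) (v : Ω →₀ ℤ) : push g (-v) = -push g v := by
  ext x; simp [push_apply]

lemma push_sub (g : Ω ≃o Ω) (v w : Ω →₀ ℤ) : push g (v - w) = push g v - push g w := by
  ext x; simp [push_apply]

lemma push_zero (g : Ω ≃o Ω) : push g (0 : Ω →₀ ℤ) = 0 := by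
  ext x; simp [push_apply]

lemma push_mul (g h : Ω ≃o Ω) (v : Ω →₀ ℤ) : push (g * h) v = push g (push h v) := by
  ext x; simp only [push_apply]; rfl

lemma push_one (v : Ω →₀ ℤ) : push (1 : Ω ≃o Ω) v = v := by
  ext x; rfl

lemma push_single (g : Ω ≃o Ω) (x : Ω) (m : ℤ) : push g (single x m) = single (g x) m :=
  Finsupp.equivMapDomain_single _ _ _

lemma push_strictMono (g : Ω ≃o Ω) :
    StrictMono fun φ : Lex (Ω →₀ ℤ) => toLex (push g (ofLex φ)) := by
  intro φ ψ h
  obtain ⟨i, hi, hlt⟩ := Finsupp.Lex.lt_iff.1 h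
  refine Finsupp.Lex.lt_iff.2 ⟨g i, fun j hj => ?_, ?_⟩
  · exact hi (g.symm j) (g.symm_apply_lt.2 hj)
  · show push g (ofLex φ) (g i) < push g (ofLex ψ) (g i)
    simpa [push_apply] using hlt

/-- The affine action of the pair `(v, g)` on configurations. -/
noncomputable def ext' (v : Ω →₀ ℤ) (g : Ω ≃o Ω) : Lex (Ω →₀ ℤ) ≃o Lex (Ω →₀ ℤ) :=
  StrictMono.orderIsoOfRightInverse (fun φ => toLex (v + push g (ofLex φ)))
    (fun φ ψ h => by
      have := push_strictMono g h
      show toLex (v + push g (ofLex φ)) < toLex (v + push g (ofLex ψ))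
      exact add_lt_add_right this (toLex v))
    (fun φ => toLex (push g⁻¹ (ofLex φ - v)))
    (fun φ => by
      show toLex (v + push g (push g⁻¹ (ofLex φ - v))) = φ
      rw [← push_mul, mul_inv_cancel, push_one]
      simp)

lemma ext'_apply (v : Ω →₀ ℤ) (g : Ω ≃o Ω) (φ : Lex (Ω →₀ ℤ)) :
    ext' v g φ = toLex (v + push g (ofLex φ)) := rfl

lemma ext'_mul (v u : Ω →₀ ℤ) (g h : Ω ≃o Ω) :
    ext' v g * ext' u h = ext' (v + push g u) (g * h) := by
  refine RelIso.ext fun φ => ?_
  show toLex (v + push g (u + push h (ofLex φ))) = toLex (v + push g u + push (g * h) (ofLex φ))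
  rw [push_add, push_mul, add_assoc]

lemma ext'_one : ext' (0 : Ω →₀ ℤ) 1 = 1 := by
  refine RelIso.ext fun φ => ?_
  show toLex ((0 : Ω →₀ ℤ) + push 1 (ofLex φ)) = φ
  rw [push_one]; simp

lemma ext'_inv (v : Ω →₀ ℤ) (g : Ω ≃o Ω) : (ext' v g)⁻¹ = ext' (-push g⁻¹ v) g⁻¹ := by
  refine inv_eq_of_mul_eq_one_left ?_
  rw [ext'_mul, inv_mul_cancel]
  simp [ext'_one]

lemma ext'_apply_zero (v : Ω →₀ ℤ) (g : Ω ≃o Ω) : ext' v g 0 = toLex v := by
  show toLex (v + push g 0) = toLex v
  rw [push_zero, add_zero]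

lemma ext'_inj {v u : Ω →₀ ℤ} {g h : Ω ≃o Ω} (e : ext' v g = ext' u h) : v = u ∧ g = h := by
  have hv : v = u := by
    have := congrArg (fun f : Lex (Ω →₀ ℤ) ≃o Lex (Ω →₀ ℤ) => f 0) e
    simpa [ext'_apply_zero] using this
  refine ⟨hv, RelIso.ext fun x => ?_⟩
  have := congrArg (fun f : Lex (Ω →₀ ℤ) ≃o Lex (Ω →₀ ℤ) => f (toLex (single x 1))) e
  simp only [ext'_apply, ofLex_toLex, push_single, hv, EmbeddingLike.apply_eq_iff_eq,
    add_right_inj] at this
  exact Finsupp.single_left_injective one_ne_zero this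

/-- A set of elements has Følner sets for right multiplication. -/
def Folner {G : Type*} [Mul G] [DecidableEq G] (H : Set G) : Prop :=
  ∀ S : Finset G, (↑S : Set G) ⊆ H → ∀ ε : ℝ, 0 < ε →
    ∃ F : Finset G, F.Nonempty ∧ (↑F : Set G) ⊆ H ∧ ∀ s ∈ S,
      ((F.filter fun g => g * s ∉ F).card : ℝ) ≤ ε * F.card

section Subgroup

variable (H : Subgroup (Ω ≃o Ω))

/-- The subgroup of all `(v, g)` with `g ∈ H`. -/
noncomputable def extGroup : Subgroup (Lex (Ω →₀ ℤ) ≃o Lex (Ω →₀ ℤ)) where
  carrier := {γ | ∃ v : Ω →₀ ℤ, ∃ g ∈ H, γ = ext' v g}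
  one_mem' := ⟨0, 1, H.one_mem, ext'_one.symm⟩
  mul_mem' := by
    rintro _ _ ⟨v, g, hg, rfl⟩ ⟨u, h, hh, rfl⟩
    exact ⟨_, _, H.mul_mem hg hh, ext'_mul _ _ _ _⟩
  inv_mem' := by
    rintro _ ⟨v, g, hg, rfl⟩
    exact ⟨_, _, H.inv_mem hg, ext'_inv _ _⟩

lemma ext'_mem {v : Ω →₀ ℤ} {g : Ω ≃o Ω} (hg : g ∈ H) : ext' v g ∈ extGroup H :=
  ⟨v, g, hg, rfl⟩

open scoped Classical in
/-- Følner sets are inherited by the configuration extension. -/
theorem folner_extGroup (hH : Folner (H : Set (Ω ≃o Ω))) :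
    Folner (extGroup H : Set (Lex (Ω →₀ ℤ) ≃o Lex (Ω →₀ ℤ))) := by
  intro S hS ε hε
  -- choose the components of the elements of `S`
  have hc : ∀ s ∈ S, ∃ p : (Ω →₀ ℤ) × (Ω ≃o Ω), p.2 ∈ H ∧ s = ext' p.1 p.2 := by
    intro s hs
    obtain ⟨v, g, hg, rfl⟩ := hS hs
    exact ⟨(v, g), hg, rfl⟩
  choose! cp hcH hcEq using hc
  obtain ⟨F, hFne, hFH, hF⟩ := hH (S.image fun s => (cp s).2)
    (fun g hg => by
      simp only [Finset.coe_image, Set.mem_image] at hg
      obtain ⟨s, hs, rfl⟩ := hg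
      exact hcH s hs) (ε / 2) (by positivity)
  set Sg : Finset Ω := F.biUnion fun g => S.biUnion fun s => (push g (cp s).1).support with hSg
  set m : ℕ := F.sup fun g => S.sup fun s => Sg.sup fun x => (push g (cp s).1 x).natAbs with hm
  set k := Sg.card with hk
  obtain ⟨R, hR⟩ : ∃ R : ℕ, (2 * m * k : ℝ) ≤ ε / 2 * (2 * R + 1) ∧ m ≤ R := by
    obtain ⟨R, hR⟩ := exists_nat_ge (2 * (m : ℝ) * k / ε + m)
    refine ⟨R, ?_, ?_⟩
    · have : 2 * (m : ℝ) * k / ε ≤ R := le_trans (le_add_of_nonneg_right (by positivity)) hR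
      rw [div_le_iff₀ hε] at this
      nlinarith
    · have : (m : ℝ) ≤ R := le_trans (le_add_of_nonneg_left (by positivity)) hR
      exact_mod_cast this
  let box : ℕ → Finset (Ω →₀ ℤ) := fun r => Sg.finsupp fun _ => Finset.Icc (-(r : ℤ)) r
  have box_card : ∀ r, (box r).card = (2 * r + 1) ^ k := by
    intro r
    simp only [box, Finset.card_finsupp, Int.card_Icc, Finset.prod_const]
    congr 1
    omega
  have mem_box : ∀ r v, v ∈ box r ↔
      (∀ x, v x ≠ 0 → x ∈ Sg) ∧ ∀ x ∈ Sg, |v x| ≤ (r : ℤ) := by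
    intro r v
    simp only [box, Finset.mem_finsupp_iff, Finset.mem_Icc, abs_le]
    constructor
    · exact fun h => ⟨fun x hx => h.1 (mem_support_iff.2 hx), h.2⟩
    · exact fun h => ⟨fun x hx => h.1 x (mem_support_iff.1 hx), h.2⟩
  set F' := (box R ×ˢ F).image fun p => ext' p.1 p.2 with hF'
  have inj : Function.Injective fun p : (Ω →₀ ℤ) × (Ω ≃o Ω) => ext' p.1 p.2 := fun p q h =>
    Prod.ext (ext'_inj h).1 (ext'_inj h).2
  have cardF' : F'.card = (2 * R + 1) ^ k * F.card := by
    rw [hF', Finset.card_image_of_injective _ inj, Finset.card_product, box_card]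
  refine ⟨F', ?_, fun γ hγ => ?_, fun s hs => ?_⟩
  · rw [← Finset.card_pos, cardF']
    have := hFne.card_pos
    positivity
  · rw [Finset.mem_coe, hF', Finset.mem_image] at hγ
    obtain ⟨⟨v, g⟩, hvg, rfl⟩ := hγ
    exact ext'_mem H (hFH (Finset.mem_coe.2 (Finset.mem_product.1 hvg).2))
  set u := (cp s).1 with hu
  set h := (cp s).2 with hh
  set Bad := F.filter fun g => g * h ∉ F with hBad
  have hsub : (F'.filter fun γ => γ * s ∉ F') ⊆
      ((box R ×ˢ Bad) ∪ ((box R \ box (R - m)) ×ˢ F)).image fun p => ext' p.1 p.2 := by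
    intro γ hγ
    rw [Finset.mem_filter] at hγ
    obtain ⟨hγ, hout⟩ := hγ
    rw [hF', Finset.mem_image] at hγ
    obtain ⟨⟨v, g⟩, hvg, rfl⟩ := hγ
    rw [Finset.mem_product] at hvg
    refine Finset.mem_image.2 ⟨(v, g), ?_, rfl⟩
    rw [Finset.mem_union, Finset.mem_product, Finset.mem_product]
    by_cases hg : g * h ∈ F
    · right
      refine ⟨Finset.mem_sdiff.2 ⟨hvg.1, fun hv => hout ?_⟩, hvg.2⟩
      rw [hcEq s hs, ext'_mul, hF']
      refine Finset.mem_image.2 ⟨(v + push g u, g * h), Finset.mem_product.2 ⟨?_, hg⟩, rfl⟩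
      rw [mem_box] at hv ⊢
      refine ⟨fun x hx => ?_, fun x hx => ?_⟩
      · by_contra hxs
        have h1 : v x = 0 := by
          by_contra hv0; exact hxs (hv.1 x hv0)
        have h2 : push g u x = 0 := by
          by_contra hp0
          exact hxs (Finset.mem_biUnion.2
            ⟨g, hvg.2, Finset.mem_biUnion.2 ⟨s, hs, mem_support_iff.2 hp0⟩⟩)
        exact hx (by simp [h1, h2])
      · have h1 := hv.2 x hx
        have h2 : (push g u x).natAbs ≤ m :=
          le_trans (le_trans (Finset.le_sup (f := fun x => (push g u x).natAbs) hx)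
            (Finset.le_sup (f := fun s => Sg.sup fun x => (push g (cp s).1 x).natAbs) hs))
            (Finset.le_sup (f := fun g => S.sup fun s =>
              Sg.sup fun x => (push g (cp s).1 x).natAbs) hvg.2)
        have h3 : ((R - m : ℕ) : ℤ) = (R : ℤ) - m := by omega
        rw [h3] at h1
        calc |(v + push g u) x| ≤ |v x| + |push g u x| := by
              simpa using abs_add_le (v x) (push g u x)
          _ ≤ R := by
              have : |push g u x| ≤ (m : ℤ) := by
                rw [Int.abs_eq_natAbs]; exact_mod_cast h2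
              linarith
    · left
      exact ⟨hvg.1, Finset.mem_filter.2 ⟨hvg.2, hg⟩⟩
  have hbox : box (R - m) ⊆ box R := by
    intro v hv
    rw [mem_box] at hv ⊢
    exact ⟨hv.1, fun x hx => le_trans (hv.2 x hx) (by omega)⟩
  have hdiff : ((box R \ box (R - m)).card : ℝ) ≤ ε / 2 * (2 * (R : ℝ) + 1) ^ k := by
    rw [Finset.card_sdiff_of_subset hbox, box_card, box_card,
      Nat.cast_sub (Nat.pow_le_pow_left (by omega) k)]
    push_cast [Nat.cast_sub hR.2]
    set q : ℝ := 2 * (R : ℝ) + 1 with hq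
    have hqpos : 0 < q := by positivity
    have hm' : (m : ℝ) ≤ R := by exact_mod_cast hR.2
    have hb : 1 + (k : ℝ) * (-(2 * m) / q) ≤ (1 + (-(2 * m) / q)) ^ k := by
      apply one_add_mul_le_pow
      rw [le_div_iff₀ hqpos, hq]; linarith
    have he : (2 * ((R : ℝ) - m) + 1) ^ k = q ^ k * (1 + (-(2 * m) / q)) ^ k := by
      rw [← mul_pow]
      congr 1
      field_simp
      rw [hq]; ring
    rw [he]
    have h2 : (k : ℝ) * (2 * m / q) ≤ ε / 2 := by
      rw [mul_div_assoc', div_le_iff₀ hqpos]; linarith [hR.1]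
    have hqk : 0 ≤ q ^ k := by positivity
    have h3 : (k : ℝ) * (-(2 * m) / q) = -((k : ℝ) * (2 * m / q)) := by ring
    nlinarith [mul_le_mul_of_nonneg_left hb hqk, mul_le_mul_of_nonneg_left h2 hqk]
  have hbad : (Bad.card : ℝ) ≤ ε / 2 * F.card :=
    hF h (Finset.mem_image.2 ⟨s, hs, rfl⟩)
  calc ((F'.filter fun γ => γ * s ∉ F').card : ℝ)
      ≤ ((box R).card * Bad.card + (box R \ box (R - m)).card * F.card : ℕ) := by
        refine Nat.cast_le.2 (le_trans (Finset.card_le_card hsub) (le_trans Finset.card_image_le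
          (le_trans (Finset.card_union_le _ _) (le_of_eq ?_))))
        simp [Finset.card_product]
    _ ≤ (2 * (R : ℝ) + 1) ^ k * (ε / 2 * F.card)
        + ε / 2 * (2 * (R : ℝ) + 1) ^ k * F.card := by
        rw [Nat.cast_add, Nat.cast_mul, Nat.cast_mul, box_card R]
        rw [Nat.cast_pow, Nat.cast_add, Nat.cast_mul, Nat.cast_ofNat, Nat.cast_one]
        exact add_le_add (mul_le_mul_of_nonneg_left hbad (by positivity))
          (mul_le_mul_of_nonneg_right hdiff (Nat.cast_nonneg _))
    _ = ε * F'.card := by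
        rw [cardF', Nat.cast_mul, Nat.cast_pow, Nat.cast_add, Nat.cast_mul, Nat.cast_ofNat,
          Nat.cast_one]
        ring

end Subgroup

/-- The letters `a, b, a⁻¹, b⁻¹`, repeated periodically. -/
def ty {G : Type*} [Group G] (a b : G) (n : ℕ) : G :=
  if n % 4 = 0 then a else if n % 4 = 1 then b else if n % 4 = 2 then a⁻¹ else b⁻¹

lemma ty_congr {G : Type*} [Group G] (a b : G) {m n : ℕ} (h : m % 4 = n % 4) :
    ty a b m = ty a b n := by
  simp [ty, h]

lemma ty_add_two {G : Type*} [Group G] (a b : G) (n : ℕ) : ty a b (n + 2) = (ty a b n)⁻¹ := by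
  have h : n % 4 = 0 ∨ n % 4 = 1 ∨ n % 4 = 2 ∨ n % 4 = 3 := by omega
  rcases h with h | h | h | h <;>
    simp [ty, h, Nat.add_mod n 2]

/-- A crossing chain of length `M`. -/
structure Stage (M : ℕ) where
  /-- the line -/
  carrier : Type
  /-- its order -/
  ord : LinearOrder carrier
  /-- the group -/
  H : @Subgroup (carrier ≃o carrier) _
  folner : open scoped Classical in Folner (H : Set (carrier ≃o carrier))
  /-- first generator -/
  a : carrier ≃o carrier
  /-- second generator -/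
  b : carrier ≃o carrier
  a_mem : a ∈ H
  b_mem : b ∈ H
  /-- the chain -/
  c : ℕ → carrier
  mono : ∀ i j, i < j → j ≤ M → c i < c j
  rise : ∀ k, 1 ≤ k → k ≤ M → c k < ty a b k (c (k - 1))

attribute [instance] Stage.ord

lemma ty_mem {G : Type*} [Group G] (H : Subgroup G) {a b : G} (ha : a ∈ H) (hb : b ∈ H) (n : ℕ) :
    ty a b n ∈ H := by
  unfold ty
  split_ifs
  exacts [ha, hb, H.inv_mem ha, H.inv_mem hb]

lemma single_lt_single_of_lt {x y : Ω} (h : x < y) :
    toLex (single y (1 : ℤ)) < toLex (single x 1) := by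
  refine Finsupp.Lex.lt_iff.2 ⟨x, fun j hj => ?_, ?_⟩
  · show single y (1 : ℤ) j = single x 1 j
    rw [single_eq_of_ne hj.ne, single_eq_of_ne (hj.trans h).ne]
  · show single y (1 : ℤ) x < single x 1 x
    rw [single_eq_of_ne h.ne, single_eq_same]; norm_num

lemma zero_lt_single {x : Ω} {m : ℤ} (hm : 0 < m) : (0 : Lex (Ω →₀ ℤ)) < toLex (single x m) := by
  refine Finsupp.Lex.lt_iff.2 ⟨x, fun j hj => ?_, ?_⟩
  · show (0 : ℤ) = single x m j
    rw [single_eq_of_ne hj.ne]
  · show (0 : ℤ) < single x m x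
    rw [single_eq_same]; exact hm

open scoped Classical in
/-- One step: a chain of length `M` gives a chain of length `M + 1`, one level of wreath up. -/
noncomputable def Stage.succ {M : ℕ} (s : Stage M) : Stage (M + 1) where
  carrier := Lex (s.carrier →₀ ℤ)
  ord := inferInstance
  H := extGroup s.H
  folner := folner_extGroup s.H s.folner
  a := ext' 0 (ty s.a s.b M)
  b := ext' (single (s.c M) 2) (ty s.a s.b (M + 3))
  a_mem := ext'_mem _ (ty_mem _ s.a_mem s.b_mem _)
  b_mem := ext'_mem _ (ty_mem _ s.a_mem s.b_mem _)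
  c := fun j => if j = 0 then 0 else toLex (single (s.c (M + 1 - j)) 1)
  mono := by
    intro i j hij hj
    rw [if_neg (show j ≠ 0 by omega)]
    rcases Nat.eq_zero_or_pos i with rfl | hi
    · rw [if_pos rfl]; exact zero_lt_single one_pos
    · rw [if_neg (show i ≠ 0 by omega)]
      exact single_lt_single_of_lt (s.mono _ _ (by omega) (by omega))
  rise := by
    intro j hj1 hjM
    set a₀ := ty s.a s.b M with ha₀
    set b₀ := ty s.a s.b (M + 3) with hb₀
    rw [if_neg (show j ≠ 0 by omega)]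
    rcases eq_or_lt_of_le hj1 with rfl | hj2
    · simp only [ty, Nat.one_mod, Nat.reduceSub, one_ne_zero, if_false, if_true,
        Nat.add_sub_cancel, ext'_apply_zero]
      refine Finsupp.Lex.lt_iff.2 ⟨s.c M, fun i hi => ?_, ?_⟩
      · show single (s.c M) (1 : ℤ) i = single (s.c M) 2 i
        rw [single_eq_of_ne hi.ne, single_eq_of_ne hi.ne]
      · show single (s.c M) (1 : ℤ) (s.c M) < single (s.c M) 2 (s.c M)
        simp
    · rw [if_neg (show j - 1 ≠ 0 by omega)]
      obtain ⟨k, hk⟩ : ∃ k, M + 2 = j + k := ⟨M + 2 - j, by omega⟩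
      have e1 : M + 1 - j = k - 1 := by omega
      have e2 : M + 1 - (j - 1) = k := by omega
      rw [e1, e2]
      set x := s.c k
      set y := s.c (k - 1)
      set g := ty s.a s.b k with hg
      have hlt : g⁻¹ x < y := by
        have := s.rise k (by omega) (by omega)
        have h2 := g⁻¹.strictMono this
        rw [RelIso.inv_apply_self] at h2
        exact h2
      have base : toLex (single y (1 : ℤ)) < toLex (single (g⁻¹ x) 1) :=
        single_lt_single_of_lt hlt
      have hj4 : j % 4 = 0 ∨ j % 4 = 1 ∨ j % 4 = 2 ∨ j % 4 = 3 := by omega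
      rcases hj4 with h | h | h | h <;>
        simp only [ty, h, if_true, if_false, one_ne_zero, OfNat.ofNat_ne_zero,
          OfNat.ofNat_ne_one, show (3 : ℕ) ≠ 2 by norm_num]
      · have hgg : g⁻¹ = a₀ := by
          rw [hg, ← ty_add_two, ha₀]; exact ty_congr _ _ (by omega)
        rw [ext'_apply, ofLex_toLex, push_single, zero_add, ← hgg]
        exact base
      · have hgg : g⁻¹ = b₀ := by
          rw [hg, ← ty_add_two, hb₀]; exact ty_congr _ _ (by omega)
        rw [ext'_apply, ofLex_toLex, push_single, ← hgg]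
        refine lt_of_lt_of_le base ?_
        show toLex (single (g⁻¹ x) (1 : ℤ))
          ≤ toLex (single (s.c M) 2) + toLex (single (g⁻¹ x) 1)
        exact le_add_of_nonneg_left (zero_lt_single two_pos).le
      · have hgg : g⁻¹ = a₀⁻¹ := by
          rw [hg, ha₀]; congr 1; exact ty_congr _ _ (by omega)
        rw [ext'_inv, ext'_apply, ofLex_toLex, push_single, push_zero, neg_zero, zero_add, ← hgg]
        exact base
      · have hgg : g = b₀ := by
          rw [hg, hb₀]; exact ty_congr _ _ (by omega)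
        rw [ext'_inv, ext'_apply, ofLex_toLex, push_single, push_single, ← hgg]
        have hxM : g⁻¹ x < g⁻¹ (s.c M) := g⁻¹.strictMono (s.mono _ _ (by omega) le_rfl)
        refine Finsupp.Lex.lt_iff.2 ⟨g⁻¹ x, fun i hi => ?_, ?_⟩
        · show single y (1 : ℤ) i
            = (-single (g⁻¹ (s.c M)) (2 : ℤ) + single (g⁻¹ x) 1 : s.carrier →₀ ℤ) i
          simp [single_eq_of_ne (hi.trans hlt).ne, single_eq_of_ne (hi.trans hxM).ne,
            single_eq_of_ne hi.ne]
        · show single y (1 : ℤ) (g⁻¹ x)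
            < (-single (g⁻¹ (s.c M)) (2 : ℤ) + single (g⁻¹ x) 1 : s.carrier →₀ ℤ) (g⁻¹ x)
          simp [single_eq_of_ne hlt.ne, single_eq_of_ne hxM.ne]

open scoped Classical in
/-- The trivial chain. -/
noncomputable def Stage.zero : Stage 0 where
  carrier := PUnit
  ord := inferInstance
  H := ⊥
  folner := by
    intro S hS ε hε
    refine ⟨{1}, Finset.singleton_nonempty _, by simp, fun s hs => ?_⟩
    have : s = 1 := by simpa using hS hs
    subst this
    simp [Finset.filter_singleton, hε.le]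
  a := 1
  b := 1
  a_mem := Subgroup.one_mem _
  b_mem := Subgroup.one_mem _
  c := fun _ => PUnit.unit
  mono := fun i j h h' => absurd h' (by omega)
  rise := fun k h h' => absurd h' (by omega)

/-- Crossing chains of every length exist. -/
theorem exists_stage (M : ℕ) : Nonempty (Stage M) := by
  induction M with
  | zero => exact ⟨Stage.zero⟩
  | succ n ih => exact ⟨ih.some.succ⟩

end Vale.Agent.P125
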