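import Mathlib

/-!
# P125: basic definitions (Markov type, thresholds, renormings, spreading seminorms)
-/

namespace Vale.Agent.P125

open scoped BigOperators

variable (X : Type*) [NormedAddCommGroup X] [NormedSpace ℝ X]

/-- Markov type `p` with constant `K` (Ball): the inequality for every finite stationary
reversible Markov chain, every map into `X` and every time `t ≥ 1`. -/
def MarkovTypeWith (p K : ℝ) : Prop :=
  ∀ (n : ℕ) (π : Fin n → ℝ) (P : Matrix (Fin n) (Fin n) ℝ),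
    (∀ i, 0 ≤ π i) → ∑ i, π i = 1 → (∀ i j, 0 ≤ P i j) → (∀ i, ∑ j, P i j = 1) →
    (∀ i j, π i * P i j = π j * P j i) →
    ∀ (f : Fin n → X) (t : ℕ), 1 ≤ t →
      ∑ i, ∑ j, π i * (P ^ t) i j * ‖f j - f i‖ ^ p ≤
        K ^ p * t * ∑ i, ∑ j, π i * P i j * ‖f j - f i‖ ^ p

/-- `X` has Markov type `p`. -/
def HasMarkovType (p : ℝ) : Prop :=
  ∃ K : ℝ, 0 < K ∧ MarkovTypeWith X p K

/-- A summing system of length `n`: vectors in the unit ball whose combinations dominate the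
absolute values of all interval sums of the coefficients. -/
def SummingSystem (θ : ℝ) (n : ℕ) : Prop :=
  ∃ x : Fin n → X, (∀ i, ‖x i‖ ≤ 1) ∧
    ∀ (a : Fin n → ℝ) (i j : Fin n), θ * |∑ k ∈ Finset.Icc i j, a k| ≤ ‖∑ k, a k • x k‖

/-- `X` has no summing systems of unbounded length, at any constant. -/
def NoSummingSystems : Prop :=
  ∀ θ : ℝ, 0 < θ → ∃ n, ¬ SummingSystem X θ n

variable {X}

/-- An equivalent norm. -/
def IsEquivNorm (N : Seminorm ℝ X) : Prop :=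
  ∃ a b : ℝ, 0 < a ∧ 0 < b ∧ ∀ x, a * ‖x‖ ≤ N x ∧ N x ≤ b * ‖x‖

/-- Uniform convexity of a norm. -/
def IsUniformlyConvex (N : Seminorm ℝ X) : Prop :=
  ∀ ε : ℝ, 0 < ε → ∃ δ : ℝ, 0 < δ ∧ ∀ x y, N x ≤ 1 → N y ≤ 1 → ε ≤ N (x - y) →
    N ((1 / 2 : ℝ) • (x + y)) ≤ 1 - δ

/-- Uniform smoothness of a norm: the modulus of smoothness `ρ(τ)` is `o(τ)`. -/
def IsUniformlySmooth (N : Seminorm ℝ X) : Prop :=
  ∀ ε : ℝ, 0 < ε → ∃ τ₀ : ℝ, 0 < τ₀ ∧ ∀ τ : ℝ, 0 < τ → τ ≤ τ₀ → ∀ x y, N x = 1 → N y = 1 →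
    (N (x + τ • y) + N (x - τ • y)) / 2 - 1 ≤ ε * τ

/-- A seminorm on `Fin n → ℝ` lying between `θ` times the maximal interval sum and the `ℓ¹`
norm. -/
structure IsSystem {n : ℕ} (θ : ℝ) (q : (Fin n → ℝ) → ℝ) : Prop where
  add_le : ∀ a b, q (a + b) ≤ q a + q b
  smul : ∀ (c : ℝ) a, q (c • a) = |c| * q a
  le_sum : ∀ a, q a ≤ ∑ i, |a i|
  lower : ∀ (a : Fin n → ℝ) (i j : Fin n), θ * |∑ k ∈ Finset.Icc i j, a k| ≤ q a

/-- A spreading seminorm on finite coefficient lists, decreasing under merging of neighbouring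
coefficients and finitely representable in the family `q`. -/
structure SpreadNorm (θ : ℝ) (q : ∀ n : ℕ, (Fin n → ℝ) → ℝ) where
  /-- the seminorm -/
  η : List ℝ → ℝ
  add_le : ∀ l : List (ℝ × ℝ),
    η (l.map fun z => z.1 + z.2) ≤ η (l.map Prod.fst) + η (l.map Prod.snd)
  smul : ∀ (c : ℝ) (l : List ℝ), η (l.map fun a => c * a) = |c| * η l
  insert_zero : ∀ l r : List ℝ, η (l ++ 0 :: r) = η (l ++ r)
  merge : ∀ (l r : List ℝ) (a b : ℝ), η (l ++ (a + b) :: r) ≤ η (l ++ a :: b :: r)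
  le_sum : ∀ l : List ℝ, η l ≤ (l.map fun a => |a|).sum
  lower : ∀ l m r : List ℝ, θ * |m.sum| ≤ η (l ++ m ++ r)
  approx : ∀ (k : ℕ) (A : Finset (Fin k → ℝ)) (ε : ℝ), 0 < ε →
    ∃ (N : ℕ) (T : Fin k → (Fin N → ℝ)),
      (∀ i, ∑ j, |T i j| ≤ 1) ∧ ∀ a ∈ A, |q N (∑ i, a i • T i) - η (List.ofFn a)| ≤ ε

end Vale.Agent.P125
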