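import Mathlib

/-!
# P125, part D: binary martingale trees

A `Tree E` together with a root value `x` describes a finite dyadic martingale in `E`: a node with
increment `d` has the two children values `x + d` and `x - d`.  `cnt ε` is the expected number of
steps of length at least `ε`.  If `cnt ε` is unbounded over trees confined to a ball, then for
every `n` there are `n` vectors in a finitely supported `L²(Ω, E)` all whose tail sums are bounded
below (`exists_system`).
-/

namespace P125.Renorm

open Finset

/-- A finite binary tree of increments. -/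
inductive Tree (E : Type*) where
  | leaf : Tree E
  | node (d : E) (l r : Tree E) : Tree E

variable {E : Type*} [NormedAddCommGroup E] [NormedSpace ℝ E]

set_option linter.unusedSectionVars false

/-- All values of the tree rooted at `x` stay in the closed ball of radius `R`. -/
def Tree.Confined (R : ℝ) : Tree E → E → Prop
  | .leaf, x => ‖x‖ ≤ R
  | .node d l r, x => ‖x‖ ≤ R ∧ l.Confined R (x + d) ∧ r.Confined R (x - d)

theorem Tree.Confined.root {R : ℝ} {t : Tree E} {x : E} (h : t.Confined R x) : ‖x‖ ≤ R := by
  cases t with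
  | leaf => exact h
  | node d l r => exact h.1

/-- Expected squared norm of the final value. -/
noncomputable def Tree.sq : Tree E → E → ℝ
  | .leaf, x => ‖x‖ ^ 2
  | .node d l r, x => (l.sq (x + d) + r.sq (x - d)) / 2

/-- Expected total penalty `g` of the increments. -/
noncomputable def Tree.pen (g : E → ℝ) : Tree E → ℝ
  | .leaf => 0
  | .node d l r => g d + (l.pen g + r.pen g) / 2

open Classical in
/-- Expected number of steps of length at least `ε`. -/
noncomputable def Tree.cnt (ε : ℝ) (t : Tree E) : ℝ :=
  t.pen (fun d => if ε ≤ ‖d‖ then 1 else 0)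

open Classical in
/-- Probability that at least `k` steps of length at least `ε` occur. -/
noncomputable def Tree.pr (ε : ℝ) : Tree E → ℕ → ℝ
  | _, 0 => 1
  | .leaf, _ + 1 => 0
  | .node d l r, k + 1 =>
      if ε ≤ ‖d‖ then (l.pr ε k + r.pr ε k) / 2 else (l.pr ε (k + 1) + r.pr ε (k + 1)) / 2

theorem pr_zero (ε : ℝ) (t : Tree E) : t.pr ε 0 = 1 := by
  cases t <;> rfl

theorem pr_nonneg (ε : ℝ) (t : Tree E) : ∀ k, 0 ≤ t.pr ε k := by
  induction t with
  | leaf => intro k; cases k <;> simp [Tree.pr]
  | node d l r ihl ihr =>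
      intro k
      cases k with
      | zero => simp [pr_zero]
      | succ k =>
          simp only [Tree.pr]
          split_ifs <;> linarith [ihl k, ihr k, ihl (k + 1), ihr (k + 1)]

theorem pr_le_one (ε : ℝ) (t : Tree E) : ∀ k, t.pr ε k ≤ 1 := by
  induction t with
  | leaf => intro k; cases k <;> simp [Tree.pr]
  | node d l r ihl ihr =>
      intro k
      cases k with
      | zero => simp [pr_zero]
      | succ k =>
          simp only [Tree.pr]
          split_ifs <;> linarith [ihl k, ihr k, ihl (k + 1), ihr (k + 1)]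

theorem pr_anti (ε : ℝ) (t : Tree E) : ∀ k, t.pr ε (k + 1) ≤ t.pr ε k := by
  induction t with
  | leaf => intro k; cases k <;> simp [Tree.pr]
  | node d l r ihl ihr =>
      intro k
      cases k with
      | zero => simpa [pr_zero] using pr_le_one ε (Tree.node d l r) 1
      | succ k =>
          simp only [Tree.pr]
          split_ifs <;> linarith [ihl k, ihr k, ihl (k + 1), ihr (k + 1)]

theorem sq_half_sum_le (p q : ℝ) : ((p + q) / 2) ^ 2 ≤ (p ^ 2 + q ^ 2) / 2 := by
  nlinarith [sq_nonneg (p - q)]

theorem norm_sq_mid_le (a b : E) :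
    ‖(1 / 2 : ℝ) • (a + b)‖ ^ 2 ≤ (‖a‖ ^ 2 + ‖b‖ ^ 2) / 2 := by
  have h1 : ‖(1 / 2 : ℝ) • (a + b)‖ ≤ (‖a‖ + ‖b‖) / 2 := by
    rw [norm_smul]
    have := norm_add_le a b
    norm_num
    linarith
  exact le_trans (pow_le_pow_left₀ (norm_nonneg _) h1 2) (sq_half_sum_le _ _)

/-- If no confined tree has `pr n > 1/2`, the expected number of long steps is at most `2 n`. -/
theorem cnt_le_of_pr {R ε : ℝ} {n : ℕ}
    (h : ∀ (t : Tree E) (x : E), t.Confined R x → t.pr ε n ≤ 1 / 2) :
    ∀ (t : Tree E) (x : E), t.Confined R x → t.cnt ε ≤ 2 * n := by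
  suffices H : ∀ (t : Tree E) (x : E), t.Confined R x →
      ∀ k : ℕ, t.cnt ε ≤ k + t.pr ε k * (2 * n) by
    intro t x hx
    have := H t x hx 0
    simpa [pr_zero] using this
  intro t
  induction t with
  | leaf =>
      intro x _ k
      have h0 : (Tree.leaf : Tree E).cnt ε = 0 := rfl
      rw [h0]
      have := pr_nonneg ε (Tree.leaf : Tree E) k
      positivity
  | node d l r ihl ihr =>
      intro x hx
      obtain ⟨_, hl, hr⟩ := id hx
      have hs : ∀ k : ℕ, (Tree.node d l r).cnt ε
          ≤ ((k + 1 : ℕ) : ℝ) + (Tree.node d l r).pr ε (k + 1) * (2 * n) := by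
        intro k
        have a1 := ihl (x + d) hl k
        have a2 := ihr (x - d) hr k
        have b1 := ihl (x + d) hl (k + 1)
        have b2 := ihr (x - d) hr (k + 1)
        by_cases hb : ε ≤ ‖d‖
        · simp only [Tree.cnt, Tree.pen, Tree.pr, if_pos hb] at *
          push_cast at *
          nlinarith
        · simp only [Tree.cnt, Tree.pen, Tree.pr, if_neg hb] at *
          push_cast at *
          nlinarith
      intro k
      cases k with
      | succ k => exact hs k
      | zero =>
          rcases Nat.eq_zero_or_pos n with hn | hn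
          · subst hn
            have := h (Tree.node d l r) x hx
            rw [pr_zero] at this
            norm_num at this
          · obtain ⟨m, rfl⟩ := Nat.exists_eq_add_of_le hn
            have h1 := hs m
            have h2 := h (Tree.node d l r) x hx
            rw [Nat.add_comm 1 m] at h2 ⊢
            have h3 := mul_le_mul_of_nonneg_right h2
              (by positivity : (0 : ℝ) ≤ 2 * ((m + 1 : ℕ) : ℝ))
            rw [pr_zero]
            have e : (2 : ℝ) * ((1 + m : ℕ) : ℝ) = 2 * ((m + 1 : ℕ) : ℝ) := by
              rw [Nat.add_comm 1 m]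
            simp only [Nat.cast_zero, zero_add, one_mul]
            nlinarith [h1, h3, e]

/-- The martingale stopped after its `k`-th long step, as vectors in `L²(Ω, E)`. -/
theorem tree_rep {R ε : ℝ} (hε : 0 ≤ ε) (t : Tree E) :
    ∀ (x : E), t.Confined R x → ∀ n : ℕ,
      ∃ (N : ℕ) (w : Fin N → ℝ) (Z : Fin N → Fin n → E),
        (∀ o, 0 ≤ w o) ∧ ∑ o, w o = 1 ∧ (∀ o k, ‖Z o k‖ ≤ R) ∧
        (∀ (a : Fin n → ℝ) (u : E),
          ‖u + (∑ i, a i) • x‖ ^ 2 ≤ ∑ o, w o * ‖u + ∑ i, a i • Z o i‖ ^ 2) ∧
        (∀ (a : Fin n → ℝ) (u : E) (k : Fin n),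
          ε ^ 2 * t.pr ε ((k : ℕ) + 1) * (∑ i ∈ Finset.Ici k, a i) ^ 2
            ≤ ∑ o, w o * ‖u + ∑ i, a i • Z o i‖ ^ 2) := by
  induction t with
  | leaf =>
      intro x hx n
      refine ⟨1, fun _ => 1, fun _ _ => x, fun _ => zero_le_one, by simp, fun _ _ => hx, ?_, ?_⟩
      · intro a u; simp [Finset.sum_smul]
      · intro a u k
        simp [Tree.pr]
  | node d l r ihl ihr =>
      intro x hx n
      obtain ⟨hx0, hl, hr⟩ := id hx
      by_cases hb : ε ≤ ‖d‖
      · cases n with
        | zero =>
            exact ⟨1, fun _ => 1, fun _ => Fin.elim0, fun _ => zero_le_one, by simp,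
              fun _ k => k.elim0, fun a u => by simp, fun a u k => k.elim0⟩
        | succ n =>
            obtain ⟨N₁, w₁, Z₁, hw₁, hs₁, hZ₁, hJ₁, hP₁⟩ := ihl (x + d) hl n
            obtain ⟨N₂, w₂, Z₂, hw₂, hs₂, hZ₂, hJ₂, hP₂⟩ := ihr (x - d) hr n
            refine ⟨N₁ + N₂, Fin.append (fun o => w₁ o / 2) (fun o => w₂ o / 2),
              Fin.append (fun o => Fin.cons (x + d) (Z₁ o)) (fun o => Fin.cons (x - d) (Z₂ o)),
              ?_, ?_, ?_, ?_, ?_⟩
            · intro o
              refine Fin.addCases (fun i => ?_) (fun i => ?_) o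
              · simpa using (by have := hw₁ i; linarith : 0 ≤ w₁ i / 2)
              · simpa using (by have := hw₂ i; linarith : 0 ≤ w₂ i / 2)
            · rw [Fin.sum_univ_add]; simp [← Finset.sum_div, hs₁, hs₂]; norm_num
            · intro o
              refine Fin.addCases (fun i => ?_) (fun i => ?_) o
              · intro k
                refine Fin.cases ?_ (fun j => ?_) k
                · simpa using hl.root
                · simpa using hZ₁ i j
              · intro k
                refine Fin.cases ?_ (fun j => ?_) k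
                · simpa using hr.root
                · simpa using hZ₂ i j
            all_goals
              have key : ∀ (a : Fin (n + 1) → ℝ) (u : E),
                  (∑ o, Fin.append (fun o => w₁ o / 2) (fun o => w₂ o / 2) o *
                    ‖u + ∑ i, a i • Fin.append (fun o => (Fin.cons (x + d) (Z₁ o) : Fin (n + 1) → E))
                      (fun o => Fin.cons (x - d) (Z₂ o)) o i‖ ^ 2)
                  = ((∑ o, w₁ o * ‖(u + a 0 • (x + d)) + ∑ i : Fin n, a i.succ • Z₁ o i‖ ^ 2)
                    + (∑ o, w₂ o * ‖(u + a 0 • (x - d)) + ∑ i : Fin n, a i.succ • Z₂ o i‖ ^ 2))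
                      / 2 := by
                intro a u
                rw [Fin.sum_univ_add, add_div, Finset.sum_div, Finset.sum_div]
                congr 1 <;>
                  exact Finset.sum_congr rfl (fun o _ => by
                    simp [Fin.sum_univ_succ, add_assoc]; ring)
            · intro a u
              rw [key, Fin.sum_univ_succ]
              have j1 := hJ₁ (fun i => a i.succ) (u + a 0 • (x + d))
              have j2 := hJ₂ (fun i => a i.succ) (u + a 0 • (x - d))
              have e : u + (a 0 + ∑ i : Fin n, a i.succ) • x = (1 / 2 : ℝ) •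
                  ((u + a 0 • (x + d) + (∑ i : Fin n, a i.succ) • (x + d)) +
                   (u + a 0 • (x - d) + (∑ i : Fin n, a i.succ) • (x - d))) := by
                module
              rw [e]
              exact le_trans (norm_sq_mid_le _ _) (by linarith)
            · intro a u k
              rw [key]
              refine Fin.cases ?_ (fun k => ?_) k
              · have j1 := hJ₁ (fun i => a i.succ) (u + a 0 • (x + d))
                have j2 := hJ₂ (fun i => a i.succ) (u + a 0 • (x - d))
                have hI : Finset.Ici (0 : Fin (n + 1)) = Finset.univ := by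
                  ext i; simp
                rw [hI, Fin.sum_univ_succ]
                set S := a 0 + ∑ i : Fin n, a i.succ with hS
                have e : S • d = (1 / 2 : ℝ) •
                    ((u + a 0 • (x + d) + (∑ i : Fin n, a i.succ) • (x + d)) +
                     -(u + a 0 • (x - d) + (∑ i : Fin n, a i.succ) • (x - d))) := by
                  rw [hS]; module
                have h2 := norm_sq_mid_le
                  (u + a 0 • (x + d) + (∑ i : Fin n, a i.succ) • (x + d))
                  (-(u + a 0 • (x - d) + (∑ i : Fin n, a i.succ) • (x - d)))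
                rw [← e, norm_neg, norm_smul, Real.norm_eq_abs, mul_pow, sq_abs] at h2
                have h3 : ε ^ 2 * S ^ 2 ≤ S ^ 2 * ‖d‖ ^ 2 := by
                  rw [mul_comm (S ^ 2)]
                  exact mul_le_mul_of_nonneg_right (pow_le_pow_left₀ hε hb 2) (sq_nonneg _)
                have h4 : ε ^ 2 * (Tree.node d l r).pr ε (0 + 1) * S ^ 2 ≤ ε ^ 2 * S ^ 2 := by
                  refine mul_le_mul_of_nonneg_right ?_ (sq_nonneg _)
                  exact mul_le_of_le_one_right (sq_nonneg _) (pr_le_one _ _ _)
                simp only [Fin.val_zero] at *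
                linarith
              · have j1 := hP₁ (fun i => a i.succ) (u + a 0 • (x + d)) k
                have j2 := hP₂ (fun i => a i.succ) (u + a 0 • (x - d)) k
                have hI : ∑ i ∈ Finset.Ici k.succ, a i = ∑ i ∈ Finset.Ici k, a i.succ := by
                  rw [← Fin.map_succEmb_Ici, Finset.sum_map]; rfl
                rw [hI]
                simp only [Fin.val_succ, Tree.pr, if_pos hb]
                linarith
      · obtain ⟨N₁, w₁, Z₁, hw₁, hs₁, hZ₁, hJ₁, hP₁⟩ := ihl (x + d) hl n
        obtain ⟨N₂, w₂, Z₂, hw₂, hs₂, hZ₂, hJ₂, hP₂⟩ := ihr (x - d) hr n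
        refine ⟨N₁ + N₂, Fin.append (fun o => w₁ o / 2) (fun o => w₂ o / 2),
          Fin.append Z₁ Z₂, ?_, ?_, ?_, ?_, ?_⟩
        · intro o
          refine Fin.addCases (fun i => ?_) (fun i => ?_) o
          · simpa using (by have := hw₁ i; linarith : 0 ≤ w₁ i / 2)
          · simpa using (by have := hw₂ i; linarith : 0 ≤ w₂ i / 2)
        · rw [Fin.sum_univ_add]; simp [← Finset.sum_div, hs₁, hs₂]; norm_num
        · intro o
          refine Fin.addCases (fun i => ?_) (fun i => ?_) o
          · simpa using hZ₁ i
          · simpa using hZ₂ i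
        all_goals
          have key : ∀ (a : Fin n → ℝ) (u : E),
              (∑ o, Fin.append (fun o => w₁ o / 2) (fun o => w₂ o / 2) o *
                ‖u + ∑ i, a i • Fin.append Z₁ Z₂ o i‖ ^ 2)
              = ((∑ o, w₁ o * ‖u + ∑ i, a i • Z₁ o i‖ ^ 2)
                + (∑ o, w₂ o * ‖u + ∑ i, a i • Z₂ o i‖ ^ 2)) / 2 := by
            intro a u
            rw [Fin.sum_univ_add, add_div, Finset.sum_div, Finset.sum_div]
            congr 1 <;> exact Finset.sum_congr rfl (fun o _ => by simp; ring)
        · intro a u
          rw [key]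
          have j1 := hJ₁ a u
          have j2 := hJ₂ a u
          have e : u + (∑ i, a i) • x = (1 / 2 : ℝ) •
              ((u + (∑ i, a i) • (x + d)) + (u + (∑ i, a i) • (x - d))) := by
            module
          rw [e]
          exact le_trans (norm_sq_mid_le _ _) (by linarith)
        · intro a u k
          rw [key]
          simp only [Tree.pr, if_neg hb]
          linarith [hP₁ a u k, hP₂ a u k]

/-- Unbounded expected number of long steps gives, for every `n`, `n` uniformly bounded functions
on a finite probability space all whose tail sums are bounded below in `L²`. -/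
theorem exists_system {R ε : ℝ} (hε : 0 < ε)
    (h : ∀ N : ℕ, ∃ (t : Tree E) (x : E), t.Confined R x ∧ (N : ℝ) < t.cnt ε) (n : ℕ) :
    ∃ (N : ℕ) (w : Fin N → ℝ) (Z : Fin N → Fin n → E),
      (∀ o, 0 ≤ w o) ∧ ∑ o, w o = 1 ∧ (∀ o k, ‖Z o k‖ ≤ R) ∧
      ∀ (a : Fin n → ℝ) (k : Fin n),
        ε ^ 2 / 2 * (∑ i ∈ Finset.Ici k, a i) ^ 2 ≤ ∑ o, w o * ‖∑ i, a i • Z o i‖ ^ 2 := by
  obtain ⟨t, x, hx, hpr⟩ : ∃ (t : Tree E) (x : E), t.Confined R x ∧ 1 / 2 ≤ t.pr ε n := by
    by_contra hc
    obtain ⟨t, x, hx, hlt⟩ := h (2 * n)
    have := cnt_le_of_pr (R := R) (ε := ε) (n := n) (fun t x hx => by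
      by_contra hh
      exact hc ⟨t, x, hx, le_of_lt (not_le.1 hh)⟩) t x hx
    push_cast at hlt
    linarith
  obtain ⟨N, w, Z, hw, hs, hZ, -, hP⟩ := tree_rep hε.le t x hx n
  refine ⟨N, w, Z, hw, hs, hZ, fun a k => ?_⟩
  have h1 := hP a 0 k
  simp only [zero_add] at h1
  have h2 : t.pr ε n ≤ t.pr ε ((k : ℕ) + 1) := antitone_nat_of_succ_le (pr_anti ε t) k.2
  refine le_trans ?_ h1
  apply mul_le_mul_of_nonneg_right _ (sq_nonneg _)
  nlinarith [sq_nonneg ε]

end P125.Renorm
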