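import Mathlib
import Vale.Agent.P125.Defs
import Vale.Agent.P125.Tree

/-!
# P125, part D: uniformly convex renorming from bounded long-step counts

If for every `ε > 0` the expected number of `ε`-steps of martingale trees confined to the ball of
radius `2` is bounded, the potential `pot x = inf (E ‖leaf‖² - E ∑ g)` is a strongly midpoint
convex function and the gauge of one of its sublevel sets is an equivalent uniformly convex norm.
-/

namespace P125.Renorm

open Finset Metric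

variable {E : Type*} [NormedAddCommGroup E] [NormedSpace ℝ E]

set_option linter.unusedSectionVars false

/-- The martingale long-step counts are bounded at every scale. -/
def StepBound (E : Type*) [NormedAddCommGroup E] [NormedSpace ℝ E] : Prop :=
  ∀ ε : ℝ, 0 < ε → ∃ N : ℕ, ∀ (t : Tree E) (x : E), t.Confined 2 x → t.cnt ε ≤ N

open Classical in
/-- Penalty attached to an increment: the weight of its scale. -/
noncomputable def weightAt (c : ℕ → ℝ) (s : ℝ) : ℝ :=
  if h : ∃ j : ℕ, 1 / ((j : ℝ) + 1) ≤ s then c (Nat.find h) else 0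

/-- Penalty attached to an increment: the weight of its scale. -/
noncomputable def weight (c : ℕ → ℝ) (d : E) : ℝ :=
  weightAt c ‖d‖

theorem weight_nonneg {c : ℕ → ℝ} (hc : ∀ j, 0 ≤ c j) (d : E) : 0 ≤ weight c d := by
  unfold weight weightAt
  split_ifs
  · exact hc _
  · exact le_rfl

theorem weight_neg (c : ℕ → ℝ) (d : E) : weight c (-d) = weight c d := by
  rw [weight, weight, norm_neg]

open Classical in
theorem weight_le_sum {c : ℕ → ℝ} (hc : ∀ j, 0 ≤ c j) (d : E) :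
    ∃ J₀ : ℕ, ∀ J, J₀ ≤ J → weight c d ≤ ∑ j ∈ Finset.range J,
      c j * (if 1 / ((j : ℝ) + 1) ≤ ‖d‖ then 1 else 0) := by
  by_cases h : ∃ j : ℕ, 1 / ((j : ℝ) + 1) ≤ ‖d‖
  · refine ⟨Nat.find h + 1, fun J hJ => ?_⟩
    have h1 : c (Nat.find h) * (if 1 / ((Nat.find h : ℝ) + 1) ≤ ‖d‖ then (1 : ℝ) else 0)
        ≤ ∑ j ∈ Finset.range J, c j * (if 1 / ((j : ℝ) + 1) ≤ ‖d‖ then 1 else 0) :=
      Finset.single_le_sum (f := fun j => c j * (if 1 / ((j : ℝ) + 1) ≤ ‖d‖ then (1 : ℝ) else 0))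
        (fun j _ => mul_nonneg (hc j) (by split_ifs <;> norm_num))
        (Finset.mem_range.2 (by omega))
    rw [if_pos (Nat.find_spec h), mul_one] at h1
    rw [weight, weightAt, dif_pos h]
    exact h1
  · refine ⟨0, fun J _ => ?_⟩
    rw [weight, weightAt, dif_neg h]
    exact Finset.sum_nonneg fun j _ => mul_nonneg (hc j) (by split_ifs <;> norm_num)

theorem pen_weight_le {c : ℕ → ℝ} (hc : ∀ j, 0 ≤ c j) (t : Tree E) :
    ∃ J₀ : ℕ, ∀ J, J₀ ≤ J →
      t.pen (weight c) ≤ ∑ j ∈ Finset.range J, c j * t.cnt (1 / ((j : ℝ) + 1)) := by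
  induction t with
  | leaf => exact ⟨0, fun J _ => by simp [Tree.pen, Tree.cnt]⟩
  | node d l r ihl ihr =>
      obtain ⟨A, hA⟩ := weight_le_sum hc d
      obtain ⟨B, hB⟩ := ihl
      obtain ⟨C, hC⟩ := ihr
      refine ⟨max A (max B C), fun J hJ => ?_⟩
      have a := hA J (le_trans (le_max_left _ _) hJ)
      have b := hB J (le_trans (le_trans (le_max_left _ _) (le_max_right _ _)) hJ)
      have c' := hC J (le_trans (le_trans (le_max_right _ _) (le_max_right _ _)) hJ)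
      simp only [Tree.cnt, Tree.pen, mul_add, Finset.sum_add_distrib, mul_div_assoc', add_div,
        ← Finset.sum_div] at a b c' ⊢
      linarith

theorem exists_penalty (H : StepBound E) :
    ∃ g : E → ℝ, (∀ d, 0 ≤ g d) ∧ (∀ d, g (-d) = g d) ∧
      (∀ ε : ℝ, 0 < ε → ∃ m : ℝ, 0 < m ∧ ∀ d, ε ≤ ‖d‖ → m ≤ g d) ∧
      (∀ (t : Tree E) (x : E), t.Confined 2 x → t.pen g ≤ 1 / 4) := by
  choose N hN using fun j : ℕ => H (1 / ((j : ℝ) + 1)) (by positivity)
  let c : ℕ → ℝ := fun j => 1 / 8 * (1 / 2) ^ j / ((N j : ℝ) + 1)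
  have hc : ∀ j, 0 < c j := fun j => by positivity
  refine ⟨weight c, weight_nonneg fun j => (hc j).le, weight_neg c, ?_, ?_⟩
  · intro ε hε
    obtain ⟨k, hk⟩ := exists_nat_one_div_lt hε
    refine ⟨(Finset.range (k + 1)).inf' Finset.nonempty_range_add_one c,
      (Finset.lt_inf'_iff _).2 fun j _ => hc j, fun d hd => ?_⟩
    classical
    have h : ∃ j : ℕ, 1 / ((j : ℝ) + 1) ≤ ‖d‖ := ⟨k, le_trans hk.le hd⟩
    rw [weight, weightAt, dif_pos h]
    exact Finset.inf'_le c (Finset.mem_range.2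
      (Nat.lt_succ_of_le (Nat.find_min' h (le_trans hk.le hd))))
  · intro t x hx
    obtain ⟨J₀, hJ⟩ := pen_weight_le (fun j => (hc j).le) t
    refine le_trans (hJ J₀ le_rfl) ?_
    calc ∑ j ∈ Finset.range J₀, c j * t.cnt (1 / ((j : ℝ) + 1))
        ≤ ∑ j ∈ Finset.range J₀, (1 / 8 : ℝ) * (1 / 2) ^ j := by
          refine Finset.sum_le_sum fun j _ => ?_
          refine le_trans (mul_le_mul_of_nonneg_left (hN j t x hx) (hc j).le) ?_
          have h1 : (N j : ℝ) / ((N j : ℝ) + 1) ≤ 1 :=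
            (div_le_one (by positivity)).2 (by linarith)
          have h2 : c j * (N j : ℝ) = 1 / 8 * (1 / 2) ^ j * ((N j : ℝ) / ((N j : ℝ) + 1)) := by
            simp only [c]; ring
          rw [h2]
          exact mul_le_of_le_one_right (by positivity) h1
      _ = 1 / 8 * ∑ j ∈ Finset.range J₀, (1 / 2 : ℝ) ^ j := by rw [Finset.mul_sum]
      _ ≤ 1 / 8 * 2 := by gcongr; exact sum_geometric_two_le J₀
      _ = 1 / 4 := by norm_num

theorem sq_norm_le_sq (t : Tree E) : ∀ x : E, ‖x‖ ^ 2 ≤ t.sq x := by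
  induction t with
  | leaf => intro x; exact le_rfl
  | node d l r ihl ihr =>
      intro x
      have h := norm_sq_mid_le (x + d) (x - d)
      have e : (1 / 2 : ℝ) • ((x + d) + (x - d)) = x := by module
      rw [e] at h
      simp only [Tree.sq]
      linarith [ihl (x + d), ihr (x - d)]

/-- The same tree, mirrored through the origin. -/
noncomputable def Tree.neg : Tree E → Tree E
  | .leaf => .leaf
  | .node d l r => .node (-d) l.neg r.neg

theorem neg_spec {R : ℝ} {g : E → ℝ} (hg : ∀ d, g (-d) = g d) (t : Tree E) :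
    ∀ x : E, (t.Confined R x → t.neg.Confined R (-x)) ∧ t.neg.sq (-x) = t.sq x ∧
      t.neg.pen g = t.pen g := by
  induction t with
  | leaf => intro x; simp [Tree.neg, Tree.Confined, Tree.sq]
  | node d l r ihl ihr =>
      intro x
      obtain ⟨a1, a2, a3⟩ := ihl (x + d)
      obtain ⟨b1, b2, b3⟩ := ihr (x - d)
      have e1 : -x + -d = -(x + d) := by abel
      have e2 : -x - -d = -(x - d) := by abel
      refine ⟨?_, ?_, ?_⟩
      · rintro ⟨h0, h1, h2⟩
        exact ⟨by simpa using h0, e1 ▸ a1 h1, e2 ▸ b1 h2⟩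
      · simp only [Tree.neg, Tree.sq, e1, e2, a2, b2]
      · simp only [Tree.neg, Tree.pen, hg, a3, b3]

/-- The values attainable from `x`. -/
def potSet (g : E → ℝ) (x : E) : Set ℝ :=
  {v | ∃ t : Tree E, t.Confined 2 x ∧ t.sq x - t.pen g = v}

/-- The potential. -/
noncomputable def pot (g : E → ℝ) (x : E) : ℝ := sInf (potSet g x)

section pot

variable {g : E → ℝ} (hP : ∀ (t : Tree E) (x : E), t.Confined 2 x → t.pen g ≤ 1 / 4)
include hP

theorem potSet_bddBelow (x : E) : BddBelow (potSet g x) := by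
  refine ⟨‖x‖ ^ 2 - 1 / 4, ?_⟩
  rintro v ⟨t, ht, rfl⟩
  linarith [sq_norm_le_sq t x, hP t x ht]

theorem le_pot {x : E} (hx : ‖x‖ ≤ 2) : ‖x‖ ^ 2 - 1 / 4 ≤ pot g x := by
  refine le_csInf ⟨_, .leaf, hx, rfl⟩ ?_
  rintro v ⟨t, ht, rfl⟩
  linarith [sq_norm_le_sq t x, hP t x ht]

theorem pot_le {x : E} (hx : ‖x‖ ≤ 2) : pot g x ≤ ‖x‖ ^ 2 := by
  refine csInf_le (potSet_bddBelow hP x) ⟨.leaf, hx, ?_⟩
  simp [Tree.sq, Tree.pen]

theorem pot_mid {a b : E} (ha : ‖a‖ ≤ 2) (hb : ‖b‖ ≤ 2) :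
    pot g ((1 / 2 : ℝ) • (a + b)) ≤ (pot g a + pot g b) / 2 - g ((1 / 2 : ℝ) • (a - b)) := by
  refine le_of_forall_pos_le_add fun η hη => ?_
  obtain ⟨_, ⟨l, hl, rfl⟩, hlv⟩ := exists_lt_of_csInf_lt (s := potSet g a) ⟨_, .leaf, ha, rfl⟩
    (lt_add_of_pos_right (pot g a) hη)
  obtain ⟨_, ⟨r, hr, rfl⟩, hrv⟩ := exists_lt_of_csInf_lt (s := potSet g b) ⟨_, .leaf, hb, rfl⟩
    (lt_add_of_pos_right (pot g b) hη)
  have e1 : (1 / 2 : ℝ) • (a + b) + (1 / 2 : ℝ) • (a - b) = a := by module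
  have e2 : (1 / 2 : ℝ) • (a + b) - (1 / 2 : ℝ) • (a - b) = b := by module
  have hm : ‖(1 / 2 : ℝ) • (a + b)‖ ≤ 2 := by
    rw [norm_smul]
    have := norm_add_le a b
    norm_num
    linarith
  have hle : pot g ((1 / 2 : ℝ) • (a + b)) ≤
      (Tree.node ((1 / 2 : ℝ) • (a - b)) l r).sq ((1 / 2 : ℝ) • (a + b)) -
      (Tree.node ((1 / 2 : ℝ) • (a - b)) l r).pen g :=
    csInf_le (potSet_bddBelow hP _) ⟨Tree.node ((1 / 2 : ℝ) • (a - b)) l r,
      show _ ∧ _ ∧ _ from ⟨hm, by rw [e1]; exact hl, by rw [e2]; exact hr⟩, rfl⟩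
  simp only [Tree.sq, Tree.pen, e1, e2] at hle
  linarith

theorem pot_neg_le (hg : ∀ d, g (-d) = g d) {x : E} (hx : ‖x‖ ≤ 2) : pot g (-x) ≤ pot g x := by
  refine le_csInf ⟨_, .leaf, hx, rfl⟩ ?_
  rintro v ⟨t, ht, rfl⟩
  obtain ⟨h1, h2, h3⟩ := neg_spec (R := 2) hg t x
  exact csInf_le (potSet_bddBelow hP _) ⟨t.neg, h1 ht, by rw [h2, h3]⟩

theorem pot_lipschitz (hg0 : ∀ d, 0 ≤ g d) {x y : E} (hx : ‖x‖ ≤ 3 / 2) (hy : ‖y‖ ≤ 3 / 2) :
    pot g y ≤ pot g x + 20 * ‖y - x‖ := by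
  have hxl := le_pot hP (le_trans hx (by norm_num : (3 : ℝ) / 2 ≤ 2))
  have hxs := sq_nonneg ‖x‖
  rcases le_or_gt ‖y - x‖ (1 / 2) with hh | hh
  swap
  · have h1 := pot_le hP (le_trans hy (by norm_num : (3 : ℝ) / 2 ≤ 2))
    have h2 : ‖y‖ ^ 2 ≤ (3 / 2) ^ 2 := pow_le_pow_left₀ (norm_nonneg _) hy 2
    nlinarith
  rcases eq_or_ne y x with rfl | hne
  · simp
  set h := y - x with hdef
  have hpos : 0 < ‖h‖ := norm_pos_iff.2 (sub_ne_zero.2 hne)
  obtain ⟨K, hK1, hK2⟩ := exists_nat_pow_near (x := 1 / (2 * ‖h‖)) (y := (2 : ℝ))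
    (by rw [le_div_iff₀ (by positivity)]; linarith) (by norm_num)
  rw [le_div_iff₀ (by positivity)] at hK1
  rw [div_lt_iff₀ (by positivity), pow_succ] at hK2
  have hball : ∀ k, k ≤ K → ‖x + (2 : ℝ) ^ k • h‖ ≤ 2 := by
    intro k hk
    refine le_trans (norm_add_le _ _) ?_
    rw [norm_smul, Real.norm_eq_abs, abs_of_nonneg (by positivity)]
    have : (2 : ℝ) ^ k ≤ 2 ^ K := pow_le_pow_right₀ (by norm_num) hk
    nlinarith
  have hx2 : ‖x‖ ≤ 2 := le_trans hx (by norm_num)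
  have hiter : ∀ k, k ≤ K →
      (2 : ℝ) ^ k * (pot g (x + h) - pot g x) ≤ pot g (x + (2 : ℝ) ^ k • h) - pot g x := by
    intro k
    induction k with
    | zero => intro _; simp
    | succ k ih =>
        intro hk
        have hm := pot_mid hP hx2 (hball (k + 1) hk)
        have e : (1 / 2 : ℝ) • (x + (x + (2 : ℝ) ^ (k + 1) • h)) = x + (2 : ℝ) ^ k • h := by
          rw [pow_succ]; module
        rw [e] at hm
        have := ih (Nat.le_of_succ_le hk)
        have := hg0 ((1 / 2 : ℝ) • (x - (x + (2 : ℝ) ^ (k + 1) • h)))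
        rw [pow_succ] at *
        linarith
  have h3 := hiter K le_rfl
  have h4 := pot_le hP (hball K le_rfl)
  have h5 : ‖x + (2 : ℝ) ^ K • h‖ ^ 2 ≤ 2 ^ 2 := pow_le_pow_left₀ (norm_nonneg _) (hball K le_rfl) 2
  have e : x + h = y := by rw [hdef]; abel
  rw [e] at h3
  by_contra hcon
  push Not at hcon
  have h6 : (2 : ℝ) ^ K * (20 * ‖h‖) ≤ (2 : ℝ) ^ K * (pot g y - pot g x) :=
    mul_le_mul_of_nonneg_left (by linarith) (by positivity)
  nlinarith

end pot

/-- A closed set which contains the midpoint of any two of its points is convex. -/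
theorem convex_of_midpoint {C : Set E} (hcl : IsClosed C)
    (hmid : ∀ a ∈ C, ∀ b ∈ C, (1 / 2 : ℝ) • (a + b) ∈ C) : Convex ℝ C := by
  refine convex_iff_segment_subset.2 fun x hx y hy z hz => ?_
  rw [segment_eq_image'] at hz
  obtain ⟨t, ⟨ht0, ht1⟩, rfl⟩ := hz
  by_contra ht
  let S : Set ℝ := (fun u : ℝ => x + u • (y - x)) ⁻¹' C
  have hS : IsClosed S := hcl.preimage (by fun_prop)
  have h0 : (0 : ℝ) ∈ S := by simp [S, hx]
  have h1 : (1 : ℝ) ∈ S := by simp [S, hy]
  have tA : (S ∩ Set.Icc 0 t).Nonempty := ⟨0, h0, le_rfl, ht0⟩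
  have tB : (S ∩ Set.Icc t 1).Nonempty := ⟨1, h1, ht1, le_rfl⟩
  have bA : BddAbove (S ∩ Set.Icc 0 t) := ⟨t, fun u hu => hu.2.2⟩
  have bB : BddBelow (S ∩ Set.Icc t 1) := ⟨t, fun u hu => hu.2.1⟩
  have ha := (hS.inter isClosed_Icc).csSup_mem tA bA
  have hb := (hS.inter isClosed_Icc).csInf_mem tB bB
  set a := sSup (S ∩ Set.Icc 0 t)
  set b := sInf (S ∩ Set.Icc t 1)
  have hat : a < t := lt_of_le_of_ne ha.2.2 (fun e => ht (e ▸ ha.1))
  have htb : t < b := lt_of_le_of_ne hb.2.1 (fun e => ht (e ▸ hb.1))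
  have hm : (a + b) / 2 ∈ S := by
    show x + ((a + b) / 2) • (y - x) ∈ C
    have e : x + ((a + b) / 2) • (y - x) =
        (1 / 2 : ℝ) • ((x + a • (y - x)) + (x + b • (y - x))) := by module
    rw [e]
    exact hmid _ ha.1 _ hb.1
  rcases le_total ((a + b) / 2) t with h | h
  · have := le_csSup bA ⟨hm, by linarith [ha.2.1], h⟩
    linarith
  · have := csInf_le bB ⟨hm, h, by linarith [hb.2.2]⟩
    linarith

open Vale.Agent.P125 in
/-- Bounded long-step counts give an equivalent uniformly convex norm. -/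
theorem exists_uniformlyConvex (H : StepBound E) :
    ∃ N : Seminorm ℝ E, IsEquivNorm N ∧ IsUniformlyConvex N := by
  obtain ⟨g, hg0, hgneg, hgpos, hP⟩ := exists_penalty H
  let C : Set E := closedBall 0 (3 / 2) ∩ pot g ⁻¹' Set.Iic (1 / 16)
  have hball : ∀ x ∈ C, ‖x‖ ≤ 3 / 2 := fun x hx => by simpa using hx.1
  have hcont : ContinuousOn (pot g) (closedBall (0 : E) (3 / 2)) := by
    refine (LipschitzOnWith.of_le_add_mul (K := 20) fun x hx y hy => ?_).continuousOn
    have := pot_lipschitz hP hg0 (x := y) (y := x) (by simpa using hy) (by simpa using hx)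
    rw [dist_eq_norm]
    simpa using this
  have hclosed : IsClosed C :=
    hcont.preimage_isClosed_of_isClosed isClosed_closedBall isClosed_Iic
  have hC1 : ∀ x ∈ C, ‖x‖ ≤ 1 := by
    intro x hx
    have h1 := le_pot hP (le_trans (hball x hx) (by norm_num : (3 : ℝ) / 2 ≤ 2))
    have h2 : pot g x ≤ 1 / 16 := hx.2
    nlinarith [norm_nonneg x]
  have hsub : closedBall (0 : E) (1 / 4) ⊆ C := by
    intro x hx
    rw [mem_closedBall_zero_iff] at hx
    refine ⟨mem_closedBall_zero_iff.2 (by linarith), ?_⟩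
    have := pot_le hP (show ‖x‖ ≤ 2 by linarith)
    show pot g x ≤ 1 / 16
    nlinarith [norm_nonneg x]
  have hsymm : ∀ x ∈ C, -x ∈ C := fun x hx =>
    ⟨by simpa using hball x hx,
      le_trans (pot_neg_le hP hgneg (le_trans (hball x hx) (by norm_num))) hx.2⟩
  have hmid : ∀ a ∈ C, ∀ b ∈ C, (1 / 2 : ℝ) • (a + b) ∈ C := by
    intro a ha b hb
    refine ⟨convex_iff_segment_subset.1 (convex_closedBall _ _) ha.1 hb.1
      ⟨1 / 2, 1 / 2, by norm_num, by norm_num, by norm_num, by module⟩, ?_⟩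
    have h := pot_mid hP (le_trans (hball a ha) (by norm_num : (3 : ℝ) / 2 ≤ 2))
      (le_trans (hball b hb) (by norm_num))
    have h1 : pot g a ≤ 1 / 16 := ha.2
    have h2 : pot g b ≤ 1 / 16 := hb.2
    show pot g _ ≤ 1 / 16
    linarith [hg0 ((1 / 2 : ℝ) • (a - b))]
  have hconv : Convex ℝ C := convex_of_midpoint hclosed hmid
  have hnhds : C ∈ nhds (0 : E) :=
    Filter.mem_of_superset (closedBall_mem_nhds _ (by norm_num)) hsub
  have habs : Absorbent ℝ C := absorbent_nhds_zero hnhds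
  let N : Seminorm ℝ E := Seminorm.of (gauge C) (gauge_add_le hconv habs) (by
    intro r x
    rcases le_total 0 r with hr | hr
    · rw [gauge_smul_of_nonneg hr, Real.norm_eq_abs, abs_of_nonneg hr, smul_eq_mul]
    · rw [← gauge_neg hsymm, ← neg_smul, gauge_smul_of_nonneg (neg_nonneg.2 hr),
        Real.norm_eq_abs, abs_of_nonpos hr, smul_eq_mul])
  have hN : ∀ x, N x = gauge C x := fun x => rfl
  have hlow : ∀ x, ‖x‖ ≤ N x := by
    intro x
    have h := gauge_mono habs (fun y hy => mem_closedBall_zero_iff.2 (hC1 y hy) :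
      C ⊆ closedBall (0 : E) 1) x
    rw [gauge_closedBall zero_le_one, div_one] at h
    rw [hN]; exact h
  have hup : ∀ x, N x ≤ 4 * ‖x‖ := by
    intro x
    have h := gauge_mono (absorbent_nhds_zero (closedBall_mem_nhds (0 : E) (by norm_num))) hsub x
    rw [gauge_closedBall (by norm_num : (0 : ℝ) ≤ 1 / 4)] at h
    rw [hN]
    linarith
  have hmem : ∀ x, N x ≤ 1 → x ∈ C := fun x hx => by
    have := (gauge_le_one_iff_mem_closure hconv hnhds).1 (hN x ▸ hx)
    rwa [hclosed.closure_eq] at this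
  refine ⟨N, ⟨1, 4, one_pos, by norm_num, fun x => ⟨by simpa using hlow x, hup x⟩⟩, ?_⟩
  intro ε hε
  obtain ⟨m, hm, hgm⟩ := hgpos (ε / 8) (by positivity)
  set η := min (1 / 2) (m / 20) with hη
  have hη0 : 0 < η := lt_min (by norm_num) (by positivity)
  refine ⟨η / (1 + η), by positivity, fun x y hx hy hxy => ?_⟩
  have hxC := hmem x hx
  have hyC := hmem y hy
  set z := (1 / 2 : ℝ) • (x + y) with hz
  have hz1 : ‖z‖ ≤ 1 := hC1 z (hmid x hxC y hyC)
  have hd : ε / 8 ≤ ‖(1 / 2 : ℝ) • (x - y)‖ := by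
    rw [norm_smul]
    have := hup (x - y)
    norm_num
    linarith
  have hzp : pot g z ≤ 1 / 16 - m := by
    have h := pot_mid hP (le_trans (hball x hxC) (by norm_num : (3 : ℝ) / 2 ≤ 2))
      (le_trans (hball y hyC) (by norm_num))
    have h1 : pot g x ≤ 1 / 16 := hxC.2
    have h2 : pot g y ≤ 1 / 16 := hyC.2
    rw [← hz] at h
    linarith [hgm _ hd]
  have hw1 : ‖(1 + η) • z‖ ≤ 3 / 2 := by
    rw [norm_smul, Real.norm_eq_abs, abs_of_nonneg (by positivity)]
    nlinarith [min_le_left (1 / 2 : ℝ) (m / 20), norm_nonneg z]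
  have hw : (1 + η) • z ∈ C := by
    refine ⟨mem_closedBall_zero_iff.2 hw1, ?_⟩
    have hl := pot_lipschitz hP hg0 (x := z) (y := (1 + η) • z) (by linarith) hw1
    have e : (1 + η) • z - z = η • z := by module
    rw [e, norm_smul, Real.norm_eq_abs, abs_of_pos hη0] at hl
    show pot g _ ≤ 1 / 16
    nlinarith [min_le_right (1 / 2 : ℝ) (m / 20), norm_nonneg z]
  have h := gauge_le_one_of_mem hw
  rw [gauge_smul_of_nonneg (by positivity), smul_eq_mul] at h
  rw [hN]
  have h' : gauge C z ≤ 1 / (1 + η) := by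
    rw [le_div_iff₀ (by positivity)]; linarith
  calc gauge C z ≤ 1 / (1 + η) := h'
    _ = 1 - η / (1 + η) := by field_simp; ring

end P125.Renorm
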