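import Mathlib
import Vale.Agent.P125.Defs
import Vale.Agent.P125.Tree
import Vale.Agent.P125.Potential

/-!
# P125, part D: summing systems in `L²(Ω, X)` when there is no uniformly convex renorming

`IsL2Rep X q` says that `q` is the norm of linear combinations of finitely many `X`-valued
functions on a finite probability space.
-/

namespace P125.Renorm

open Finset Vale.Agent.P125

/-- `q` is given by combinations of vectors in `L²` of a finite probability space with values in
`X`. -/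
def IsL2Rep (X : Type*) [NormedAddCommGroup X] [NormedSpace ℝ X] {n : ℕ}
    (q : (Fin n → ℝ) → ℝ) : Prop :=
  ∃ (N : ℕ) (w : Fin N → ℝ) (Z : Fin N → Fin n → X), (∀ o, 0 ≤ w o) ∧ ∑ o, w o = 1 ∧
    ∀ a, q a = Real.sqrt (∑ o, w o * ‖∑ i, a i • Z o i‖ ^ 2)

variable {E : Type*} [NormedAddCommGroup E] [NormedSpace ℝ E]

set_option linter.unusedSectionVars false

/-- Minkowski's inequality for finitely many weights. -/
theorem l2_add_le {N : ℕ} (w : Fin N → ℝ) (hw : ∀ o, 0 ≤ w o) (u v : Fin N → E) :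
    Real.sqrt (∑ o, w o * ‖u o + v o‖ ^ 2) ≤
      Real.sqrt (∑ o, w o * ‖u o‖ ^ 2) + Real.sqrt (∑ o, w o * ‖v o‖ ^ 2) := by
  let U : EuclideanSpace ℝ (Fin N) := WithLp.toLp 2 (fun o => Real.sqrt (w o) * ‖u o‖)
  let V : EuclideanSpace ℝ (Fin N) := WithLp.toLp 2 (fun o => Real.sqrt (w o) * ‖v o‖)
  have h := norm_add_le U V
  simp only [EuclideanSpace.norm_eq] at h
  simp only [U, V, PiLp.add_apply, WithLp.ofLp_toLp, Real.norm_eq_abs, sq_abs] at h
  refine le_trans (Real.sqrt_le_sqrt (Finset.sum_le_sum fun o _ => ?_)) (le_trans h (le_of_eq ?_))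
  · rw [← mul_add, mul_pow, Real.sq_sqrt (hw o)]
    exact mul_le_mul_of_nonneg_left
      (pow_le_pow_left₀ (norm_nonneg _) (norm_add_le _ _) 2) (hw o)
  · congr 1 <;> exact congrArg Real.sqrt (Finset.sum_congr rfl fun o _ => by
      rw [mul_pow, Real.sq_sqrt (hw o)])

/-- A bound on all tail sums bounds all interval sums. -/
theorem interval_sum_abs_le {n : ℕ} (a : Fin n → ℝ) (M : ℝ)
    (h : ∀ k : Fin n, |∑ m ∈ Finset.Ici k, a m| ≤ M) (i j : Fin n) :
    |∑ m ∈ Finset.Icc i j, a m| ≤ 2 * M := by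
  have hM : 0 ≤ M := le_trans (abs_nonneg _) (h i)
  rcases le_or_gt i j with hij | hij
  · by_cases hj : (j : ℕ) + 1 < n
    · have hd : Disjoint (Finset.Icc i j) (Finset.Ici (⟨(j : ℕ) + 1, hj⟩ : Fin n)) := by
        rw [Finset.disjoint_left]
        intro m hm hm'
        simp only [Finset.mem_Icc, Finset.mem_Ici, Fin.le_iff_val_le_val] at hm hm'
        omega
      have hu : Finset.Icc i j ∪ Finset.Ici (⟨(j : ℕ) + 1, hj⟩ : Fin n) = Finset.Ici i := by
        ext m
        simp only [Finset.mem_union, Finset.mem_Icc, Finset.mem_Ici, Fin.le_iff_val_le_val] at *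
        omega
      have hs := Finset.sum_union (f := a) hd
      rw [hu] at hs
      have h1 := abs_le.1 (h i)
      have h2 := abs_le.1 (h ⟨(j : ℕ) + 1, hj⟩)
      rw [abs_le]
      constructor <;> linarith
    · have e : Finset.Icc i j = Finset.Ici i := by
        ext m
        simp only [Finset.mem_Icc, Finset.mem_Ici, Fin.le_iff_val_le_val, and_iff_left_iff_imp]
        intro
        omega
      rw [e]
      linarith [h i]
  · rw [Finset.Icc_eq_empty (not_le.2 hij), Finset.sum_empty, abs_zero]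
    linarith

/-- If the long-step counts are unbounded, there are summing systems of every length in finite
`L²(Ω, E)`. -/
theorem exists_l2_systems (H : ¬ StepBound E) :
    ∃ θ : ℝ, 0 < θ ∧ ∃ q : ∀ n : ℕ, (Fin n → ℝ) → ℝ,
      (∀ n, IsSystem θ (q n)) ∧ ∀ n, IsL2Rep E (q n) := by
  simp only [StepBound, not_forall, not_exists] at H
  obtain ⟨ε, hε, hN⟩ := H
  have h : ∀ N : ℕ, ∃ (t : Tree E) (x : E), t.Confined 2 x ∧ (N : ℝ) < t.cnt ε := by
    intro N
    obtain ⟨t, x, hx, hlt⟩ := hN N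
    exact ⟨t, x, hx, not_le.1 hlt⟩
  choose N w Z hw hs hZ hP using exists_system hε h
  refine ⟨ε / 6, by positivity,
    fun n a => Real.sqrt (∑ o, w n o * ‖∑ i, a i • ((1 / 2 : ℝ) • Z n o i)‖ ^ 2),
    fun n => ⟨?_, ?_, ?_, ?_⟩,
    fun n => ⟨N n, w n, fun o i => (1 / 2 : ℝ) • Z n o i, hw n, hs n, fun a => rfl⟩⟩
  · intro a b
    simp only [Pi.add_apply, add_smul, Finset.sum_add_distrib]
    exact l2_add_le _ (hw n) _ _
  · intro c a
    have e : ∀ o, w n o * ‖∑ i, (c • a) i • ((1 / 2 : ℝ) • Z n o i)‖ ^ 2 =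
        c ^ 2 * (w n o * ‖∑ i, a i • ((1 / 2 : ℝ) • Z n o i)‖ ^ 2) := by
      intro o
      simp only [Pi.smul_apply, smul_eq_mul, mul_smul]
      rw [← Finset.smul_sum, norm_smul, mul_pow, Real.norm_eq_abs, sq_abs]
      ring
    simp only [e, ← Finset.mul_sum]
    rw [Real.sqrt_mul (sq_nonneg c), Real.sqrt_sq_eq_abs]
  · intro a
    rw [Real.sqrt_le_left (Finset.sum_nonneg fun i _ => abs_nonneg _)]
    calc ∑ o, w n o * ‖∑ i, a i • ((1 / 2 : ℝ) • Z n o i)‖ ^ 2
        ≤ ∑ o, w n o * (∑ i, |a i|) ^ 2 := by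
          refine Finset.sum_le_sum fun o _ => mul_le_mul_of_nonneg_left ?_ (hw n o)
          refine pow_le_pow_left₀ (norm_nonneg _) ?_ 2
          refine le_trans (norm_sum_le _ _) (Finset.sum_le_sum fun i _ => ?_)
          rw [norm_smul, norm_smul, Real.norm_eq_abs (a i)]
          refine mul_le_of_le_one_right (abs_nonneg _) ?_
          have := hZ n o i
          norm_num
          linarith
      _ = (∑ i, |a i|) ^ 2 := by rw [← Finset.sum_mul, hs n, one_mul]
  · intro a i j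
    set Q := Real.sqrt (∑ o, w n o * ‖∑ i, a i • ((1 / 2 : ℝ) • Z n o i)‖ ^ 2) with hQ
    have hk : ∀ k : Fin n, |∑ m ∈ Finset.Ici k, a m| ≤ 3 / ε * Q := by
      intro k
      have h1 := hP n a k
      have e : ∑ o, w n o * ‖∑ i, a i • ((1 / 2 : ℝ) • Z n o i)‖ ^ 2 =
          (1 / 4) * ∑ o, w n o * ‖∑ i, a i • Z n o i‖ ^ 2 := by
        rw [Finset.mul_sum]
        refine Finset.sum_congr rfl fun o _ => ?_
        simp only [smul_comm _ (1 / 2 : ℝ)]
        rw [← Finset.smul_sum, norm_smul, mul_pow]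
        norm_num
        ring
      have hQ2 : Q ^ 2 = (1 / 4) * ∑ o, w n o * ‖∑ i, a i • Z n o i‖ ^ 2 := by
        rw [hQ, Real.sq_sqrt (Finset.sum_nonneg fun o _ =>
          mul_nonneg (hw n o) (sq_nonneg _)), e]
      have h2 : (|∑ m ∈ Finset.Ici k, a m| * ε) ^ 2 ≤ (3 * Q) ^ 2 := by
        rw [mul_pow, sq_abs]
        nlinarith
      have h3 := abs_le_of_sq_le_sq h2 (mul_nonneg (by norm_num) (Real.sqrt_nonneg _))
      rw [abs_of_nonneg (mul_nonneg (abs_nonneg _) hε.le)] at h3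
      rw [div_mul_eq_mul_div, le_div_iff₀ hε]
      exact h3
    calc ε / 6 * |∑ m ∈ Finset.Icc i j, a m| ≤ ε / 6 * (2 * (3 / ε * Q)) :=
          mul_le_mul_of_nonneg_left (interval_sum_abs_le a _ hk i j) (by positivity)
      _ = Q := by field_simp; ring

end P125.Renorm
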