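import Mathlib
import Vale.Agent.P125.Defs
import Vale.Agent.P125.L2Systems

/-!
# P125, part D: duality

Summing systems in the dual give summing systems in the space, and an equivalent uniformly convex
norm on the dual gives an equivalent uniformly smooth norm on the space.
-/

namespace P125.Renorm

open Finset Vale.Agent.P125

variable {X : Type*} [NormedAddCommGroup X] [NormedSpace ℝ X]

/-- A finite system of functionals whose combinations dominate a linear form is approximately
solved in the unit ball. -/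
theorem exists_approx_solution {n : ℕ} (f : Fin n → (X →L[ℝ] ℝ)) (b : Fin n → ℝ)
    (h : ∀ a : Fin n → ℝ, ∑ i, a i * b i ≤ ‖∑ i, a i • f i‖) {η : ℝ} (hη : 0 < η) :
    ∃ z : X, ‖z‖ ≤ 1 ∧ ∀ i, |f i z - b i| ≤ η := by
  let A : X →L[ℝ] (Fin n → ℝ) := ContinuousLinearMap.pi f
  set s := closure (A '' Metric.closedBall (0 : X) 1) with hs
  have hconv : Convex ℝ s := ((convex_closedBall (0 : X) 1).linear_image A.toLinearMap).closure
  have hb : b ∈ s := by
    by_contra hb
    obtain ⟨φ, u, hφ, hu⟩ := geometric_hahn_banach_closed_point hconv isClosed_closure hb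
    let a : Fin n → ℝ := fun i => φ (fun j => if i = j then 1 else 0)
    have hrep : ∀ v : Fin n → ℝ, φ v = ∑ i, a i * v i := by
      intro v
      have := LinearMap.pi_apply_eq_sum_univ φ.toLinearMap v
      simpa [a, mul_comm] using this
    have hF : ∀ z : X, ‖z‖ ≤ 1 → (∑ i, a i • f i) z < u := by
      intro z hz
      have := hφ (A z) (subset_closure ⟨z, by simpa using hz, rfl⟩)
      rw [hrep] at this
      simpa [A] using this
    have hu0 : 0 < u := by simpa using hF 0 (by simp)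
    have hn : ‖∑ i, a i • f i‖ ≤ u := by
      refine ContinuousLinearMap.opNorm_le_bound _ hu0.le fun z => ?_
      rcases eq_or_ne z 0 with rfl | hz
      · simp
      have hz' : 0 < ‖z‖ := norm_pos_iff.2 hz
      have h1 := hF (‖z‖⁻¹ • z) (by rw [norm_smul, norm_inv, norm_norm, inv_mul_cancel₀ hz'.ne'])
      have h2 := hF (-(‖z‖⁻¹ • z)) (by
        rw [norm_neg, norm_smul, norm_inv, norm_norm, inv_mul_cancel₀ hz'.ne'])
      rw [map_smul, smul_eq_mul, inv_mul_lt_iff₀ hz'] at h1
      rw [map_neg, map_smul, smul_eq_mul, ← mul_neg, inv_mul_lt_iff₀ hz'] at h2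
      rw [Real.norm_eq_abs, abs_le]
      constructor <;> nlinarith
    rw [hrep] at hu
    linarith [h a]
  obtain ⟨v, ⟨z, hz, rfl⟩, hzv⟩ := Metric.mem_closure_iff.1 hb η hη
  refine ⟨z, by simpa using hz, fun i => ?_⟩
  have := lt_of_le_of_lt (dist_le_pi_dist b (A z) i) hzv
  rw [dist_comm, Real.dist_eq] at this
  simpa [A] using this.le

/-- Summing systems in the dual give summing systems in the space. -/
theorem summingSystem_of_dual {θ : ℝ} (hθ : 0 < θ) {n : ℕ}
    (h : SummingSystem (X →L[ℝ] ℝ) θ n) : SummingSystem X (θ / 4) n := by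
  obtain ⟨f, hf, hsum⟩ := h
  set η := θ / (4 * n + 4) with hη
  have hη0 : 0 < η := by positivity
  have key : ∀ k : Fin n, ∃ z : X, ‖z‖ ≤ 1 ∧
      ∀ i, |f i z - (if i ≤ k then θ else 0)| ≤ η := by
    intro k
    refine exists_approx_solution f _ (fun a => ?_) hη0
    have h0 : (0 : ℕ) < n := lt_of_le_of_lt (Nat.zero_le _) k.2
    have hI : Finset.Iic k = Finset.Icc (⟨0, h0⟩ : Fin n) k := by
      ext m
      simp only [Finset.mem_Iic, Finset.mem_Icc, Fin.le_iff_val_le_val]
      omega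
    have e : ∑ i, a i * (if i ≤ k then θ else 0) =
        θ * ∑ m ∈ Finset.Icc (⟨0, h0⟩ : Fin n) k, a m := by
      rw [← hI, Finset.mul_sum, ← Finset.sum_filter_add_sum_filter_not Finset.univ (fun i => i ≤ k)]
      have e2 : Finset.univ.filter (fun i : Fin n => i ≤ k) = Finset.Iic k := by ext m; simp
      rw [e2, add_eq_left.2 (Finset.sum_eq_zero fun i hi => by
        simp only [Finset.mem_filter] at hi
        rw [if_neg hi.2, mul_zero])]
      refine Finset.sum_congr rfl fun i hi => ?_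
      rw [if_pos (Finset.mem_Iic.1 hi), mul_comm]
    rw [e]
    exact le_trans (mul_le_mul_of_nonneg_left (le_abs_self _) hθ.le) (hsum a _ _)
  choose z hz hfz using key
  refine ⟨z, hz, fun a i j => ?_⟩
  set Q := ‖∑ k, a k • z k‖ with hQ
  have hk : ∀ k : Fin n, θ * |∑ m ∈ Finset.Ici k, a m| ≤ Q + η * ∑ m, |a m| := by
    intro k
    have h1 : |f k (∑ m, a m • z m)| ≤ Q := by
      have := (f k).le_opNorm (∑ m, a m • z m)
      rw [Real.norm_eq_abs] at this
      exact le_trans this (mul_le_of_le_one_left (norm_nonneg _) (hf k))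
    have h2 : |f k (∑ m, a m • z m) - θ * ∑ m ∈ Finset.Ici k, a m| ≤ η * ∑ m, |a m| := by
      have e : θ * ∑ m ∈ Finset.Ici k, a m = ∑ m, a m * (if k ≤ m then θ else 0) := by
        rw [Finset.mul_sum, ← Finset.sum_filter_add_sum_filter_not Finset.univ (fun m => k ≤ m)]
        have e2 : Finset.univ.filter (fun m : Fin n => k ≤ m) = Finset.Ici k := by ext m; simp
        rw [e2, add_eq_left.2 (Finset.sum_eq_zero fun i hi => by
          simp only [Finset.mem_filter] at hi
          rw [if_neg hi.2, mul_zero])]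
        refine Finset.sum_congr rfl fun i hi => ?_
        rw [if_pos (Finset.mem_Ici.1 hi), mul_comm]
      rw [e, map_sum, ← Finset.sum_sub_distrib, Finset.mul_sum]
      refine le_trans (Finset.abs_sum_le_sum_abs _ _) (Finset.sum_le_sum fun m _ => ?_)
      rw [map_smul, smul_eq_mul, ← mul_sub, abs_mul, mul_comm η]
      exact mul_le_mul_of_nonneg_left (hfz m k) (abs_nonneg _)
    have h3 := abs_le.1 h1
    have h4 := abs_le.1 h2
    rw [← abs_of_pos hθ, ← abs_mul, abs_le]
    constructor <;> linarith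
  set M := (Q + η * ∑ m, |a m|) / θ with hM
  have hk' : ∀ k : Fin n, |∑ m ∈ Finset.Ici k, a m| ≤ M := fun k => by
    rw [hM, le_div_iff₀ hθ, mul_comm]
    exact hk k
  have hcoord : ∑ m, |a m| ≤ n * (2 * M) := by
    calc ∑ m, |a m| ≤ ∑ _m : Fin n, 2 * M := by
          refine Finset.sum_le_sum fun m _ => ?_
          simpa using interval_sum_abs_le a M hk' m m
      _ = n * (2 * M) := by simp
  have hθM : θ * M = Q + η * ∑ m, |a m| := by
    rw [hM]; field_simp
  have hI := interval_sum_abs_le a M hk' i j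
  have hM0 : 0 ≤ M := le_trans (abs_nonneg _) (hk' i)
  have hηn : η * (4 * n) ≤ θ := by
    have e : η * (4 * n + 4) = θ := by rw [hη]; field_simp
    nlinarith
  have h5 : η * ∑ m, |a m| ≤ η * (n * (2 * M)) := mul_le_mul_of_nonneg_left hcoord hη0.le
  have h6 : η * (4 * n) * M ≤ θ * M := mul_le_mul_of_nonneg_right hηn hM0
  calc θ / 4 * |∑ m ∈ Finset.Icc i j, a m| ≤ θ / 4 * (2 * M) :=
        mul_le_mul_of_nonneg_left hI (by positivity)
    _ ≤ Q := by nlinarith

/-- An equivalent uniformly convex norm on the dual gives an equivalent uniformly smooth norm. -/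
theorem exists_uniformlySmooth {ν : Seminorm ℝ (X →L[ℝ] ℝ)} (hequiv : IsEquivNorm ν)
    (hconv : IsUniformlyConvex ν) :
    ∃ N : Seminorm ℝ X, IsEquivNorm N ∧ IsUniformlySmooth N := by
  obtain ⟨a, b, ha, hb, hab⟩ := hequiv
  let S : X → Set ℝ := fun x => (fun f : X →L[ℝ] ℝ => f x) '' {f | ν f ≤ 1}
  have hS0 : ∀ x, (S x).Nonempty := fun x => ⟨0, 0, by simp, by simp⟩
  have hfn : ∀ f, ν f ≤ 1 → ‖f‖ ≤ a⁻¹ := fun f hf => by
    rw [← one_div, le_div_iff₀ ha, mul_comm]
    exact le_trans (hab f).1 hf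
  have hSb : ∀ x, BddAbove (S x) := fun x => ⟨a⁻¹ * ‖x‖, by
    rintro _ ⟨f, hf, rfl⟩
    exact le_trans (le_abs_self _) (le_trans (f.le_opNorm x)
      (mul_le_mul_of_nonneg_right (hfn f hf) (norm_nonneg _)))⟩
  have hle : ∀ f x, ν f ≤ 1 → f x ≤ sSup (S x) := fun f x hf => le_csSup (hSb x) ⟨f, hf, rfl⟩
  have hadd : ∀ x y, sSup (S (x + y)) ≤ sSup (S x) + sSup (S y) := by
    intro x y
    refine csSup_le (hS0 _) ?_
    rintro _ ⟨f, hf, rfl⟩
    simp only [map_add]
    exact add_le_add (hle f x hf) (hle f y hf)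
  have hsm : ∀ (r : ℝ) x, sSup (S (r • x)) ≤ |r| * sSup (S x) := by
    intro r x
    refine csSup_le (hS0 _) ?_
    rintro _ ⟨f, hf, rfl⟩
    simp only [map_smul, smul_eq_mul]
    rcases le_total 0 r with hr | hr
    · rw [abs_of_nonneg hr]
      exact mul_le_mul_of_nonneg_left (hle f x hf) hr
    · rw [abs_of_nonpos hr]
      have := hle (-f) x (by rwa [map_neg_eq_map])
      rw [_root_.neg_apply] at this
      nlinarith
  let N : Seminorm ℝ X := Seminorm.of (fun x => sSup (S x)) hadd (by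
    intro r x
    rw [Real.norm_eq_abs]
    refine le_antisymm (hsm r x) ?_
    rcases eq_or_ne r 0 with rfl | hr
    · rw [abs_zero, zero_mul]
      exact le_csSup (hSb _) ⟨0, by simp, by simp⟩
    · have := hsm r⁻¹ (r • x)
      rw [smul_smul, inv_mul_cancel₀ hr, one_smul, abs_inv,
        le_inv_mul_iff₀ (abs_pos.2 hr)] at this
      exact this)
  have hN : ∀ x, N x = sSup (S x) := fun x => rfl
  have hdual : ∀ (g : X →L[ℝ] ℝ) x, g x ≤ ν g * N x := by
    intro g x
    rcases eq_or_lt_of_le (apply_nonneg ν g) with h0 | h0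
    · have hg : g = 0 := by
        have := (hab g).1
        rw [← h0] at this
        exact norm_le_zero_iff.1 (by nlinarith [norm_nonneg g])
      simp [hg]
    · have := hle ((ν g)⁻¹ • g) x (by
        rw [map_smul_eq_mul, norm_inv, Real.norm_eq_abs, abs_of_pos h0, inv_mul_cancel₀ h0.ne'])
      rw [_root_.smul_apply, smul_eq_mul, inv_mul_le_iff₀ h0] at this
      exact this
  refine ⟨N, ⟨b⁻¹, a⁻¹, inv_pos.2 hb, inv_pos.2 ha, fun x => ⟨?_, ?_⟩⟩, ?_⟩
  · obtain ⟨f, hf, hfx⟩ := exists_dual_vector'' ℝ x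
    have h1 := hle (b⁻¹ • f) x (by
      rw [map_smul_eq_mul, norm_inv, Real.norm_eq_abs, abs_of_pos hb, inv_mul_le_iff₀ hb]
      exact le_trans (hab f).2 (mul_le_mul_of_nonneg_left hf hb.le))
    have hfx' : f x = ‖x‖ := by simpa using hfx
    rw [_root_.smul_apply, smul_eq_mul, hfx'] at h1
    exact h1
  · rw [hN]
    refine csSup_le (hS0 x) ?_
    rintro _ ⟨f, hf, rfl⟩
    exact le_trans (le_abs_self _) (le_trans (f.le_opNorm x)
      (mul_le_mul_of_nonneg_right (hfn f hf) (norm_nonneg _)))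
  intro ε hε
  obtain ⟨δ, hδ, hUC⟩ := hconv ε hε
  refine ⟨δ, hδ, fun τ hτ hτδ x y hx hy => ?_⟩
  refine le_of_forall_pos_le_add fun η hη => ?_
  obtain ⟨_, ⟨f, hf, rfl⟩, hf1⟩ := exists_lt_of_lt_csSup (hS0 (x + τ • y))
    (sub_lt_self (sSup (S (x + τ • y))) hη)
  obtain ⟨_, ⟨g, hg, rfl⟩, hg1⟩ := exists_lt_of_lt_csSup (hS0 (x - τ • y))
    (sub_lt_self (sSup (S (x - τ • y))) hη)
  simp only [map_add, map_sub, map_smul, smul_eq_mul] at hf1 hg1
  rw [← hN] at hf1 hg1
  have h1 := hdual (f + g) x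
  have h2 := hdual (f - g) y
  rw [hx, mul_one, _root_.add_apply] at h1
  rw [hy, mul_one, _root_.sub_apply] at h2
  have h3 : τ * (f y - g y) ≤ τ * ν (f - g) := mul_le_mul_of_nonneg_left h2 hτ.le
  rcases lt_or_ge (ν (f - g)) ε with hd | hd
  · have h4 : ν (f + g) ≤ 2 := le_trans (map_add_le_add ν f g) (by
      rw [Set.mem_setOf_eq] at hf hg; linarith)
    have h5 : τ * ν (f - g) ≤ τ * ε := mul_le_mul_of_nonneg_left hd.le hτ.le
    nlinarith
  · have h4 := hUC f g hf hg hd
    rw [map_smul_eq_mul, Real.norm_eq_abs, abs_of_pos (by norm_num : (0 : ℝ) < 1 / 2)] at h4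
    have h5 : ν (f - g) ≤ 2 := le_trans (map_sub_le_add ν f g) (by
      rw [Set.mem_setOf_eq] at hf hg; linarith)
    have h6 : τ * ν (f - g) ≤ τ * 2 := mul_le_mul_of_nonneg_left h5 hτ.le
    nlinarith

end P125.Renorm
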