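import Vale.Agent.P125.L2Systems

/-!
# P125, part D4: summing systems in `E` from a spreading seminorm represented in `L²(Ω, E)`

Gap merging in a spreading seminorm gives finitely many `E`-valued functions with almost extremal
sign sums; almost extremal sign sums pass to one point of `Ω`, and norming functionals show that
the values there form a summing system.
-/

namespace Vale.Agent.P125.James

open scoped BigOperators
open P125.Renorm (IsL2Rep)

section List

variable {θ : ℝ} {qs : ∀ n : ℕ, (Fin n → ℝ) → ℝ} (S : SpreadNorm θ qs)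

theorem eta_zeros (z : ℕ) : ∀ l r : List ℝ, S.η (l ++ (List.replicate z 0 ++ r)) = S.η (l ++ r) := by
  induction z with
  | zero => intro l r; simp
  | succ z ih =>
      intro l r
      rw [List.replicate_succ, List.cons_append, S.insert_zero, ih]

theorem eta_merge_list : ∀ (s : List ℝ) (a : ℝ) (l r : List ℝ),
    S.η (l ++ (a + s.sum) :: r) ≤ S.η (l ++ (a :: s ++ r)) := by
  intro s
  induction s with
  | nil => intro a l r; simp
  | cons b s ih =>
      intro a l r
      have h1 : S.η (l ++ (a + (b :: s).sum) :: r) ≤ S.η (l ++ ((a + b) :: s ++ r)) := by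
        simpa [List.sum_cons, add_assoc] using ih (a + b) l r
      exact h1.trans (by simpa using S.merge l (s ++ r) a b)

theorem eta_merge_replicate (z : ℕ) (v : ℝ) (l r : List ℝ) :
    S.η (l ++ (z * v : ℝ) :: r) ≤ S.η (l ++ (List.replicate z v ++ r)) := by
  cases z with
  | zero => simp [S.insert_zero]
  | succ z =>
      have := eta_merge_list S (List.replicate z v) v l r
      rw [List.sum_replicate, nsmul_eq_mul] at this
      rw [List.replicate_succ]
      convert this using 3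
      push_cast; ring

/-- `m` copies of `1, -1`. -/
def alt (m : ℕ) : List ℝ := (List.replicate m [(1 : ℝ), -1]).flatten

/-- The normal form `c, (1, -1)^m, -c`. -/
def word (c : ℝ) (m : ℕ) : List ℝ := [c] ++ alt m ++ [-c]

theorem alt_succ (m : ℕ) : alt (m + 1) = 1 :: -1 :: alt m := by
  simp [alt, List.replicate_succ]

theorem eta_nil : S.η [] = 0 := by
  have := S.smul 0 []
  simpa using this

theorem eta_nonneg (l : List ℝ) : 0 ≤ S.η l := by
  have h := S.add_le (l.map fun a => (a, -a))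
  simp only [List.map_map] at h
  have e1 : ((fun q : ℝ × ℝ => q.1 + q.2) ∘ fun a : ℝ => (a, -a)) = fun _ => (0 : ℝ) := by
    funext a; simp
  have e2 : (Prod.fst ∘ fun a : ℝ => (a, -a)) = id := rfl
  have e3 : (Prod.snd ∘ fun a : ℝ => (a, -a)) = fun a : ℝ => (-1 : ℝ) * a := by
    funext a; simp
  rw [e1, e2, e3, List.map_id, List.map_const', S.smul] at h
  have h0 : S.η (List.replicate l.length 0) = 0 := by
    have := eta_zeros S l.length [] []
    simpa [eta_nil] using this
  rw [h0] at h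
  norm_num at h
  linarith

theorem eta_pair (c : ℝ) : S.η [c, -c] = |c| * S.η [1, -1] := by
  rw [← S.smul]; simp

theorem word_ge_pair (c : ℝ) (m : ℕ) : |c + 1| * S.η [1, -1] ≤ S.η (word c (m + 1)) := by
  have h : S.η ([c + 1] ++ [-(c + 1)]) ≤ S.η ([c + 1] ++ (-1 :: alt m ++ [-c])) := by
    have hsum : (alt m).sum = 0 := by simp [alt, List.sum_flatten]
    have := eta_merge_list S (alt m ++ [-c]) (-1) [c + 1] []
    simp only [List.sum_append, hsum, List.append_nil] at this
    convert this using 3 <;> simp [add_comm]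
  have h2 : S.η ([] ++ (c + 1) :: (-1 :: alt m ++ [-c])) ≤ S.η ([] ++ c :: 1 :: (-1 :: alt m ++ [-c])) :=
    S.merge [] _ c 1
  rw [← eta_pair]
  refine le_trans (le_trans (by simpa using h) (by simpa using h2)) (le_of_eq ?_)
  simp [word, alt_succ]

theorem word_ge_abs (c : ℝ) (m : ℕ) : |c| * S.η [1, -1] ≤ S.η (word c (m + 1)) := by
  have hsum : (alt (m + 1)).sum = 0 := by simp [alt, List.sum_flatten]
  have := eta_merge_list S (alt (m + 1) ++ [-c]) 1 [c] []
  have h3 := eta_merge_list S (alt (m + 1)) (-c) [c] []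
  have h4 : S.η ([c] ++ [-c]) ≤ S.η ([c] ++ ((alt (m + 1)) ++ [-c])) := by
    cases hm : alt (m + 1) with
    | nil => simp
    | cons a s =>
        have h5 := eta_merge_list S (s ++ [-c]) a [c] []
        simp only [List.sum_append, List.sum_cons, List.sum_nil, add_zero, List.append_nil] at h5
        rw [hm, List.sum_cons] at hsum
        rw [show a + (s.sum + -c) = -c by linarith] at h5
        simpa using h5
  rw [← eta_pair]
  simpa [word] using h4

theorem pair_pos (hθ : 0 < θ) : 0 < S.η [1, -1] := by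
  have := S.lower [] [1] [-1]
  simp at this
  linarith

theorem word_ge_half (hθ : 0 < θ) (c : ℝ) (m : ℕ) : S.η [1, -1] / 2 ≤ S.η (word c (m + 1)) := by
  have hp := pair_pos S hθ
  rcases le_or_gt (1 / 2 : ℝ) |c| with h | h
  · nlinarith [word_ge_abs S c m]
  · have : (1 / 2 : ℝ) ≤ |c + 1| := by
      rw [abs_lt] at h; rw [abs_of_pos (by linarith)]; linarith
    nlinarith [word_ge_pair S c m]

theorem word_anti (c : ℝ) (m : ℕ) : S.η (word c (m + 1)) ≤ S.η (word c (m + 2)) := by
  have h := S.merge [c, 1] (-1 :: alt m ++ [-c]) (-1) 1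
  have h2 : S.η ([c, 1] ++ (-1 + 1) :: (-1 :: alt m ++ [-c])) = S.η (word c (m + 1)) := by
    norm_num
    rw [show (c :: 1 :: 0 :: -1 :: (alt m ++ [-c])) = [c, 1] ++ 0 :: (-1 :: (alt m ++ [-c])) from rfl,
      S.insert_zero]
    simp [word, alt_succ]
  rw [h2] at h
  simpa [word, alt_succ] using h

theorem eta_append_le_add (l r : List ℝ) :
    S.η (l ++ r) ≤ S.η l + S.η r := by
  have h := S.add_le (l.map (fun a => (a, (0 : ℝ))) ++ r.map (fun a => ((0 : ℝ), a)))
  simp only [List.map_append, List.map_map] at h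
  have e1 : S.η (l.map (Prod.fst ∘ fun a => (a, (0 : ℝ))) ++ r.map (Prod.fst ∘ fun a => ((0 : ℝ), a)))
      = S.η l := by
    rw [show (Prod.fst ∘ fun a : ℝ => (a, (0 : ℝ))) = id from rfl,
      show (Prod.fst ∘ fun a : ℝ => ((0 : ℝ), a)) = fun _ => (0 : ℝ) from rfl,
      List.map_id, List.map_const']
    simpa using eta_zeros S r.length l []
  have e2 : S.η (l.map (Prod.snd ∘ fun a => (a, (0 : ℝ))) ++ r.map (Prod.snd ∘ fun a => ((0 : ℝ), a)))
      = S.η r := by
    rw [show (Prod.snd ∘ fun a : ℝ => (a, (0 : ℝ))) = (fun _ => (0 : ℝ)) from rfl,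
      show (Prod.snd ∘ fun a : ℝ => ((0 : ℝ), a)) = id from rfl,
      List.map_id, List.map_const']
    simpa using eta_zeros S l.length [] r
  rw [e1, e2] at h
  refine le_trans (le_of_eq ?_) h
  congr 1
  simp [Function.comp_def]

theorem word_zero_le (m : ℕ) : S.η (word 0 m) ≤ m * S.η [1, -1] := by
  have h : ∀ m, S.η (alt m) ≤ m * S.η [1, -1] := by
    intro m
    induction m with
    | zero => simp [alt, eta_nil]
    | succ m ih =>
        have := eta_append_le_add S [1, -1] (alt m)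
        rw [alt_succ]
        push_cast
        simp only [List.cons_append, List.nil_append] at this
        linarith
  have e : S.η (word 0 m) = S.η (alt m) := by
    have h1 := S.insert_zero [] (alt m ++ [-0])
    have h2 := S.insert_zero (alt m) []
    simp only [word, neg_zero, List.nil_append, List.append_nil, List.cons_append,
      List.append_assoc] at *
    rw [h1, h2]
  rw [e]; exact h m

/-- Some `m` at which the infimum of `c ↦ η (c, (1,-1)^m, -c)` almost does not grow. -/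
theorem exists_flat (hθ : 0 < θ) {q : ℝ} (hq : 1 < q) :
    ∃ (m : ℕ) (c : ℝ), ∀ e : ℝ, S.η (word c (m + 2)) ≤ q * S.η (word e (m + 1)) := by
  by_contra hcon
  push Not at hcon
  have hstep : ∀ (j : ℕ) (c : ℝ), q ^ j * (S.η [1, -1] / 2) ≤ S.η (word c (j + 1)) := by
    intro j
    induction j with
    | zero => intro c; simpa using word_ge_half S hθ c 0
    | succ j ih =>
        intro c
        obtain ⟨e, he⟩ := hcon j c
        rw [pow_succ]
        nlinarith [ih e]
  have hp := pair_pos S hθ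
  have hb : ∀ j : ℕ, q ^ j ≤ 2 * (j + 1) := by
    intro j
    have h1 := (hstep j 0).trans (word_zero_le S (j + 1))
    push_cast at h1
    nlinarith
  obtain ⟨j, hj⟩ := exists_nat_gt (8 / (q - 1) ^ 2)
  have hd : 0 < q - 1 := by linarith
  have h1 : 1 + (j + 1 : ℝ) * (q - 1) ≤ q ^ (j + 1) := by
    have := one_add_mul_le_pow (show (-2 : ℝ) ≤ q - 1 by linarith) (j + 1)
    push_cast at this
    simpa using this
  have h2 := hb (2 * (j + 1))
  rw [mul_comm 2 (j + 1), pow_mul] at h2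
  push_cast at h2
  have h3 : (1 + (j + 1 : ℝ) * (q - 1)) ^ 2 ≤ (q ^ (j + 1)) ^ 2 :=
    pow_le_pow_left₀ (by positivity) h1 2
  have h4 : 8 ≤ (j + 1 : ℝ) * (q - 1) ^ 2 := by
    rw [div_lt_iff₀ (by positivity)] at hj
    nlinarith
  nlinarith

/-! ### The interleaved words -/

/-- Coordinate functional, as a list of linear forms: the slots of one block. -/
def block (n : ℕ) : List ((Fin n → ℝ) →ₗ[ℝ] ℝ) :=
  List.ofFn (fun i => LinearMap.proj i) ++ List.ofFn (fun i => -LinearMap.proj i)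

/-- All slots. -/
noncomputable def skel (n m : ℕ) (c : ℝ) : List ((Fin n → ℝ) →ₗ[ℝ] ℝ) :=
  [c • ∑ i, LinearMap.proj i] ++ (List.replicate m (block n)).flatten ++
    [-(c • ∑ i, LinearMap.proj i)]

/-- The coefficient list of a combination `w`. -/
noncomputable def coeffs (n m : ℕ) (c : ℝ) (w : Fin n → ℝ) : List ℝ :=
  (skel n m c).map fun φ => φ w

theorem coeffs_eq (n m : ℕ) (c : ℝ) (w : Fin n → ℝ) :
    coeffs n m c w = [c * ∑ i, w i] ++
      (List.replicate m (List.ofFn w ++ List.ofFn fun i => -w i)).flatten ++ [-(c * ∑ i, w i)] := by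
  have hb : (block n).map (fun φ => φ w) = List.ofFn w ++ List.ofFn fun i => -w i := by
    simp [block, List.map_ofFn, Function.comp_def]
  simp [coeffs, skel, List.map_flatten, List.map_replicate, hb]

theorem ofFn_cut (n k : ℕ) (hk : k ≤ n) (a b : ℝ) :
    List.ofFn (fun i : Fin n => if (i : ℕ) < k then a else b)
      = List.replicate k a ++ List.replicate (n - k) b := by
  refine List.ext_getElem (by simp; omega) fun i h1 h2 => ?_
  by_cases h : i < k
  · simp [h]
  · simp [h, List.getElem_append]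

theorem ofFn_single (n : ℕ) (i : Fin n) (a : ℝ) :
    List.ofFn (fun j : Fin n => if j = i then a else 0)
      = List.replicate (i : ℕ) 0 ++ a :: List.replicate (n - i - 1) 0 := by
  refine List.ext_getElem (by simp; omega) fun t h1 h2 => ?_
  rcases lt_trichotomy t (i : ℕ) with h | h | h
  · simp [h, Fin.ext_iff, h.ne]
  · subst h; simp
  · have hne : ¬ t < (i : ℕ) := by omega
    simp [List.getElem_append, hne, Fin.ext_iff, h.ne', List.getElem_cons,
      show t - (i : ℕ) ≠ 0 by omega]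

theorem coeffs_single (n m : ℕ) (c : ℝ) (i : Fin n) :
    S.η (coeffs n m c (fun j => if j = i then 1 else 0)) = S.η (word c m) := by
  have hs : (∑ j : Fin n, if j = i then (1 : ℝ) else 0) = 1 := by simp
  rw [coeffs_eq, hs, mul_one]
  have hneg : (List.ofFn fun j : Fin n => -(if j = i then (1 : ℝ) else 0))
      = List.replicate (i : ℕ) 0 ++ (-1) :: List.replicate (n - i - 1) 0 := by
    rw [← ofFn_single]; congr 1; funext j; split <;> simp
  rw [hneg, ofFn_single]
  set p := List.replicate (i : ℕ) (0 : ℝ)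
  set s := List.replicate (n - i - 1) (0 : ℝ)
  have key : ∀ (m : ℕ) (l r : List ℝ),
      S.η (l ++ ((List.replicate m ((p ++ 1 :: s) ++ (p ++ (-1) :: s))).flatten ++ r))
        = S.η (l ++ (alt m ++ r)) := by
    intro m
    induction m with
    | zero => intro l r; simp [alt]
    | succ m ih =>
        intro l r
        set R := (List.replicate m ((p ++ 1 :: s) ++ (p ++ (-1) :: s))).flatten ++ r
        have e : (List.replicate (m + 1) ((p ++ 1 :: s) ++ (p ++ (-1) :: s))).flatten ++ r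
            = p ++ 1 :: (s ++ (p ++ (-1) :: (s ++ R))) := by
          simp [R, List.replicate_succ]
        rw [e, eta_zeros,
          show l ++ 1 :: (s ++ (p ++ (-1) :: (s ++ R))) = (l ++ [1]) ++ (s ++ (p ++ (-1) :: (s ++ R)))
            by simp,
          eta_zeros, eta_zeros,
          show (l ++ [1]) ++ (-1) :: (s ++ R) = (l ++ [1, -1]) ++ (s ++ R) by simp,
          eta_zeros, ih, alt_succ]
        simp
  simpa [word] using key m [c] [-c]

theorem coeffs_signs (n m k : ℕ) (hk : k ≤ n) (hn : 0 < n) (c : ℝ) :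
    ∃ e : ℝ, (n : ℝ) * S.η (word e (m + 1)) ≤
      S.η (coeffs n (m + 2) c (fun i : Fin n => if (i : ℕ) < k then 1 else -1)) := by
  set C := c * ∑ i : Fin n, if (i : ℕ) < k then (1 : ℝ) else -1
  have hneg : (List.ofFn fun i : Fin n => -(if (i : ℕ) < k then (1 : ℝ) else -1))
      = List.replicate k (-1) ++ List.replicate (n - k) 1 := by
    rw [← ofFn_cut n k hk]; congr 1; funext i; split <;> simp
  rw [coeffs_eq, hneg, ofFn_cut n k hk]
  set P := List.replicate k (1 : ℝ) ++ List.replicate (n - k) (-1 : ℝ) ++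
    (List.replicate k (-1 : ℝ) ++ List.replicate (n - k) 1)
  have hN : ((n - k : ℕ) : ℝ) = (n : ℝ) - k := by rw [Nat.cast_sub hk]
  -- first: each block dominates `k, -n, n - k`
  have key : ∀ (j : ℕ) (l r : List ℝ),
      S.η (l ++ ((List.replicate j [(k : ℝ), -(n : ℝ), (n : ℝ) - k]).flatten ++ r))
        ≤ S.η (l ++ ((List.replicate j P).flatten ++ r)) := by
    intro j
    induction j with
    | zero => intro l r; simp
    | succ j ih =>
        intro l r
        simp only [List.replicate_succ, List.flatten_cons, List.append_assoc, P]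
        set R := (List.replicate j P).flatten ++ r
        refine le_trans ?_ (eta_merge_replicate S k 1 l _)
        rw [mul_one]
        refine le_trans ?_ (le_of_eq (by rw [show ∀ q : List ℝ, (l ++ (k : ℝ) :: q) = (l ++ [(k : ℝ)]) ++ q
          from fun q => by simp]))
        refine le_trans ?_ (eta_merge_replicate S (n - k) (-1) (l ++ [(k : ℝ)]) _)
        rw [show ∀ q : List ℝ, (l ++ [(k : ℝ)]) ++ ((n - k : ℕ) * -1 : ℝ) :: q
            = (l ++ [(k : ℝ), ((n - k : ℕ) * -1 : ℝ)]) ++ q from fun q => by simp]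
        refine le_trans ?_ (eta_merge_replicate S k (-1) _ _)
        rw [show ∀ q : List ℝ, (l ++ [(k : ℝ), ((n - k : ℕ) * -1 : ℝ)]) ++ (k * -1 : ℝ) :: q
            = (l ++ [(k : ℝ)]) ++ ((n - k : ℕ) * -1 : ℝ) :: (k * -1 : ℝ) :: q from fun q => by simp]
        refine le_trans ?_ (S.merge (l ++ [(k : ℝ)]) _ _ _)
        rw [show ∀ q : List ℝ, (l ++ [(k : ℝ)]) ++ (((n - k : ℕ) * -1 : ℝ) + (k * -1 : ℝ)) :: q
            = (l ++ [(k : ℝ), -(n : ℝ)]) ++ q from fun q => by simp [hN]; ring]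
        refine le_trans ?_ (eta_merge_replicate S (n - k) 1 _ _)
        rw [mul_one, hN]
        have := ih (l ++ [(k : ℝ), -(n : ℝ), (n : ℝ) - k]) r
        simpa [R, P, List.append_assoc] using this
  -- second: join neighbouring blocks
  have join : ∀ (j : ℕ) (l r : List ℝ),
      S.η (l ++ ((k : ℝ) :: ((List.replicate j [-(n : ℝ), (n : ℝ)]).flatten ++
          (-(n : ℝ) :: ((n : ℝ) - k) :: r))))
        ≤ S.η (l ++ ((List.replicate (j + 1) [(k : ℝ), -(n : ℝ), (n : ℝ) - k]).flatten ++ r)) := by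
    intro j
    induction j with
    | zero => intro l r; simp
    | succ j ih =>
        intro l r
        have h1 := S.merge (l ++ [(k : ℝ), -(n : ℝ)])
          ((List.replicate j [-(n : ℝ), (n : ℝ)]).flatten ++ (-(n : ℝ) :: ((n : ℝ) - k) :: r))
          ((n : ℝ) - k) k
        have h2 := ih (l ++ [(k : ℝ), -(n : ℝ), (n : ℝ) - k]) r
        have e : ((n : ℝ) - k) + k = n := by ring
        rw [e] at h1
        simp only [List.replicate_succ (n := j + 1), List.flatten_cons, List.append_assoc,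
          List.cons_append, List.nil_append] at h1 h2 ⊢
        rw [show ((List.replicate (j + 1) [-(n : ℝ), (n : ℝ)]).flatten)
          = -(n : ℝ) :: (n : ℝ) :: (List.replicate j [-(n : ℝ), (n : ℝ)]).flatten by
            simp [List.replicate_succ]]
        simp only [List.cons_append]
        exact h1.trans h2
  refine ⟨(C + k - n) / n, ?_⟩
  have h0 := (join (m + 1) [C] [-C]).trans (key (m + 2) [C] [-C])
  refine le_trans ?_ (le_of_le_of_eq h0 (by simp [C]))
  -- merge at both ends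
  have h3 : S.η ([C + k - n] ++ ((List.replicate (m + 1) [(n : ℝ), -(n : ℝ)]).flatten ++ [-(C + k - n)]))
      ≤ S.η ([C] ++ ((k : ℝ) :: ((List.replicate (m + 1) [-(n : ℝ), (n : ℝ)]).flatten ++
          (-(n : ℝ) :: ((n : ℝ) - k) :: [-C])))) := by
    have shift : ∀ j : ℕ, (List.replicate j [-(n : ℝ), (n : ℝ)]).flatten ++ [-(n : ℝ)]
        = -(n : ℝ) :: (List.replicate j [(n : ℝ), -(n : ℝ)]).flatten := by
      intro j
      induction j with
      | zero => simp
      | succ j ih => simp [List.replicate_succ, ih]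
    set Q := (List.replicate (m + 1) [(n : ℝ), -(n : ℝ)]).flatten
    have e : (List.replicate (m + 1) [-(n : ℝ), (n : ℝ)]).flatten ++
          (-(n : ℝ) :: ((n : ℝ) - k) :: [-C]) = -(n : ℝ) :: (Q ++ [((n : ℝ) - k), -C]) := by
      have := congrArg (fun L : List ℝ => L ++ [((n : ℝ) - k), -C]) (shift (m + 1))
      simpa [Q] using this
    rw [e]
    have m1 := S.merge [] (-(n : ℝ) :: (Q ++ [((n : ℝ) - k), -C])) C k
    have m2 := S.merge [] (Q ++ [((n : ℝ) - k), -C]) (C + k) (-(n : ℝ))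
    have m3 := S.merge ([C + k - n] ++ Q) [] ((n : ℝ) - k) (-C)
    rw [show ((n : ℝ) - k) + -C = -(C + k - n) by ring] at m3
    rw [show C + (k : ℝ) + -(n : ℝ) = C + k - n by ring] at m2
    simp only [List.nil_append, List.cons_append] at m1 m2 m3 ⊢
    exact m3.trans (m2.trans m1)
  refine le_trans (le_of_eq ?_) h3
  have hn0 : (n : ℝ) ≠ 0 := by positivity
  have := S.smul (n : ℝ) (word ((C + k - n) / n) (m + 1))
  rw [Nat.abs_cast] at this
  rw [← this]
  congr 1
  simp [word, alt, List.map_flatten, List.map_replicate, mul_div_cancel₀ _ hn0]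

include S in
/-- Coefficient vectors in one of the represented seminorms with almost extremal sign sums. -/
theorem exists_james (hθ : 0 < θ) (n : ℕ) (hn : 0 < n) {q : ℝ} (hq : 1 < q) :
    ∃ (N : ℕ) (V : Fin n → (Fin N → ℝ)) (G : ℝ), 0 < G ∧ (∀ i, qs N (V i) ≤ q * G) ∧
      ∀ k : ℕ, k ≤ n → (n : ℝ) * G / q ^ 2 ≤
        qs N (∑ i : Fin n, (if (i : ℕ) < k then (1 : ℝ) else -1) • V i) := by
  classical
  obtain ⟨m, c, hmc⟩ := exists_flat S hθ hq
  set G := S.η (word c (m + 2))
  have hG : 0 < G := by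
    have := word_ge_half S hθ c (m + 1)
    have := pair_pos S hθ
    linarith
  set L := (skel n (m + 2) c).length
  let vec : (Fin n → ℝ) → (Fin L → ℝ) := fun w t => (skel n (m + 2) c)[(t : ℕ)] w
  have hvec : ∀ w, List.ofFn (vec w) = coeffs n (m + 2) c w := by
    intro w
    refine List.ext_getElem (by simp [coeffs, L]) fun t h1 h2 => ?_
    simp [vec, coeffs]
  let sgn : ℕ → Fin n → ℝ := fun k i => if (i : ℕ) < k then 1 else -1
  let A : Finset (Fin L → ℝ) :=
    (Finset.univ.image fun i : Fin n => vec (fun j => if j = i then 1 else 0)) ∪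
    ((Finset.range (n + 1)).image fun k => vec (sgn k))
  have hnR : (0 : ℝ) < n := by exact_mod_cast hn
  obtain ⟨N, T, -, hx⟩ := S.approx L A (min ((q - 1) * G) ((n : ℝ) * G / q * ((q - 1) / q)))
    (lt_min (by nlinarith) (by
      have : 0 < q := by linarith
      have : 0 < q - 1 := by linarith
      positivity))
  refine ⟨N, fun i => ∑ t, vec (fun j => if j = i then 1 else 0) t • T t, G, hG, ?_, ?_⟩
  · intro i
    have h := (abs_le.1 (hx _ (Finset.mem_union_left _
      (Finset.mem_image_of_mem _ (Finset.mem_univ i))))).2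
    rw [hvec, coeffs_single] at h
    have := min_le_left ((q - 1) * G) ((n : ℝ) * G / q * ((q - 1) / q))
    linarith
  · intro k hk
    have hlin : ∀ t, ∑ i : Fin n, sgn k i * vec (fun j => if j = i then 1 else 0) t = vec (sgn k) t := by
      intro t
      simp only [vec]
      set φ := (skel n (m + 2) c)[(t : ℕ)]
      have hd : sgn k = ∑ i : Fin n, sgn k i • (fun j => if j = i then (1 : ℝ) else 0) := by
        funext j; simp
      conv_rhs => rw [hd]
      simp [map_sum, map_smul]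
    have e : ∑ i : Fin n, (if (i : ℕ) < k then (1 : ℝ) else -1) •
        (∑ t, vec (fun j => if j = i then 1 else 0) t • T t) = ∑ t, vec (sgn k) t • T t := by
      simp only [Finset.smul_sum, smul_smul]
      rw [Finset.sum_comm]
      refine Finset.sum_congr rfl fun t _ => ?_
      rw [← Finset.sum_smul]
      exact congrArg (· • T t) (hlin t)
    rw [e]
    have h := (abs_le.1 (hx _ (Finset.mem_union_right _
      (Finset.mem_image_of_mem _ (Finset.mem_range.2 (Nat.lt_succ_of_le hk)))))).1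
    obtain ⟨e', he'⟩ := coeffs_signs S n m k hk hn c
    rw [hvec] at h
    have h1 : (n : ℝ) * G / q ≤ S.η (coeffs n (m + 2) c (sgn k)) := by
      refine le_trans ?_ he'
      rw [div_le_iff₀ (by linarith)]
      have := mul_le_mul_of_nonneg_left (hmc e') hnR.le
      linarith
    have h2 := min_le_right ((q - 1) * G) ((n : ℝ) * G / q * ((q - 1) / q))
    have h3 : (n : ℝ) * G / q - (n : ℝ) * G / q * ((q - 1) / q) = (n : ℝ) * G / q ^ 2 := by
      field_simp
      ring
    linarith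

end List

/-! ### From `L²(Ω, E)` to one point -/

variable {E : Type*} [NormedAddCommGroup E] [NormedSpace ℝ E]

theorem norm_combo_le {n : ℕ} (y : Fin n → E) (a : Fin n → ℝ) (ha : ∀ i, |a i| ≤ 1) :
    ‖∑ i, a i • y i‖ ≤ ∑ i, ‖y i‖ :=
  (norm_sum_le _ _).trans (Finset.sum_le_sum fun i _ => by
    rw [norm_smul, Real.norm_eq_abs]; exact mul_le_of_le_one_left (norm_nonneg _) (ha i))

theorem sq_norm_combo_le {n : ℕ} (y : Fin n → E) (a : Fin n → ℝ) (ha : ∀ i, |a i| ≤ 1) :
    ‖∑ i, a i • y i‖ ^ 2 ≤ n * ∑ i, ‖y i‖ ^ 2 := by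
  refine (pow_le_pow_left₀ (norm_nonneg _) (norm_combo_le y a ha) 2).trans ?_
  have h := sq_sum_le_card_mul_sum_sq (s := (Finset.univ : Finset (Fin n))) (f := fun i => ‖y i‖)
  simpa using h

/-- A nearly extremal combination forces the norms of the terms to be nearly equal. -/
theorem norm_le_of_extremal {n : ℕ} (hn : 0 < n) (y : Fin n → E) (a : Fin n → ℝ)
    (ha : ∀ i, |a i| ≤ 1) {R σ : ℝ} (hR : 0 < R) (hσ : 0 ≤ σ)
    (hy : ∑ i, ‖y i‖ ^ 2 = n * R ^ 2)
    (hext : ((n : ℝ) ^ 2 - σ ^ 2) * R ^ 2 ≤ ‖∑ i, a i • y i‖ ^ 2) (i : Fin n) :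
    ‖y i‖ ≤ R * (1 + 2 * σ) := by
  set U := ∑ j, ‖y j‖ with hU
  have hU0 : 0 ≤ U := Finset.sum_nonneg fun j _ => norm_nonneg _
  have h1 : ((n : ℝ) ^ 2 - σ ^ 2) * R ^ 2 ≤ U ^ 2 :=
    hext.trans (pow_le_pow_left₀ (norm_nonneg _) (norm_combo_le y a ha) 2)
  have e2 : ∑ j, (‖y j‖ - R) ^ 2 = 2 * R * ((n : ℝ) * R - U) := by
    have : ∀ j : Fin n, (‖y j‖ - R) ^ 2 = ‖y j‖ ^ 2 - 2 * R * ‖y j‖ + R ^ 2 := fun j => by ring
    simp only [this, Finset.sum_add_distrib, Finset.sum_sub_distrib, ← Finset.mul_sum, hy,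
      Finset.sum_const, Finset.card_univ, Fintype.card_fin, nsmul_eq_mul, ← hU]
    ring
  have hd : 0 ≤ (n : ℝ) * R - U := by
    have h0 : 0 ≤ 2 * R * ((n : ℝ) * R - U) := e2 ▸ Finset.sum_nonneg fun j _ => sq_nonneg _
    exact nonneg_of_mul_nonneg_right h0 (by positivity)
  have hnR : (1 : ℝ) ≤ n := by exact_mod_cast hn
  have hs : R ≤ (n : ℝ) * R + U := by
    have := mul_le_mul_of_nonneg_right hnR hR.le
    linarith
  have h2 : ((n : ℝ) * R - U) * R ≤ σ ^ 2 * R ^ 2 := by
    refine (mul_le_mul_of_nonneg_left hs hd).trans ?_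
    linarith [show ((n : ℝ) * R - U) * ((n : ℝ) * R + U) = (n : ℝ) ^ 2 * R ^ 2 - U ^ 2 by ring,
      show ((n : ℝ) ^ 2 - σ ^ 2) * R ^ 2 = (n : ℝ) ^ 2 * R ^ 2 - σ ^ 2 * R ^ 2 by ring]
  have h3 : (‖y i‖ - R) ^ 2 ≤ (2 * σ * R) ^ 2 := by
    have h := Finset.single_le_sum (f := fun j => (‖y j‖ - R) ^ 2) (fun j _ => sq_nonneg _)
      (Finset.mem_univ i)
    rw [e2] at h
    linarith [show (2 * σ * R) ^ 2 = 4 * (σ ^ 2 * R ^ 2) by ring,
      show 2 * R * ((n : ℝ) * R - U) = 2 * (((n : ℝ) * R - U) * R) by ring,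
      show 0 ≤ σ ^ 2 * R ^ 2 by positivity]
  have h4 := abs_le_of_sq_le_sq h3 (by positivity)
  linarith [(abs_le.1 h4).2, show R * (1 + 2 * σ) = R + 2 * σ * R by ring]

/-- Almost extremal combinations in weighted `ℓ²` pass to one point. -/
theorem exists_point {n M : ℕ} (hn : 0 < n) (w : Fin M → ℝ) (hw : ∀ o, 0 ≤ w o)
    (Y : Fin M → Fin n → E) {σ : ℝ} (hσ0 : 0 < σ) (hσ1 : σ ≤ 1)
    (s : ℕ → Fin n → ℝ) (hs : ∀ k i, |s k i| ≤ 1)
    {G q : ℝ} (hG : 0 < G) (hq : 1 < q)
    (hY : ∀ i, ∑ o, w o * ‖Y o i‖ ^ 2 ≤ (q * G) ^ 2)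
    (hS : ∀ k, k ≤ n → ((n : ℝ) * G / q ^ 2) ^ 2 ≤ ∑ o, w o * ‖∑ i, s k i • Y o i‖ ^ 2)
    (hqσ : ((n : ℝ) + 1) * (n : ℝ) ^ 2 * (q ^ 2 - 1 / q ^ 4) < σ ^ 2 / q ^ 4) :
    ∃ z : Fin n → E, (∀ i, ‖z i‖ ≤ 1) ∧
      ∀ k, k ≤ n → (n : ℝ) * (1 - σ) / (1 + 2 * σ) ≤ ‖∑ i, s k i • z i‖ := by
  have hnR : (1 : ℝ) ≤ n := by exact_mod_cast hn
  have hn0 : (0 : ℝ) < (n : ℝ) ^ 2 := by positivity
  set A : Fin M → ℝ := fun o => (∑ i, ‖Y o i‖ ^ 2) / n with hA
  set D : ℕ → Fin M → ℝ := fun k o => (n : ℝ) ^ 2 * A o - ‖∑ i, s k i • Y o i‖ ^ 2 with hD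
  have hD0 : ∀ k o, 0 ≤ D k o := by
    intro k o
    have h := sq_norm_combo_le (Y o) (s k) (hs k)
    have h4 : (n : ℝ) ^ 2 * A o = n * ∑ i, ‖Y o i‖ ^ 2 := by simp only [hA]; field_simp
    simp only [hD]; linarith
  have hTA : ∑ o, w o * A o ≤ q ^ 2 * G ^ 2 := by
    have e : ∑ o, w o * A o = (∑ i, ∑ o, w o * ‖Y o i‖ ^ 2) / n := by
      rw [Finset.sum_comm, Finset.sum_div]
      refine Finset.sum_congr rfl fun o _ => ?_
      simp only [hA, ← Finset.mul_sum]
      ring
    rw [e, div_le_iff₀ (by linarith)]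
    refine (Finset.sum_le_sum fun i _ => hY i).trans (le_of_eq ?_)
    simp; ring
  have hTD : ∀ k, k ≤ n → ∑ o, w o * D k o ≤ (n : ℝ) ^ 2 * G ^ 2 * (q ^ 2 - 1 / q ^ 4) ∧
      G ^ 2 / q ^ 4 ≤ ∑ o, w o * A o := by
    intro k hk
    have e : ∑ o, w o * D k o
        = (n : ℝ) ^ 2 * (∑ o, w o * A o) - ∑ o, w o * ‖∑ i, s k i • Y o i‖ ^ 2 := by
      rw [Finset.mul_sum, ← Finset.sum_sub_distrib]
      exact Finset.sum_congr rfl fun o _ => by simp only [hD]; ring
    have h2 : ((n : ℝ) * G / q ^ 2) ^ 2 = (n : ℝ) ^ 2 * (G ^ 2 / q ^ 4) := by field_simp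
    have h3 := hS k hk
    rw [h2] at h3
    constructor
    · have h4 := mul_le_mul_of_nonneg_left hTA hn0.le
      linarith [show (n : ℝ) ^ 2 * G ^ 2 * (q ^ 2 - 1 / q ^ 4)
        = (n : ℝ) ^ 2 * (q ^ 2 * G ^ 2) - (n : ℝ) ^ 2 * (G ^ 2 / q ^ 4) by ring]
    · have h5 : 0 ≤ ∑ o, w o * D k o :=
        Finset.sum_nonneg fun o _ => mul_nonneg (hw o) (hD0 k o)
      exact le_of_mul_le_mul_left (by linarith) hn0
  obtain ⟨o, hAo, hDo⟩ : ∃ o, 0 < A o ∧ ∑ k ∈ Finset.range (n + 1), D k o ≤ σ ^ 2 * A o := by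
    by_contra hcon
    push Not at hcon
    have hle : ∀ o, σ ^ 2 * A o ≤ ∑ k ∈ Finset.range (n + 1), D k o := by
      intro o
      rcases lt_or_ge 0 (A o) with h | h
      · exact (hcon o h).le
      · exact le_trans (mul_nonpos_of_nonneg_of_nonpos (sq_nonneg σ) h)
          (Finset.sum_nonneg fun k _ => hD0 k o)
    have h1 : σ ^ 2 * ∑ o, w o * A o ≤ ∑ k ∈ Finset.range (n + 1), ∑ o, w o * D k o := by
      rw [Finset.sum_comm, Finset.mul_sum]
      refine Finset.sum_le_sum fun o _ => ?_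
      rw [← Finset.mul_sum, mul_left_comm]
      exact mul_le_mul_of_nonneg_left (hle o) (hw o)
    have h2 : ∑ k ∈ Finset.range (n + 1), ∑ o, w o * D k o
        ≤ ((n : ℝ) + 1) * ((n : ℝ) ^ 2 * G ^ 2 * (q ^ 2 - 1 / q ^ 4)) := by
      refine (Finset.sum_le_sum fun k hk =>
        (hTD k (Nat.le_of_lt_succ (Finset.mem_range.1 hk))).1).trans ?_
      simp
    have h3 := mul_le_mul_of_nonneg_left (hTD 0 (Nat.zero_le _)).2 (sq_nonneg σ)
    have h4 : ((n : ℝ) + 1) * (n : ℝ) ^ 2 * (q ^ 2 - 1 / q ^ 4) * G ^ 2 < σ ^ 2 / q ^ 4 * G ^ 2 :=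
      mul_lt_mul_of_pos_right hqσ (by positivity)
    have h5 : σ ^ 2 * (G ^ 2 / q ^ 4) = σ ^ 2 / q ^ 4 * G ^ 2 := by ring
    linarith
  set R := Real.sqrt (A o)
  have hR : 0 < R := Real.sqrt_pos.2 hAo
  have hR2 : R ^ 2 = A o := Real.sq_sqrt hAo.le
  have hy : ∑ i, ‖Y o i‖ ^ 2 = n * R ^ 2 := by rw [hR2]; simp only [hA]; field_simp
  have hext : ∀ k, k ≤ n → ((n : ℝ) ^ 2 - σ ^ 2) * R ^ 2 ≤ ‖∑ i, s k i • Y o i‖ ^ 2 := by
    intro k hk
    have h1 := (Finset.single_le_sum (fun j _ => hD0 j o)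
      (Finset.mem_range.2 (Nat.lt_succ_of_le hk))).trans hDo
    simp only [hD] at h1
    rw [hR2]
    linarith
  refine ⟨fun i => (1 / (R * (1 + 2 * σ))) • Y o i, fun i => ?_, fun k hk => ?_⟩
  · rw [norm_smul, Real.norm_eq_abs, abs_of_pos (by positivity), div_mul_eq_mul_div, one_mul,
      div_le_one (by positivity)]
    exact norm_le_of_extremal hn (Y o) (s 0) (hs 0) hR hσ0.le hy (hext 0 (Nat.zero_le _)) i
  · have e : ∑ i, s k i • ((1 / (R * (1 + 2 * σ))) • Y o i)
        = (1 / (R * (1 + 2 * σ))) • ∑ i, s k i • Y o i := by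
      rw [Finset.smul_sum]; exact Finset.sum_congr rfl fun i _ => smul_comm _ _ _
    have h1 : 0 ≤ 1 - σ := by linarith
    have h2 : (n : ℝ) * (1 - σ) * R ≤ ‖∑ i, s k i • Y o i‖ := by
      refine (sq_le_sq₀ (by positivity) (norm_nonneg _)).1 (le_trans ?_ (hext k hk))
      have h3 : σ ^ 2 ≤ (n : ℝ) ^ 2 * (σ * (2 - σ)) := by
        have h4 : σ * σ ≤ σ * (2 - σ) := mul_le_mul_of_nonneg_left (by linarith) hσ0.le
        have h5 : 1 * (σ * (2 - σ)) ≤ (n : ℝ) ^ 2 * (σ * (2 - σ)) :=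
          mul_le_mul_of_nonneg_right (one_le_pow₀ hnR) (by nlinarith)
        linarith
      linarith [mul_le_mul_of_nonneg_right h3 (sq_nonneg R)]
    rw [e, norm_smul, Real.norm_eq_abs, abs_of_pos (by positivity), div_mul_eq_mul_div, one_mul,
      div_le_div_iff₀ (by positivity) (by positivity)]
    calc (n : ℝ) * (1 - σ) * (R * (1 + 2 * σ)) = (n : ℝ) * (1 - σ) * R * (1 + 2 * σ) := by ring
      _ ≤ _ := mul_le_mul_of_nonneg_right h2 (by linarith)

/-- Vectors of the unit ball whose threshold sign sums are almost `n` form a summing system. -/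
theorem summingSystem_of_extremal {n : ℕ} (z : Fin n → E) (hz : ∀ i, ‖z i‖ ≤ 1) {δ : ℝ}
    (hδ : δ * n ≤ 1 / 4)
    (hS : ∀ k, k ≤ n → (n : ℝ) - δ ≤ ‖∑ i : Fin n, (if (i : ℕ) < k then (1 : ℝ) else -1) • z i‖) :
    SummingSystem E (1 / 4) n := by
  classical
  refine ⟨z, hz, fun a i j => ?_⟩
  let sgn : ℕ → Fin n → ℝ := fun k l => if (l : ℕ) < k then 1 else -1
  have hsgn : ∀ k l, |sgn k l| = 1 := fun k l => by simp only [sgn]; split <;> simp
  -- the signed sums are controlled
  have hT : ∀ k, k ≤ n → |∑ l, sgn k l * a l| ≤ ‖∑ l, a l • z l‖ + δ * ∑ l, |a l| := by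
    intro k hk
    obtain ⟨f, hf1, hf2⟩ := exists_dual_vector'' ℝ (∑ l : Fin n, sgn k l • z l)
    have hfz : ∀ l, |f (z l)| ≤ 1 := fun l => by
      simpa using (f.le_of_opNorm_le hf1 (z l)).trans (by simpa using hz l)
    have hterm : ∀ l, sgn k l * f (z l) ≤ 1 := fun l => by
      refine (le_abs_self _).trans ?_
      rw [abs_mul, hsgn, one_mul]
      exact hfz l
    have hsum : (n : ℝ) - δ ≤ ∑ l, sgn k l * f (z l) := by
      have : f (∑ l : Fin n, sgn k l • z l) = ‖∑ l : Fin n, sgn k l • z l‖ := by simpa using hf2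
      rw [map_sum] at this
      simp only [map_smul, smul_eq_mul] at this
      rw [this]
      exact hS k hk
    have hclose : ∀ l, |sgn k l - f (z l)| ≤ δ := by
      intro l
      rw [← Finset.add_sum_erase _ _ (Finset.mem_univ l)] at hsum
      have hrest : ∑ m ∈ Finset.univ.erase l, sgn k m * f (z m) ≤ (n : ℝ) - 1 := by
        refine (Finset.sum_le_sum fun m _ => hterm m).trans (le_of_eq ?_)
        rw [Finset.sum_const, Finset.card_erase_of_mem (Finset.mem_univ l)]
        simp [Nat.cast_sub (Nat.one_le_iff_ne_zero.2 (Fin.pos l).ne')]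
      have h1 := hterm l
      have h2 : sgn k l - f (z l) = sgn k l * (1 - sgn k l * f (z l)) := by
        have : sgn k l * sgn k l = 1 := by simp only [sgn]; split <;> simp
        linear_combination (f (z l)) * this
      rw [h2, abs_mul, hsgn, one_mul, abs_le]
      constructor <;> linarith
    have e : ∑ l, sgn k l * a l = f (∑ l, a l • z l) + ∑ l, a l * (sgn k l - f (z l)) := by
      rw [map_sum, ← Finset.sum_add_distrib]
      refine Finset.sum_congr rfl fun l _ => ?_
      rw [map_smul, smul_eq_mul]; ring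
    rw [e]
    refine (abs_add_le _ _).trans (add_le_add ?_ ?_)
    · simpa using f.le_of_opNorm_le hf1 (∑ l, a l • z l)
    · refine (Finset.abs_sum_le_sum_abs _ _).trans ?_
      rw [Finset.mul_sum]
      refine Finset.sum_le_sum fun l _ => ?_
      rw [abs_mul, mul_comm δ]
      exact mul_le_mul_of_nonneg_left (hclose l) (abs_nonneg _)
  -- interval sums are half differences of signed sums
  have hI : ∀ i j : Fin n, |∑ l ∈ Finset.Icc i j, a l| ≤ ‖∑ l, a l • z l‖ + δ * ∑ l, |a l| := by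
    intro i j
    rcases le_or_gt i j with hij | hij
    · have e : 2 * ∑ l ∈ Finset.Icc i j, a l = ∑ l, sgn (j + 1) l * a l - ∑ l, sgn i l * a l := by
        rw [← Finset.sum_sub_distrib, ← Finset.univ_inter (Finset.Icc i j),
          ← Finset.sum_ite_mem, Finset.mul_sum]
        refine Finset.sum_congr rfl fun l _ => ?_
        simp only [sgn, Finset.mem_Icc, Fin.le_iff_val_le_val] at hij ⊢
        split_ifs <;> first | ring1 | (exfalso; omega)
      have h1 := abs_le.1 (hT (j + 1) j.is_lt)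
      have h2 := abs_le.1 (hT i i.is_lt.le)
      rw [abs_le]
      constructor <;> linarith
    · rw [Finset.Icc_eq_empty (not_le.2 hij), Finset.sum_empty, abs_zero]
      exact (abs_nonneg _).trans (hT 0 (Nat.zero_le _))
  obtain ⟨l₀, -, hl₀⟩ := Finset.exists_max_image (Finset.univ : Finset (Fin n)) (fun l => |a l|)
    ⟨i, Finset.mem_univ i⟩
  have hsum : ∑ l, |a l| ≤ (n : ℝ) * |a l₀| := by
    refine (Finset.sum_le_sum fun l _ => hl₀ l (Finset.mem_univ l)).trans (le_of_eq ?_)
    simp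
  have h0 := hI l₀ l₀
  rw [Finset.Icc_self, Finset.sum_singleton] at h0
  have h1 := hI i j
  have hδ0 : 0 ≤ δ := by
    have hk := hS n le_rfl
    have hb : ‖∑ l : Fin n, (if (l : ℕ) < n then (1 : ℝ) else -1) • z l‖ ≤ n := by
      refine (norm_combo_le z _ fun l => le_of_eq (hsgn n l)).trans ?_
      exact (Finset.sum_le_sum fun l _ => hz l).trans (le_of_eq (by simp))
    linarith
  have h2 := mul_le_mul_of_nonneg_left hsum hδ0
  have h3 := mul_le_mul_of_nonneg_right hδ (abs_nonneg (a l₀))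
  linarith [abs_nonneg (a l₀), norm_nonneg (∑ l, a l • z l)]

/-- A spreading seminorm represented in `L²(Ω, E)` gives summing systems of every length in `E`. -/
theorem summingSystem_of_spreadNorm {θ : ℝ} (hθ : 0 < θ) {qs : ∀ n : ℕ, (Fin n → ℝ) → ℝ}
    (hrep : ∀ n, IsL2Rep E (qs n)) (S : SpreadNorm θ qs) (n : ℕ) :
    SummingSystem E (1 / 4) n := by
  rcases Nat.eq_zero_or_pos n with rfl | hn
  · exact ⟨Fin.elim0, fun i => i.elim0, fun a i => i.elim0⟩
  have hnR : (1 : ℝ) ≤ n := by exact_mod_cast hn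
  set σ : ℝ := 1 / (12 * (n : ℝ) ^ 2) with hσ
  have hσ0 : 0 < σ := by positivity
  have hn2 : (1 : ℝ) ≤ (n : ℝ) ^ 2 := one_le_pow₀ hnR
  have hσ1 : σ ≤ 1 := by rw [hσ, div_le_one (by positivity)]; linarith
  have hev : ∀ᶠ q : ℝ in nhds 1,
      ((n : ℝ) + 1) * (n : ℝ) ^ 2 * (q ^ 2 - 1 / q ^ 4) < σ ^ 2 / q ^ 4 := by
    have c1 : ContinuousAt (fun q : ℝ => ((n : ℝ) + 1) * (n : ℝ) ^ 2 * (q ^ 2 - 1 / q ^ 4)
        - σ ^ 2 / q ^ 4) 1 := by fun_prop (disch := norm_num)
    filter_upwards [c1.eventually_lt_const (u := 0) (by norm_num; positivity)] with q hq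
    linarith
  obtain ⟨q, hqσ, hq⟩ := ((hev.filter_mono nhdsWithin_le_nhds).and
    (eventually_nhdsWithin_of_forall (s := Set.Ioi (1 : ℝ)) fun q h => (h : 1 < q))).exists
  obtain ⟨N, V, G, hG, hV, hS⟩ := exists_james S hθ n hn hq
  obtain ⟨M, w, Z, hw, -, hq'⟩ := hrep N
  have hnn : ∀ b : Fin N → ℝ, 0 ≤ ∑ o, w o * ‖∑ l, b l • Z o l‖ ^ 2 := fun b =>
    Finset.sum_nonneg fun o _ => mul_nonneg (hw o) (sq_nonneg _)
  have hY : ∀ i, ∑ o, w o * ‖∑ l, V i l • Z o l‖ ^ 2 ≤ (q * G) ^ 2 := by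
    intro i
    have h := hV i
    rw [hq'] at h
    exact (Real.sqrt_le_iff.1 h).2
  have hS' : ∀ k, k ≤ n → ((n : ℝ) * G / q ^ 2) ^ 2 ≤
      ∑ o, w o * ‖∑ i : Fin n, (if (i : ℕ) < k then (1 : ℝ) else -1) • ∑ l, V i l • Z o l‖ ^ 2 := by
    intro k hk
    have h := hS k hk
    rw [hq'] at h
    refine ((Real.le_sqrt (by positivity) (hnn _)).1 h).trans (le_of_eq ?_)
    refine Finset.sum_congr rfl fun o _ => ?_
    congr 3
    simp only [Finset.sum_apply, Pi.smul_apply, smul_eq_mul, Finset.sum_smul, Finset.smul_sum,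
      smul_smul]
    exact Finset.sum_comm
  obtain ⟨z, hz, hzS⟩ := exists_point hn w hw (fun o i => ∑ l, V i l • Z o l) hσ0 hσ1
    (fun k i => if (i : ℕ) < k then 1 else -1) (fun k i => by split <;> norm_num)
    hG hq hY hS' hqσ
  refine summingSystem_of_extremal z hz (δ := 1 / (4 * n)) (le_of_eq (by field_simp)) fun k hk => ?_
  refine le_trans ?_ (hzS k hk)
  rw [le_div_iff₀ (by positivity)]
  have h1 : 3 * (n : ℝ) * σ = 1 / (4 * n) := by rw [hσ]; field_simp; ring
  have h2 : 0 ≤ σ * (1 / (4 * (n : ℝ))) := by positivity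
  linarith

end Vale.Agent.P125.James

namespace P125.Renorm

/-- Public name of the result of part D4. -/
theorem summingSystem_of_spreadNorm {E : Type*} [NormedAddCommGroup E] [NormedSpace ℝ E] {θ : ℝ}
    (hθ : 0 < θ) {q : ∀ n : ℕ, (Fin n → ℝ) → ℝ} (hrep : ∀ n, IsL2Rep E (q n))
    (S : Vale.Agent.P125.SpreadNorm θ q) (n : ℕ) : Vale.Agent.P125.SummingSystem E (1 / 4) n :=
  Vale.Agent.P125.James.summingSystem_of_spreadNorm hθ hrep S n

end P125.Renorm
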