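import Mathlib
import Vale.Agent.P125.Defs

/-!
# P125: spreading seminorms that decrease under merging

From a family of systems `q n` on `Fin n → ℝ` we build a seminorm on finite lists which is
spreading, decreases when two neighbouring coefficients are merged, and is finitely representable
in the family: an iterated ultrafilter limit followed by averaging over long blocks.
-/

namespace Vale.Agent.P125

open Filter Topology

namespace Limit

/-- A fixed free ultrafilter on `ℕ`. -/
noncomputable def freeU : Ultrafilter ℕ := hyperfilter ℕ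

/-- The limit along the fixed free ultrafilter. -/
noncomputable def ulim (g : ℕ → ℝ) : ℝ := limUnder (freeU : Filter ℕ) g

lemma tendsto_ulim {g : ℕ → ℝ} {B : ℝ} (hB : ∀ i, |g i| ≤ B) :
    Tendsto g (freeU : Filter ℕ) (𝓝 (ulim g)) := by
  obtain ⟨c, -, hc⟩ := (isCompact_Icc (a := -B) (b := B)).ultrafilter_le_nhds (freeU.map g) (by
    rw [Ultrafilter.coe_map, le_principal_iff, Filter.mem_map]
    exact Filter.univ_mem' fun i => abs_le.1 (hB i))
  rw [Ultrafilter.coe_map] at hc
  exact tendsto_nhds_limUnder ⟨c, hc⟩

lemma ulim_const (c : ℝ) : ulim (fun _ => c) = c :=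
  tendsto_nhds_unique (tendsto_ulim fun _ => le_refl |c|) tendsto_const_nhds

lemma abs_ulim_le {g : ℕ → ℝ} {B : ℝ} (hB : ∀ i, |g i| ≤ B) : |ulim g| ≤ B :=
  le_of_tendsto (tendsto_ulim hB).abs (Eventually.of_forall hB)

lemma eventually_ge (b : ℕ) : ∀ᶠ i in (freeU : Filter ℕ), b ≤ i :=
  Nat.hyperfilter_le_atTop (eventually_ge_atTop b)

variable {θ : ℝ} {q : ∀ n : ℕ, (Fin n → ℝ) → ℝ}

lemma q_zero {n : ℕ} (h : IsSystem θ (q n)) : q n 0 = 0 := by
  have := h.smul 0 0
  simpa using this

lemma q_nonneg {n : ℕ} (h : IsSystem θ (q n)) (a : Fin n → ℝ) : 0 ≤ q n a := by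
  have h1 := h.add_le a ((-1 : ℝ) • a)
  have h2 : a + (-1 : ℝ) • a = 0 := by simp
  rw [h2, q_zero h, h.smul (-1) a] at h1
  norm_num at h1
  linarith

/-- Restriction of a finitely supported function to `Fin N`. -/
def restrict (N : ℕ) (v : ℕ →₀ ℝ) : Fin N → ℝ := fun i => v i

/-- The limit of the systems. -/
noncomputable def base (q : ∀ n : ℕ, (Fin n → ℝ) → ℝ) (v : ℕ →₀ ℝ) : ℝ :=
  ulim fun N => q N (restrict N v)

/-- The `ℓ¹` norm of a finitely supported function. -/
noncomputable def size (v : ℕ →₀ ℝ) : ℝ := ∑ i ∈ v.support, |v i|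

lemma size_eq {v : ℕ →₀ ℝ} {s : Finset ℕ} (hs : v.support ⊆ s) : size v = ∑ i ∈ s, |v i| :=
  Finset.sum_subset hs fun i _ hi => by simp [Finsupp.notMem_support_iff.1 hi]

lemma size_add_single_le (v : ℕ →₀ ℝ) (i : ℕ) (a : ℝ) :
    size (v + Finsupp.single i a) ≤ size v + |a| := by
  have h1 : (v + Finsupp.single i a).support ⊆ insert i v.support := by
    intro j hj
    by_contra hc
    simp only [Finset.mem_insert, Finsupp.mem_support_iff, not_or, not_not] at hc
    simp [Finsupp.single_eq_of_ne hc.1, hc.2] at hj
  rw [size_eq h1, size_eq (Finset.subset_insert i v.support)]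
  calc ∑ j ∈ insert i v.support, |(v + Finsupp.single i a) j|
      ≤ ∑ j ∈ insert i v.support, (|v j| + |Finsupp.single i a j|) :=
        Finset.sum_le_sum fun j _ => by simpa using abs_add_le (v j) (Finsupp.single i a j)
    _ = ∑ j ∈ insert i v.support, |v j| + |a| := by
        rw [Finset.sum_add_distrib]
        congr 1
        rw [Finset.sum_eq_single_of_mem i (Finset.mem_insert_self _ _)
          (fun j _ hj => by simp [Finsupp.single_eq_of_ne hj]), Finsupp.single_eq_same]

lemma abs_q_restrict_le (hq : ∀ n, IsSystem θ (q n)) (v : ℕ →₀ ℝ) (N : ℕ) :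
    |q N (restrict N v)| ≤ size v := by
  rw [abs_of_nonneg (q_nonneg (hq N) _)]
  refine ((hq N).le_sum _).trans ?_
  have h1 : ∑ i : Fin N, |restrict N v i| = ∑ i ∈ Finset.range N, |v i| :=
    Fin.sum_univ_eq_sum_range (fun i => |v i|) N
  rw [h1, size_eq (Finset.subset_union_left (s₁ := v.support) (s₂ := Finset.range N))]
  exact Finset.sum_le_sum_of_subset_of_nonneg Finset.subset_union_right fun _ _ _ => abs_nonneg _

lemma abs_base_le (hq : ∀ n, IsSystem θ (q n)) (v : ℕ →₀ ℝ) : |base q v| ≤ size v :=
  abs_ulim_le (abs_q_restrict_le hq v)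

/-- The iterated limit, with the next coefficient placed far to the right. -/
noncomputable def spread (q : ∀ n : ℕ, (Fin n → ℝ) → ℝ) : List ℝ → (ℕ →₀ ℝ) → ℝ
  | [], v => base q v
  | a :: l, v => ulim fun i => spread q l (v + Finsupp.single i a)

lemma abs_spread_le (hq : ∀ n, IsSystem θ (q n)) (l : List ℝ) :
    ∀ v : ℕ →₀ ℝ, |spread q l v| ≤ size v + (l.map fun a => |a|).sum := by
  induction l with
  | nil => intro v; simpa [spread] using abs_base_le hq v
  | cons a l ih =>
    intro v
    refine abs_ulim_le fun i => (ih _).trans ?_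
    have := size_add_single_le v i a
    simp only [List.map_cons, List.sum_cons]
    linarith

lemma spread_insert_zero (l r : List ℝ) :
    ∀ v : ℕ →₀ ℝ, spread q (l ++ 0 :: r) v = spread q (l ++ r) v := by
  induction l with
  | nil =>
    intro v
    simp only [List.nil_append, spread, Finsupp.single_zero, add_zero]
    exact ulim_const _
  | cons a l ih =>
    intro v
    simp only [List.cons_append, spread]
    congr 1
    funext i
    exact ih _

/-- Finitely many spread values are attained along one increasing sequence of positions. -/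
lemma exists_positions (hq : ∀ n, IsSystem θ (q n)) : ∀ (k : ℕ)
    (J : Finset ((ℕ →₀ ℝ) × (Fin k → ℝ))) (b : ℕ) (ε : ℝ), 0 < ε →
      ∃ σ : Fin k → ℕ, StrictMono σ ∧ (∀ j, b ≤ σ j) ∧ ∀ z ∈ J,
        |base q (z.1 + ∑ j, Finsupp.single (σ j) (z.2 j)) - spread q (List.ofFn z.2) z.1| ≤ ε := by
  intro k
  induction k with
  | zero =>
    intro J b ε hε
    refine ⟨Fin.elim0, fun i => i.elim0, fun i => i.elim0, fun z _ => ?_⟩
    simp [spread, hε.le]
  | succ k ih =>
    intro J b ε hε
    classical
    have hev : ∀ᶠ i in (freeU : Filter ℕ), b ≤ i ∧ ∀ z ∈ J,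
        |spread q (List.ofFn (Fin.tail z.2)) (z.1 + Finsupp.single i (z.2 0))
          - spread q (List.ofFn z.2) z.1| ≤ ε / 2 := by
      refine (eventually_ge b).and ((Finset.eventually_all J).2 fun z _ => ?_)
      have hb : ∀ i, |spread q (List.ofFn (Fin.tail z.2)) (z.1 + Finsupp.single i (z.2 0))|
          ≤ size z.1 + |z.2 0| + ((List.ofFn (Fin.tail z.2)).map fun a => |a|).sum := fun i =>
        (abs_spread_le hq _ _).trans (by have := size_add_single_le z.1 i (z.2 0); linarith)
      have ht := tendsto_ulim hb
      rw [List.ofFn_succ (f := z.2), spread]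
      have : ∀ᶠ i in (freeU : Filter ℕ),
          |spread q (List.ofFn (Fin.tail z.2)) (z.1 + Finsupp.single i (z.2 0))
            - ulim (fun i => spread q (List.ofFn (Fin.tail z.2))
                (z.1 + Finsupp.single i (z.2 0)))| < ε / 2 := by
        have := (Metric.tendsto_nhds.1 ht) (ε / 2) (by positivity)
        simpa [Real.dist_eq] using this
      exact this.mono fun i hi => hi.le
    obtain ⟨i, hbi, hi⟩ := hev.exists
    obtain ⟨σ, hσm, hσb, hσ⟩ :=
      ih (J.image fun z => (z.1 + Finsupp.single i (z.2 0), Fin.tail z.2)) (i + 1) (ε / 2)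
        (by positivity)
    refine ⟨Fin.cons i σ, Fin.strictMono_iff_lt_succ.2 fun j => ?_, fun j => ?_, fun z hz => ?_⟩
    · cases k with
      | zero => exact j.elim0
      | succ k =>
        refine Fin.cases ?_ (fun j' => ?_) j
        · simpa using hσb 0
        · simpa [Fin.castSucc_succ] using hσm (Fin.castSucc_lt_succ (i := j'))
    · refine Fin.cases ?_ (fun j' => ?_) j
      · simpa using hbi
      · simp only [Fin.cons_succ]; have := hσb j'; omega
    · have h1 := hσ _ (Finset.mem_image_of_mem _ hz)
      have h2 := hi z hz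
      have e : z.1 + ∑ j, Finsupp.single ((Fin.cons i σ : Fin (k + 1) → ℕ) j) (z.2 j)
          = z.1 + Finsupp.single i (z.2 0)
            + ∑ j, Finsupp.single (σ j) (Fin.tail z.2 j) := by
        rw [Fin.sum_univ_succ, add_assoc]; rfl
      rw [e]
      simp only at h1
      exact (abs_sub_le _ _ _).trans (by linarith)

/-- The spreading seminorm. -/
noncomputable def nu (q : ∀ n : ℕ, (Fin n → ℝ) → ℝ) (l : List ℝ) : ℝ := spread q l 0

/-- Finite representability of `nu`. -/
lemma nu_approx (hq : ∀ n, IsSystem θ (q n)) (k : ℕ) (A : Finset (Fin k → ℝ)) {ε : ℝ}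
    (hε : 0 < ε) :
    ∃ (N : ℕ) (σ : Fin k → Fin N), StrictMono σ ∧
      ∀ a ∈ A, |q N (∑ j, a j • Pi.single (σ j) 1) - nu q (List.ofFn a)| ≤ ε := by
  classical
  obtain ⟨σ, hσm, -, hσ⟩ :=
    exists_positions hq k (A.image fun a => ((0 : ℕ →₀ ℝ), a)) 0 (ε / 2) (by positivity)
  have hev : ∀ᶠ N in (freeU : Filter ℕ), (∀ j, σ j < N) ∧ ∀ a ∈ A,
      |q N (restrict N (∑ j, Finsupp.single (σ j) (a j)))
        - base q (∑ j, Finsupp.single (σ j) (a j))| ≤ ε / 2 := by
    refine (eventually_all.2 fun j => ?_).and ((Finset.eventually_all A).2 fun a _ => ?_)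
    · exact eventually_ge (σ j + 1)
    · have ht := tendsto_ulim (abs_q_restrict_le hq (∑ j, Finsupp.single (σ j) (a j)))
      have := (Metric.tendsto_nhds.1 ht) (ε / 2) (by positivity)
      exact this.mono fun N hN => by simpa [Real.dist_eq, base] using hN.le
  obtain ⟨N, hN, hNA⟩ := hev.exists
  refine ⟨N, fun j => ⟨σ j, hN j⟩, fun i j h => hσm h, fun a ha => ?_⟩
  have h1 := hσ _ (Finset.mem_image_of_mem _ ha)
  simp only [zero_add] at h1
  have h2 := hNA a ha
  have e : restrict N (∑ j, Finsupp.single (σ j) (a j))
      = ∑ j, a j • (Pi.single (⟨σ j, hN j⟩ : Fin N) (1 : ℝ) : Fin N → ℝ) := by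
    funext i
    simp only [restrict, Finsupp.finsetSum_apply, Finset.sum_apply, Pi.smul_apply, smul_eq_mul]
    refine Finset.sum_congr rfl fun j _ => ?_
    by_cases h : (i : ℕ) = σ j
    · rw [h, Finsupp.single_eq_same, show i = ⟨σ j, hN j⟩ from Fin.ext h, Pi.single_eq_same]
      simp
    · rw [Finsupp.single_eq_of_ne h, Pi.single_eq_of_ne (fun hc => h (by rw [hc]))]
      simp
  rw [e] at h2
  unfold nu
  exact (abs_sub_le _ _ _).trans (by linarith)

lemma nu_add (hq : ∀ n, IsSystem θ (q n)) {k : ℕ} (a b : Fin k → ℝ) :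
    nu q (List.ofFn (a + b)) ≤ nu q (List.ofFn a) + nu q (List.ofFn b) := by
  classical
  refine le_of_forall_pos_le_add fun ε hε => ?_
  obtain ⟨N, σ, -, h⟩ := nu_approx hq k {a, b, a + b} (show 0 < ε / 3 by positivity)
  have ha := abs_le.1 (h a (by simp))
  have hb := abs_le.1 (h b (by simp))
  have hab := abs_le.1 (h (a + b) (by simp))
  have h3 := (hq N).add_le (∑ j, a j • Pi.single (σ j) (1 : ℝ)) (∑ j, b j • Pi.single (σ j) 1)
  rw [← Finset.sum_add_distrib] at h3
  simp only [← add_smul] at h3
  simp only [Pi.add_apply] at hab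
  linarith [ha.2, hb.2, hab.1]

lemma nu_smul (hq : ∀ n, IsSystem θ (q n)) {k : ℕ} (c : ℝ) (a : Fin k → ℝ) :
    nu q (List.ofFn (c • a)) = |c| * nu q (List.ofFn a) := by
  classical
  refine eq_of_forall_dist_le fun ε hε => ?_
  obtain ⟨N, σ, -, h⟩ :=
    nu_approx hq k {a, c • a} (show 0 < ε / (2 + |c|) by positivity)
  have ha := h a (by simp)
  have hc := h (c • a) (by simp)
  simp only [Pi.smul_apply, smul_eq_mul, ← smul_smul, ← Finset.smul_sum, (hq N).smul] at hc
  rw [Real.dist_eq]
  set Q := q N (∑ j, a j • Pi.single (σ j) (1 : ℝ))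
  calc |nu q (List.ofFn (c • a)) - |c| * nu q (List.ofFn a)|
      ≤ |nu q (List.ofFn (c • a)) - |c| * Q| + |(|c| * Q) - |c| * nu q (List.ofFn a)| :=
        abs_sub_le _ _ _
    _ ≤ ε / (2 + |c|) + |c| * (ε / (2 + |c|)) := by
        refine add_le_add ?_ ?_
        · rw [abs_sub_comm]; exact hc
        · rw [← mul_sub, abs_mul, abs_abs]
          exact mul_le_mul_of_nonneg_left ha (abs_nonneg _)
    _ ≤ ε := by
        have : 0 < 2 + |c| := by positivity
        rw [← mul_le_mul_iff_of_pos_right this]
        field_simp
        nlinarith [abs_nonneg c]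

lemma nu_le_sum (hq : ∀ n, IsSystem θ (q n)) (l : List ℝ) :
    nu q l ≤ (l.map fun a => |a|).sum := by
  have := (le_abs_self _).trans (abs_spread_le hq l 0)
  simpa [nu, size] using this

lemma nu_lower (hq : ∀ n, IsSystem θ (q n)) (l m r : List ℝ) :
    θ * |m.sum| ≤ nu q (l ++ m ++ r) := by
  classical
  rcases m.eq_nil_or_concat with rfl | ⟨m', x, hm⟩
  · simp only [List.sum_nil, abs_zero, mul_zero, List.append_nil]
    obtain ⟨k, a, hka⟩ : ∃ k, ∃ a : Fin k → ℝ, List.ofFn a = l ++ r := ⟨_, _, List.ofFn_get _⟩
    rw [← hka]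
    refine le_of_forall_pos_le_add fun ε hε => ?_
    obtain ⟨N, σ, -, h⟩ := nu_approx hq k {a} hε
    have h1 := abs_le.1 (h a (by simp))
    linarith [h1.2, q_nonneg (hq N) (∑ j, a j • Pi.single (σ j) (1 : ℝ))]
  set L := l ++ m ++ r with hL
  set a : Fin L.length → ℝ := fun i => L[(i : ℕ)] with ha
  have hofn : List.ofFn a = L := List.ofFn_getElem
  have hmpos : 0 < m.length := by rw [hm]; simp
  have hlen : L.length = l.length + m.length + r.length := by simp [hL, add_assoc]
  let i0 : Fin L.length := ⟨l.length, by omega⟩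
  let i1 : Fin L.length := ⟨l.length + m.length - 1, by omega⟩
  have hsum : ∑ i ∈ Finset.Icc i0 i1, a i = m.sum := by
    have e : m = List.ofFn fun j : Fin m.length => a ⟨l.length + j, by omega⟩ := by
      refine List.ext_getElem (by simp) fun n h1 h2 => ?_
      simp only [List.getElem_ofFn, ha, hL]
      rw [List.getElem_append_left (by simp; omega), List.getElem_append_right (by omega)]
      simp
    conv_rhs => rw [e, List.sum_ofFn]
    symm
    refine Finset.sum_bij (fun j _ => (⟨l.length + j, by omega⟩ : Fin L.length))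
      (fun j _ => ?_) (fun j _ j' _ h => ?_) (fun i hi => ?_) (fun j _ => rfl)
    · simp only [Finset.mem_Icc, Fin.le_def, i0, i1]; omega
    · simpa [Fin.ext_iff] using h
    · simp only [Finset.mem_Icc, Fin.le_def, i0, i1] at hi
      exact ⟨⟨i - l.length, by omega⟩, Finset.mem_univ _, Fin.ext (by simp; omega)⟩
  rw [← hofn, ← hsum]
  refine le_of_forall_pos_le_add fun ε hε => ?_
  obtain ⟨N, σ, hσ, h⟩ := nu_approx hq L.length {a} hε
  have h1 := (hq N).lower (∑ j, a j • Pi.single (σ j) (1 : ℝ)) (σ i0) (σ i1)
  have h2 : ∑ k ∈ Finset.Icc (σ i0) (σ i1), (∑ j, a j • Pi.single (σ j) (1 : ℝ) : Fin N → ℝ) k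
      = ∑ i ∈ Finset.Icc i0 i1, a i := by
    simp only [Finset.sum_apply, Pi.smul_apply, smul_eq_mul]
    rw [Finset.sum_comm, ← Finset.sum_filter_add_sum_filter_not Finset.univ
      (fun j => j ∈ Finset.Icc i0 i1), Finset.filter_mem_eq_inter, Finset.univ_inter]
    refine (congrArg₂ (· + ·) ?_ (Finset.sum_eq_zero fun j hj => ?_)).trans (add_zero _)
    · refine Finset.sum_congr rfl fun j hj => ?_
      rw [Finset.sum_eq_single_of_mem (σ j) ?_ (fun k _ hk => by simp [Pi.single_eq_of_ne hk])]
      · simp
      · simp only [Finset.mem_Icc] at hj ⊢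
        exact ⟨hσ.monotone hj.1, hσ.monotone hj.2⟩
    · refine Finset.sum_eq_zero fun k hk => ?_
      rw [Pi.single_eq_of_ne, mul_zero]
      rintro rfl
      simp only [Finset.mem_filter, Finset.mem_Icc] at hj hk
      exact hj.2 ⟨hσ.le_iff_le.1 hk.1, hσ.le_iff_le.1 hk.2⟩
  rw [h2] at h1
  linarith [(abs_le.1 (h a (by simp))).2]

lemma nu_insert_zero (l r : List ℝ) : nu q (l ++ 0 :: r) = nu q (l ++ r) :=
  spread_insert_zero l r 0

lemma nu_zeros (n : ℕ) : ∀ l r : List ℝ,
    nu q (l ++ (List.replicate n 0 ++ r)) = nu q (l ++ r) := by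
  induction n with
  | zero => intro l r; simp
  | succ n ih => intro l r; rw [List.replicate_succ, List.cons_append, nu_insert_zero, ih]

lemma nu_add_list (hq : ∀ n, IsSystem θ (q n)) {l₁ l₂ : List ℝ} (h : l₁.length = l₂.length) :
    nu q (List.zipWith (· + ·) l₁ l₂) ≤ nu q l₁ + nu q l₂ := by
  have e1 : l₁ = List.ofFn (fun i : Fin l₁.length => l₁[(i : ℕ)]) := List.ofFn_getElem.symm
  have e2 : l₂ = List.ofFn (fun i : Fin l₁.length => l₂[(i : ℕ)]'(h ▸ i.isLt)) :=
    List.ext_getElem (by simp [h]) fun i h1 h2 => by simp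
  have e3 : List.zipWith (· + ·) l₁ l₂
      = List.ofFn ((fun i : Fin l₁.length => l₁[(i : ℕ)])
        + fun i : Fin l₁.length => l₂[(i : ℕ)]'(h ▸ i.isLt)) :=
    List.ext_getElem (by simp [h]) fun i h1 h2 => by simp
  rw [e3]
  refine le_trans ?_ (le_of_eq (congrArg₂ (· + ·) (congrArg (nu q) e1.symm)
    (congrArg (nu q) e2.symm)))
  simpa using nu_add hq (fun i : Fin l₁.length => l₁[(i : ℕ)])
    (fun i : Fin l₁.length => l₂[(i : ℕ)]'(h ▸ i.isLt))

lemma nu_smul_list (hq : ∀ n, IsSystem θ (q n)) (c : ℝ) (l : List ℝ) :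
    nu q (l.map fun a => c * a) = |c| * nu q l := by
  have := nu_smul hq c (fun i : Fin l.length => l[(i : ℕ)])
  rw [List.ofFn_getElem] at this
  rw [← this]
  congr 1
  exact List.ext_getElem (by simp) fun i h1 h2 => by simp

/-- Replace every coefficient by a uniform block of length `L`. -/
noncomputable def blow (L : ℕ) (l : List ℝ) : List ℝ :=
  l.flatMap fun a => List.replicate L (a / L)

lemma sum_abs_blow_le (L : ℕ) (l : List ℝ) :
    ((blow L l).map fun a => |a|).sum ≤ (l.map fun a => |a|).sum := by
  induction l with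
  | nil => simp [blow]
  | cons a l ih =>
    simp only [blow, List.flatMap_cons, List.map_append, List.sum_append, List.map_replicate,
      List.sum_replicate, List.map_cons, List.sum_cons, nsmul_eq_mul] at ih ⊢
    refine add_le_add ?_ ih
    rcases Nat.eq_zero_or_pos L with rfl | hL
    · simp
    · rw [abs_div, Nat.abs_cast, mul_div_cancel₀ _ (by positivity)]

lemma sum_blow {L : ℕ} (hL : 1 ≤ L) (l : List ℝ) : (blow L l).sum = l.sum := by
  induction l with
  | nil => simp [blow]
  | cons a l ih =>
    simp only [blow, List.flatMap_cons, List.sum_append, List.sum_replicate, List.sum_cons,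
      nsmul_eq_mul] at ih ⊢
    rw [ih, mul_div_cancel₀ _ (by positivity)]

lemma abs_nu_blow_le (hq : ∀ n, IsSystem θ (q n)) (l : List ℝ) (L : ℕ) :
    |nu q (blow L l)| ≤ (l.map fun a => |a|).sum := by
  refine (abs_spread_le hq _ 0).trans ?_
  simpa [size] using sum_abs_blow_le L l

/-- The seminorm. -/
noncomputable def eta (q : ∀ n : ℕ, (Fin n → ℝ) → ℝ) (l : List ℝ) : ℝ :=
  ulim fun L => nu q (blow L l)

lemma tendsto_eta (hq : ∀ n, IsSystem θ (q n)) (l : List ℝ) :
    Tendsto (fun L => nu q (blow L l)) (freeU : Filter ℕ) (𝓝 (eta q l)) :=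
  tendsto_ulim (abs_nu_blow_le hq l)

/-- One shifted copy of a run inside a block of length `L + h`. -/
def shiftFun {h : ℕ} (L s : ℕ) (R : Fin h → ℝ) (p : Fin (L + h)) : ℝ :=
  ∑ i : Fin h, if s + i.val = p.val then R i else 0

lemma ofFn_shiftFun {h L s : ℕ} (hs : s ≤ L) (R : Fin h → ℝ) :
    List.ofFn (shiftFun L s R)
      = List.replicate s 0 ++ (List.ofFn R ++ List.replicate (L - s) 0) := by
  refine List.ext_getElem (by simp; omega) fun p h1 h2 => ?_
  simp only [List.getElem_ofFn, shiftFun]
  rcases lt_or_ge p s with hp | hp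
  · rw [List.getElem_append_left (by simpa using hp), List.getElem_replicate]
    exact Finset.sum_eq_zero fun i _ => if_neg (by omega)
  · rw [List.getElem_append_right (by simpa using hp)]
    simp only [List.length_replicate]
    rcases lt_or_ge (p - s) h with hp' | hp'
    · rw [List.getElem_append_left (by simpa using hp'), List.getElem_ofFn,
        Finset.sum_eq_single_of_mem (⟨p - s, hp'⟩ : Fin h) (Finset.mem_univ _)
          (fun i _ hi => if_neg fun hc => hi (Fin.ext (by simp; omega)))]
      rw [if_pos (by simp; omega)]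
    · rw [List.getElem_append_right (by simpa using hp'), List.getElem_replicate]
      exact Finset.sum_eq_zero fun i _ => if_neg (by omega)

lemma nu_flatMap_shift {h L s : ℕ} (hs : s ≤ L) (Rs : List (Fin h → ℝ)) :
    ∀ pre : List ℝ, nu q (pre ++ Rs.flatMap fun R => List.ofFn (shiftFun L s R))
      = nu q (pre ++ Rs.flatMap fun R => List.ofFn R) := by
  induction Rs with
  | nil => intro pre; rfl
  | cons R Rs ih =>
    intro pre
    simp only [List.flatMap_cons]
    rw [ofFn_shiftFun hs, List.append_assoc, List.append_assoc, nu_zeros,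
      ← List.append_assoc pre, nu_zeros, ih, List.append_assoc]

lemma zipWith_flatMap_ofFn {α : Type*} {w : ℕ} (f g : α → Fin w → ℝ) (Rs : List α) :
    List.zipWith (· + ·) (Rs.flatMap fun R => List.ofFn (f R))
        (Rs.flatMap fun R => List.ofFn (g R))
      = Rs.flatMap fun R => List.ofFn (f R + g R) := by
  induction Rs with
  | nil => rfl
  | cons R Rs ih =>
    simp only [List.flatMap_cons]
    rw [List.zipWith_append (by simp), ih]
    congr 1
    exact List.ext_getElem (by simp) fun i h1 h2 => by simp

lemma length_flatMap_ofFn {α : Type*} {w : ℕ} (f : α → Fin w → ℝ) (Rs : List α) :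
    (Rs.flatMap fun R => List.ofFn (f R)).length = Rs.length * w := by
  induction Rs with
  | nil => simp
  | cons R Rs ih => simp [ih]; ring

/-- Averaging the shifts of all runs. -/
lemma nu_blow_sums_le (hq : ∀ n, IsSystem θ (q n)) {h : ℕ} (Rs : List (Fin h → ℝ)) {L : ℕ}
    (hL : 1 ≤ L) :
    nu q (blow L (Rs.map fun R => ∑ i, R i)) ≤ nu q (Rs.flatMap fun R => List.ofFn R)
      + 2 * h / L * (Rs.map fun R => ∑ i, |R i|).sum := by
  let T : ℕ → (Fin h → ℝ) → Fin (L + h) → ℝ := fun n R p =>
    ∑ s ∈ Finset.range n, shiftFun L s R p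
  have hT : ∀ n, n ≤ L → nu q (Rs.flatMap fun R => List.ofFn (T n R))
      ≤ n * nu q (Rs.flatMap fun R => List.ofFn R) := by
    intro n
    induction n with
    | zero =>
      intro _
      have : nu q (Rs.flatMap fun R => List.ofFn (T 0 R))
          ≤ ((Rs.flatMap fun R => List.ofFn (T 0 R)).map fun a => |a|).sum := nu_le_sum hq _
      refine this.trans (le_of_eq ?_)
      simp only [Nat.cast_zero, zero_mul]
      refine List.sum_eq_zero fun x hx => ?_
      simp only [List.mem_map, List.mem_flatMap, List.mem_ofFn] at hx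
      obtain ⟨_, ⟨R, _, p, rfl⟩, rfl⟩ := hx
      simp [T]
    | succ n ih =>
      intro hn
      have e : (Rs.flatMap fun R => List.ofFn (T (n + 1) R))
          = Rs.flatMap fun R => List.ofFn (T n R + shiftFun L n R) := by
        simp only [T, Finset.sum_range_succ]
        rfl
      rw [e, ← zipWith_flatMap_ofFn (T n) (shiftFun L n) Rs]
      refine (nu_add_list hq (by simp [length_flatMap_ofFn])).trans ?_
      have := nu_flatMap_shift (q := q) (show n ≤ L by omega) Rs []
      simp only [List.nil_append] at this
      rw [this]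
      have := ih (by omega)
      push_cast
      linarith
  let B : (Fin h → ℝ) → Fin (L + h) → ℝ := fun R p => if p.val < L then (∑ i, R i) / L else 0
  let E : (Fin h → ℝ) → Fin (L + h) → ℝ := fun R p => B R p - T L R p / L
  have hB : ∀ (Ts : List (Fin h → ℝ)) (pre : List ℝ),
      nu q (pre ++ Ts.flatMap fun R => List.ofFn (B R))
      = nu q (pre ++ blow L (Ts.map fun R => ∑ i, R i)) := by
    intro Ts
    induction Ts with
    | nil => intro pre; simp [blow]
    | cons R Ts ih =>
      intro pre
      have e : List.ofFn (B R) = List.replicate L ((∑ i, R i) / L) ++ List.replicate h 0 := by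
        refine List.ext_getElem (by simp) fun p h1 h2 => ?_
        simp only [List.getElem_ofFn, B]
        rcases lt_or_ge p L with hp | hp
        · rw [if_pos hp, List.getElem_append_left (by simpa using hp), List.getElem_replicate]
        · rw [if_neg (by omega), List.getElem_append_right (by simpa using hp),
            List.getElem_replicate]
      simp only [List.flatMap_cons, List.map_cons, blow, e, List.append_assoc]
      rw [← List.append_assoc pre, nu_zeros, ih (pre ++ _)]
      simp [blow]
  have hE : ∀ R : Fin h → ℝ, ∑ p, |E R p| ≤ 2 * h / L * ∑ i, |R i| := by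
    intro R
    have e : ∀ p : Fin (L + h), E R p = ∑ i : Fin h, R i / L *
        ((if p.val < L then 1 else 0) - (if i.val ≤ p.val ∧ p.val < i.val + L then 1 else 0)) := by
      intro p
      have e1 : T L R p = ∑ i : Fin h,
          R i * (if i.val ≤ p.val ∧ p.val < i.val + L then (1 : ℝ) else 0) := by
        simp only [T, shiftFun]
        rw [Finset.sum_comm]
        refine Finset.sum_congr rfl fun i _ => ?_
        by_cases hi : i.val ≤ p.val ∧ p.val < i.val + L
        · rw [if_pos hi, mul_one, Finset.sum_eq_single_of_mem (p.val - i.val)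
            (Finset.mem_range.2 (by omega)) (fun s _ hs => if_neg (by omega))]
          rw [if_pos (by omega)]
        · rw [if_neg hi, mul_zero]
          refine Finset.sum_eq_zero fun s hs => if_neg ?_
          rw [Finset.mem_range] at hs
          omega
      have e2 : B R p = ∑ i : Fin h, R i / L * (if p.val < L then (1 : ℝ) else 0) := by
        simp only [B]
        split <;> simp [Finset.sum_div]
      simp only [E, e1, e2, Finset.sum_div, ← Finset.sum_sub_distrib]
      refine Finset.sum_congr rfl fun i _ => ?_
      ring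
    calc ∑ p, |E R p| ≤ ∑ p : Fin (L + h), ∑ i : Fin h, |R i / L *
          ((if p.val < L then 1 else 0)
            - (if i.val ≤ p.val ∧ p.val < i.val + L then (1 : ℝ) else 0))| :=
          Finset.sum_le_sum fun p _ => by rw [e p]; exact Finset.abs_sum_le_sum_abs _ _
      _ = ∑ i : Fin h, |R i| / L * ∑ p : Fin (L + h), |(if p.val < L then 1 else 0)
            - (if i.val ≤ p.val ∧ p.val < i.val + L then (1 : ℝ) else 0)| := by
          rw [Finset.sum_comm]
          refine Finset.sum_congr rfl fun i _ => ?_
          rw [Finset.mul_sum]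
          refine Finset.sum_congr rfl fun p _ => ?_
          rw [abs_mul, abs_div, Nat.abs_cast]
      _ ≤ ∑ i : Fin h, |R i| / L * (2 * h) := by
          refine Finset.sum_le_sum fun i _ => mul_le_mul_of_nonneg_left ?_ (by positivity)
          have key : ∑ p : Fin (L + h), |(if p.val < L then 1 else 0)
              - (if i.val ≤ p.val ∧ p.val < i.val + L then (1 : ℝ) else 0)|
              ≤ ∑ p : Fin (L + h), ((if p.val < h then (1 : ℝ) else 0)
                + (if L ≤ p.val then 1 else 0)) := by
            refine Finset.sum_le_sum fun p _ => ?_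
            have := i.isLt
            split_ifs <;> first | omega | norm_num
          refine key.trans (le_of_eq ?_)
          rw [Fin.sum_univ_eq_sum_range
            (fun p => (if p < h then (1 : ℝ) else 0) + (if L ≤ p then 1 else 0)),
            Finset.sum_add_distrib, Finset.sum_boole, Finset.sum_boole]
          have f1 : (Finset.range (L + h)).filter (fun p => p < h) = Finset.range h := by
            ext p; simp; omega
          have f2 : (Finset.range (L + h)).filter (fun p => L ≤ p) = Finset.Ico L (L + h) := by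
            ext p; simp; omega
          rw [f1, f2]
          simp
          ring
      _ = 2 * h / L * ∑ i, |R i| := by
          rw [Finset.mul_sum]
          exact Finset.sum_congr rfl fun i _ => by ring
  have hsplit : (Rs.flatMap fun R => List.ofFn (B R))
      = List.zipWith (· + ·) ((Rs.flatMap fun R => List.ofFn (T L R)).map fun a => (L : ℝ)⁻¹ * a)
          (Rs.flatMap fun R => List.ofFn (E R)) := by
    rw [List.map_flatMap]
    simp only [List.map_ofFn]
    rw [zipWith_flatMap_ofFn]
    refine List.flatMap_congr fun R _ => congrArg List.ofFn (funext fun p => ?_)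
    simp [E]
    ring
  have h0 := hB Rs []
  simp only [List.nil_append] at h0
  rw [← h0, hsplit]
  refine (nu_add_list hq (by simp [length_flatMap_ofFn])).trans (add_le_add ?_ ?_)
  · rw [nu_smul_list hq, abs_of_nonneg (by positivity)]
    have := hT L le_rfl
    rw [inv_mul_le_iff₀ (by positivity)]
    exact this
  · refine (nu_le_sum hq _).trans ?_
    clear h0 hsplit hB hT
    induction Rs with
    | nil => simp
    | cons R Rs ih =>
      simp only [List.flatMap_cons, List.map_append, List.sum_append, List.map_cons,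
        List.sum_cons, mul_add]
      refine add_le_add ?_ ih
      rw [List.map_ofFn, List.sum_ofFn]
      exact hE R

lemma eta_merge (hq : ∀ n, IsSystem θ (q n)) (l r : List ℝ) (a b : ℝ) :
    eta q (l ++ (a + b) :: r) ≤ eta q (l ++ a :: b :: r) := by
  refine ge_of_tendsto (tendsto_eta hq _) ((eventually_ge 1).mono fun e he => ?_)
  -- runs of length `e + e`
  let one : ℝ → Fin (e + e) → ℝ := fun x p => if p.val < e then x / e else 0
  let two : Fin (e + e) → ℝ := fun p => if p.val < e then a / e else b / e
  let Rs : List (Fin (e + e) → ℝ) := l.map one ++ two :: r.map one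
  have sumOne : ∀ x, ∑ i, one x i = x := fun x => by
    simp only [one, Fin.sum_univ_add, Fin.val_castAdd, Fin.val_natAdd, Fin.is_lt, if_true]
    simp only [not_lt.2 (Nat.le_add_right e _), if_false, Finset.sum_const, Finset.card_univ,
      Fintype.card_fin, nsmul_eq_mul, mul_zero, add_zero]
    rw [mul_div_cancel₀ _ (by positivity)]
  have sumTwo : ∑ i, two i = a + b := by
    simp only [two, Fin.sum_univ_add, Fin.val_castAdd, Fin.val_natAdd, Fin.is_lt, if_true]
    simp only [not_lt.2 (Nat.le_add_right e _), if_false, Finset.sum_const, Finset.card_univ,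
      Fintype.card_fin, nsmul_eq_mul]
    rw [mul_div_cancel₀ _ (by positivity), mul_div_cancel₀ _ (by positivity)]
  have hsums : (Rs.map fun R => ∑ i, R i) = l ++ (a + b) :: r := by
    simp [Rs, Function.comp_def, sumOne, sumTwo]
  have ofTwo : List.ofFn two = List.replicate e (a / e) ++ List.replicate e (b / e) := by
    refine List.ext_getElem (by simp) fun p h1 h2 => ?_
    simp only [List.getElem_ofFn, two]
    rcases lt_or_ge p e with hp | hp
    · rw [if_pos hp, List.getElem_append_left (by simpa using hp), List.getElem_replicate]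
    · rw [if_neg (by omega), List.getElem_append_right (by simpa using hp),
        List.getElem_replicate]
  have ofOne : ∀ x, List.ofFn (one x) = List.replicate e (x / e) ++ List.replicate e 0 := by
    intro x
    refine List.ext_getElem (by simp) fun p h1 h2 => ?_
    simp only [List.getElem_ofFn, one]
    rcases lt_or_ge p e with hp | hp
    · rw [if_pos hp, List.getElem_append_left (by simpa using hp), List.getElem_replicate]
    · rw [if_neg (by omega), List.getElem_append_right (by simpa using hp),
        List.getElem_replicate]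
  have clean : ∀ (m : List ℝ) (pre post : List ℝ),
      nu q (pre ++ ((m.map one).flatMap (fun R => List.ofFn R) ++ post))
        = nu q (pre ++ (blow e m ++ post)) := by
    intro m
    induction m with
    | nil => intro pre post; simp [blow]
    | cons x m ih =>
      intro pre post
      simp only [List.map_cons, List.flatMap_cons, ofOne, blow, List.append_assoc]
      rw [← List.append_assoc pre, nu_zeros, ih]
      simp [blow]
  have hflat : nu q (Rs.flatMap fun R => List.ofFn R) = nu q (blow e (l ++ a :: b :: r)) := by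
    have h1 := clean l [] (List.ofFn two ++ (r.map one).flatMap fun R => List.ofFn R)
    have h2 := clean r (blow e l ++ List.ofFn two) []
    simp only [List.nil_append, List.append_nil, List.append_assoc] at h1 h2
    simp only [Rs, List.flatMap_append, List.flatMap_cons]
    rw [h1, h2, ofTwo]
    simp [blow, List.append_assoc]
  set C := (Rs.map fun R => ∑ i, |R i|).sum with hC
  have hlim : Tendsto (fun L : ℕ => nu q (blow e (l ++ a :: b :: r))
      + 2 * ((e + e : ℕ) : ℝ) / L * C) (freeU : Filter ℕ)
      (𝓝 (nu q (blow e (l ++ a :: b :: r)))) := by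
    have h1 : Tendsto (fun L : ℕ => 2 * ((e + e : ℕ) : ℝ) / L) atTop (𝓝 0) :=
      tendsto_const_div_atTop_nhds_zero_nat _
    have h2 := (h1.mono_left (show (freeU : Filter ℕ) ≤ atTop from
      Nat.hyperfilter_le_atTop)).mul_const C
    simpa using tendsto_const_nhds.add h2
  refine le_of_tendsto_of_tendsto (tendsto_eta hq _) hlim ((eventually_ge 1).mono fun L hL => ?_)
  have := nu_blow_sums_le hq Rs hL
  rwa [hsums, hflat] at this

end Limit

open Limit in
/-- Every family of systems has a spreading seminorm finitely representable in it. -/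
theorem exists_spreadNorm {θ : ℝ} (hθ : 0 < θ) {q : ∀ n : ℕ, (Fin n → ℝ) → ℝ}
    (hq : ∀ n, IsSystem θ (q n)) : Nonempty (SpreadNorm θ q) := by
  refine ⟨{ η := eta q, add_le := ?_, smul := ?_, insert_zero := ?_, merge := eta_merge hq,
            le_sum := ?_, lower := ?_, approx := ?_ }⟩
  · intro l
    refine le_of_tendsto_of_tendsto (tendsto_eta hq _)
      ((tendsto_eta hq _).add (tendsto_eta hq _)) (Eventually.of_forall fun L => ?_)
    have e : ∀ l : List (ℝ × ℝ), blow L (l.map fun z => z.1 + z.2)
        = List.zipWith (· + ·) (blow L (l.map Prod.fst)) (blow L (l.map Prod.snd)) ∧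
        (blow L (l.map Prod.fst)).length = (blow L (l.map Prod.snd)).length := by
      intro l
      induction l with
      | nil => simp [blow]
      | cons z l ih =>
        simp only [blow, List.map_cons, List.flatMap_cons] at ih ⊢
        refine ⟨?_, by simp [ih.2]⟩
        rw [List.zipWith_append (by simp), ← ih.1, List.zipWith_replicate']
        simp [add_div]
    show nu q (blow L (l.map fun z => z.1 + z.2)) ≤ _
    rw [(e l).1]
    exact nu_add_list hq (e l).2
  · intro c l
    refine tendsto_nhds_unique (tendsto_eta hq _) ?_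
    refine ((tendsto_eta hq l).const_mul |c|).congr fun L => ?_
    rw [← nu_smul_list hq]
    congr 1
    induction l with
    | nil => simp [blow]
    | cons a l ih =>
      simp only [blow, List.flatMap_cons, List.map_cons, List.map_append,
        List.map_replicate] at ih ⊢
      rw [ih, mul_div_assoc]
  · intro l r
    unfold eta
    congr 1
    funext L
    have h1 : blow L (l ++ 0 :: r) = blow L l ++ (List.replicate L 0 ++ blow L r) := by
      simp [blow]
    have h2 : blow L (l ++ r) = blow L l ++ blow L r := by simp [blow]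
    rw [h1, h2, nu_zeros]
  · intro l
    exact (le_abs_self _).trans (abs_ulim_le (abs_nu_blow_le hq l))
  · intro l m r
    refine ge_of_tendsto (tendsto_eta hq _) ((eventually_ge 1).mono fun L hL => ?_)
    have h1 : blow L (l ++ m ++ r) = blow L l ++ blow L m ++ blow L r := by simp [blow]
    rw [h1, ← sum_blow hL m]
    exact nu_lower hq _ _ _
  · intro k A ε hε
    classical
    have hev : ∀ᶠ L in (freeU : Filter ℕ), 1 ≤ L ∧ ∀ a ∈ A,
        |nu q (blow L (List.ofFn a)) - eta q (List.ofFn a)| ≤ ε / 2 := by
      refine (eventually_ge 1).and ((Finset.eventually_all A).2 fun a _ => ?_)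
      have := (Metric.tendsto_nhds.1 (tendsto_eta hq (List.ofFn a))) (ε / 2) (by positivity)
      exact this.mono fun L hL => by simpa [Real.dist_eq] using hL.le
    obtain ⟨L, hL, hLA⟩ := hev.exists
    -- the flattened coefficient vector
    let up : (Fin k → ℝ) → Fin (k * L) → ℝ := fun a x => a x.divNat / L
    have hup : ∀ a, List.ofFn (up a) = blow L (List.ofFn a) := by
      intro a
      rw [List.ofFn_mul, blow, List.flatMap_def, List.map_ofFn]
      congr 2
      funext i
      refine List.ext_getElem (by simp) fun j h1 h2 => ?_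
      simp only [List.getElem_ofFn, Function.comp_apply, List.getElem_replicate, up]
      congr 2
      refine Fin.ext ?_
      simp only [Fin.coe_divNat]
      simp only [List.length_ofFn] at h1
      rw [Nat.mul_comm, Nat.mul_add_div (by omega), Nat.div_eq_of_lt h1, add_zero]
    obtain ⟨N, σ, hσ, hN⟩ := nu_approx hq (k * L) (A.image up) (show 0 < ε / 2 by positivity)
    refine ⟨N, fun i => ∑ x ∈ Finset.univ.filter (fun x : Fin (k * L) => x.divNat = i),
      (L : ℝ)⁻¹ • Pi.single (σ x) (1 : ℝ), fun i => ?_, fun a ha => ?_⟩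
    · calc ∑ j, |(∑ x ∈ Finset.univ.filter (fun x : Fin (k * L) => x.divNat = i),
            (L : ℝ)⁻¹ • Pi.single (σ x) (1 : ℝ) : Fin N → ℝ) j|
          ≤ ∑ j, ∑ x ∈ Finset.univ.filter (fun x : Fin (k * L) => x.divNat = i),
            |((L : ℝ)⁻¹ • Pi.single (σ x) (1 : ℝ) : Fin N → ℝ) j| := by
            refine Finset.sum_le_sum fun j _ => ?_
            rw [Finset.sum_apply]
            exact Finset.abs_sum_le_sum_abs _ _
        _ = ∑ _x ∈ Finset.univ.filter (fun x : Fin (k * L) => x.divNat = i), (L : ℝ)⁻¹ := by
            rw [Finset.sum_comm]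
            refine Finset.sum_congr rfl fun x _ => ?_
            rw [Finset.sum_eq_single_of_mem (σ x) (Finset.mem_univ _)
              (fun j _ hj => by simp [Pi.single_eq_of_ne hj])]
            simp
        _ ≤ 1 := by
            have hcard : (Finset.univ.filter (fun x : Fin (k * L) => x.divNat = i)).card ≤ L := by
              refine le_trans (Finset.card_le_card_of_injOn (fun x => x.modNat)
                (fun x _ => Finset.mem_coe.2 (Finset.mem_univ _))
                (fun x hx y hy hxy => ?_)) (le_of_eq (Finset.card_fin L))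
              simp only [Finset.coe_filter, Set.mem_ofPred_eq] at hx hy
              have h1 := congrArg Fin.val (hx.2.trans hy.2.symm)
              have h2 := congrArg Fin.val hxy
              simp only [Fin.coe_divNat, Fin.coe_modNat] at h1 h2
              refine Fin.ext ?_
              rw [← Nat.div_add_mod x.val L, ← Nat.div_add_mod y.val L, h1, h2]
            rw [Finset.sum_const, nsmul_eq_mul, ← div_eq_mul_inv,
              div_le_one (by exact_mod_cast hL)]
            exact_mod_cast hcard
    · have h1 := hN _ (Finset.mem_image_of_mem _ ha)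
      rw [hup] at h1
      have e : (∑ i, a i • ∑ x ∈ Finset.univ.filter (fun x : Fin (k * L) => x.divNat = i),
          (L : ℝ)⁻¹ • (Pi.single (σ x) (1 : ℝ) : Fin N → ℝ))
          = ∑ x, up a x • Pi.single (σ x) (1 : ℝ) := by
        rw [← Finset.sum_fiberwise Finset.univ (fun x : Fin (k * L) => x.divNat)
          (fun x => up a x • (Pi.single (σ x) (1 : ℝ) : Fin N → ℝ))]
        refine Finset.sum_congr rfl fun i _ => ?_
        rw [Finset.smul_sum]
        refine Finset.sum_congr rfl fun x hx => ?_
        rw [smul_smul, ← div_eq_mul_inv, ← (Finset.mem_filter.1 hx).2]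
      rw [e]
      exact (abs_sub_le _ _ _).trans (by have := hLA a ha; linarith)

end Vale.Agent.P125
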