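import Mathlib
import Vale.Agent.P125.Chain

/-!
# P125: the cocycle of a reduced word along a crossing chain

Each of the two generators carries a vector of cell boundaries. The prefix sums of the vector of
a reduced word of length `r` starting with the letter `i` equal `-r` on the inner cells which are
not of type `i`, and reach `r` in each inner cell of type `i`.
-/

namespace Vale.Agent.P125

open Finsupp

variable {Ω : Type} [LinearOrder Ω]

/-- Prefix sum of a configuration strictly below `z`. -/
noncomputable def pre (v : Ω →₀ ℤ) (z : Ω) : ℤ :=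
  v.sum fun p x => if p < z then x else 0

/-- Total sum of a configuration. -/
noncomputable def total (v : Ω →₀ ℤ) : ℤ :=
  v.sum fun _ x => x

lemma pre_add (v w : Ω →₀ ℤ) (z : Ω) : pre (v + w) z = pre v z + pre w z :=
  Finsupp.sum_add_index' (fun p => by simp) fun p x y => by split <;> simp

lemma pre_zero (z : Ω) : pre (0 : Ω →₀ ℤ) z = 0 := Finsupp.sum_zero_index

lemma pre_neg (v : Ω →₀ ℤ) (z : Ω) : pre (-v) z = -pre v z := by
  have := pre_add v (-v) z
  rw [add_neg_cancel, pre_zero] at this
  linarith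

lemma pre_single (p z : Ω) (x : ℤ) : pre (single p x) z = if p < z then x else 0 :=
  Finsupp.sum_single_index (by simp)

lemma total_add (v w : Ω →₀ ℤ) : total (v + w) = total v + total w :=
  Finsupp.sum_add_index' (fun _ => rfl) fun _ _ _ => rfl

lemma total_zero : total (0 : Ω →₀ ℤ) = 0 := Finsupp.sum_zero_index

lemma total_neg (v : Ω →₀ ℤ) : total (-v) = -total v := by
  have := total_add v (-v)
  rw [add_neg_cancel, total_zero] at this
  linarith

lemma total_single (p : Ω) (x : ℤ) : total (single p x) = x := Finsupp.sum_single_index rfl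

lemma pre_push (g : Ω ≃o Ω) (v : Ω →₀ ℤ) (z : Ω) : pre (push g v) z = pre v (g⁻¹ z) := by
  rw [pre, pre, push, Finsupp.sum_equivMapDomain]
  refine Finsupp.sum_congr fun p _ => ?_
  have : g p < z ↔ p < g⁻¹ z := g.lt_symm_apply.symm
  show (if g p < z then v p else 0) = if p < g⁻¹ z then v p else 0
  by_cases h : p < g⁻¹ z
  · rw [if_pos h, if_pos (this.2 h)]
  · rw [if_neg h, if_neg (mt this.1 h)]

lemma total_push (g : Ω ≃o Ω) (v : Ω →₀ ℤ) : total (push g v) = total v := by
  rw [total, total, push, Finsupp.sum_equivMapDomain]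

/-- The configuration described by a list of weighted points. -/
noncomputable def ofPairs : List (Ω × ℤ) → (Ω →₀ ℤ)
  | [] => 0
  | q :: l => single q.1 q.2 + ofPairs l

lemma ofPairs_append (l m : List (Ω × ℤ)) : ofPairs (l ++ m) = ofPairs l + ofPairs m := by
  induction l with
  | nil => simp [ofPairs]
  | cons q l ih => simp [ofPairs, ih, add_assoc]

/-- Differences of a function along a list of cuts. -/
def diffs {α : Type} (G : α → ℤ) (tot : ℤ) : ℤ → List α → List ℤ
  | c, [] => [tot - c]
  | c, z :: zs => (G z - c) :: diffs G tot (G z) zs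

/-- The list `-1, 2, -2, ..., 2, -2, 1` with `K` pairs, without its first entry. -/
def altTail : ℕ → List ℤ
  | 0 => [1]
  | K + 1 => 2 :: -2 :: altTail K

/-- The list `-1, 2, -2, ..., 2, -2, 1` with `K` pairs. -/
def alt (K : ℕ) : List ℤ := -1 :: altTail K

variable {M : ℕ} (s : Stage M)

/-- The letter `i` as an element of the group of the chain. -/
noncomputable def Stage.gen (i : Fin 4) : s.carrier ≃o s.carrier := ty s.a s.b i.val

lemma Stage.gen_eq {i : Fin 4} {k : ℕ} (h : k % 4 = i.val) : s.gen i = ty s.a s.b k :=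
  ty_congr _ _ (by omega)

lemma Stage.gen_add_two (i : Fin 4) : s.gen (i + 2) = (s.gen i)⁻¹ := by
  rw [Stage.gen, Stage.gen, ← ty_add_two]
  refine ty_congr _ _ ?_
  rw [Fin.val_add]
  show (i.val + 2) % 4 % 4 = (i.val + 2) % 4
  omega

/-- `z` lies in the `k`-th half-open cell. -/
def Stage.InCell (k : ℕ) (z : s.carrier) : Prop := s.c k < z ∧ z ≤ s.c (k + 1)

lemma Stage.inCell_unique {k k' : ℕ} {z : s.carrier} (hk : k + 1 ≤ M) (hk' : k' + 1 ≤ M)
    (h : s.InCell k z) (h' : s.InCell k' z) : k = k' := by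
  by_contra hne
  rcases Nat.lt_or_gt_of_ne hne with hl | hl
  · have : s.c (k + 1) ≤ s.c k' := by
      rcases (show k + 1 = k' ∨ k + 1 < k' by omega) with he | he
      · rw [he]
      · exact (s.mono _ _ he (by omega)).le
    exact absurd (lt_of_lt_of_le (lt_of_le_of_lt this h'.1) h.2) (lt_irrefl _)
  · have : s.c (k' + 1) ≤ s.c k := by
      rcases (show k' + 1 = k ∨ k' + 1 < k by omega) with he | he
      · rw [he]
      · exact (s.mono _ _ he (by omega)).le
    exact absurd (lt_of_lt_of_le (lt_of_le_of_lt this h.1) h'.2) (lt_irrefl _)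

/-- A letter of type `k` sends the window around cell `k` strictly inside this cell. -/
lemma Stage.window {k : ℕ} {z : s.carrier} {i : Fin 4} (hi : k % 4 = i.val) (hk : 1 ≤ k)
    (hk2 : k + 2 ≤ M) (h1 : s.c (k - 1) < z) (h2 : z ≤ s.c (k + 2)) :
    s.c k < s.gen i z ∧ s.gen i z < s.c (k + 1) := by
  rw [s.gen_eq hi]
  refine ⟨lt_trans (s.rise k hk (by omega)) ((ty s.a s.b k).strictMono h1), ?_⟩
  refine lt_of_le_of_lt ((ty s.a s.b k).monotone h2) ?_
  have h := s.rise (k + 2) (by omega) hk2
  rw [ty_add_two, show k + 2 - 1 = k + 1 by omega] at h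
  have h' := (ty s.a s.b k).strictMono h
  rwa [RelIso.apply_inv_self] at h'

/-- The points and weights of the cells `k₀, k₀ + 4, ...`. -/
def Stage.cellPairs {M : ℕ} (s : Stage M) : ℕ → ℕ → List (s.carrier × ℤ)
  | _, 0 => []
  | k₀, K + 1 => (s.c k₀, 2) :: (s.c (k₀ + 1), -2) :: Stage.cellPairs s (k₀ + 4) K

/-- The first inner cell of type `i`. -/
def firstCell (i : Fin 4) : ℕ := if i.val = 0 then 4 else i.val

/-- The number of inner cells of type `i`. -/
def numCells (M : ℕ) (i : Fin 4) : ℕ := (M + 2 - firstCell i) / 4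

/-- The weighted points of the vector of a generator. -/
def Stage.genPairs (i : Fin 4) : List (s.carrier × ℤ) :=
  (s.c 0, -1) :: (s.cellPairs (firstCell i) (numCells M i) ++ [(s.c M, 1)])

/-- The vector of the letter `i`. -/
noncomputable def Stage.vec (i : Fin 4) : s.carrier →₀ ℤ :=
  if i.val < 2 then ofPairs (s.genPairs i)
  else -push (s.gen i) (ofPairs (s.genPairs (i + 2)))

lemma pre_cellPairs_out (k₀ K : ℕ) (z : s.carrier) (hb : k₀ + 4 * K ≤ M + 3)
    (h : ∀ j < K, ¬ s.InCell (k₀ + 4 * j) z) :
    pre (ofPairs (s.cellPairs k₀ K)) z = 0 := by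
  induction K generalizing k₀ with
  | zero => simp [Stage.cellPairs, ofPairs, pre_zero]
  | succ K ih =>
    have h0 := h 0 (by omega)
    simp only [Nat.mul_zero, Nat.add_zero, Stage.InCell, not_and, not_le] at h0
    have hlt : s.c k₀ < s.c (k₀ + 1) := s.mono _ _ (by omega) (by omega)
    rw [Stage.cellPairs, ofPairs, ofPairs, pre_add, pre_add, pre_single, pre_single,
      ih (k₀ + 4) (by omega) (fun j hj => by
        rw [show k₀ + 4 + 4 * j = k₀ + 4 * (j + 1) by ring]; exact h (j + 1) (by omega))]
    by_cases hz : s.c k₀ < z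
    · rw [if_pos hz, if_pos (h0 hz)]; norm_num
    · rw [if_neg hz, if_neg fun h1 => hz (hlt.trans h1)]; norm_num

lemma pre_cellPairs_in (k₀ K j : ℕ) (z : s.carrier) (hb : k₀ + 4 * K ≤ M + 3) (hj : j < K)
    (h : s.InCell (k₀ + 4 * j) z) :
    pre (ofPairs (s.cellPairs k₀ K)) z = 2 := by
  induction K generalizing k₀ j with
  | zero => omega
  | succ K ih =>
    rw [Stage.cellPairs, ofPairs, ofPairs, pre_add, pre_add, pre_single, pre_single]
    cases j with
    | zero =>
      simp only [Nat.mul_zero, Nat.add_zero] at h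
      rw [pre_cellPairs_out s (k₀ + 4) K z (by omega) fun j hj hin => by
        have := s.inCell_unique (by omega) (by omega) h hin
        omega]
      rw [if_pos h.1, if_neg (not_lt.2 h.2)]; norm_num
    | succ j =>
      rw [ih (k₀ + 4) j (by omega) (by omega) (by
        rwa [show k₀ + 4 + 4 * j = k₀ + 4 * (j + 1) by ring])]
      have hlt : s.c (k₀ + 1) < z :=
        lt_trans (s.mono _ _ (by omega) (by omega)) h.1
      rw [if_pos ((s.mono k₀ (k₀ + 1) (by omega) (by omega)).trans hlt), if_pos hlt]
      norm_num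

lemma genPairs_bound (i : Fin 4) (hM : 4 ≤ M) :
    1 ≤ firstCell i ∧ firstCell i + 4 * numCells M i ≤ M + 2 := by
  have := i.isLt
  unfold numCells firstCell
  split <;> omega

lemma pre_genPairs {i : Fin 4} {k : ℕ} {z : s.carrier} (hk : 1 ≤ k) (hk2 : k + 2 ≤ M)
    (h : s.InCell k z) :
    pre (ofPairs (s.genPairs i)) z = if k % 4 = i.val then 1 else -1 := by
  have hi := i.isLt
  have hM : 3 ≤ M := by omega
  have hF : 1 ≤ firstCell i ∧ firstCell i ≤ 4 ∧ firstCell i % 4 = i.val := by
    unfold firstCell; split <;> omega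
  have hb : firstCell i + 4 * numCells M i ≤ M + 3 := by
    unfold numCells; omega
  have hz0 : s.c 0 < z := lt_trans (s.mono _ _ (by omega) (by omega)) h.1
  have hzM : ¬ s.c M < z := not_lt.2 (le_trans h.2 (s.mono _ _ (by omega) le_rfl).le)
  simp only [Stage.genPairs, ofPairs, ofPairs_append, pre_add, pre_single, if_pos hz0,
    if_neg hzM, pre_zero]
  split_ifs with hki
  · obtain ⟨j, hj⟩ : ∃ j, k = firstCell i + 4 * j := ⟨(k - firstCell i) / 4, by omega⟩
    rw [pre_cellPairs_in s _ _ j z hb (by unfold numCells; omega) (hj ▸ h)]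
    norm_num
  · rw [pre_cellPairs_out s _ _ z hb fun j hj hin => by
      have := s.inCell_unique (by omega) (by omega) h hin
      omega]
    norm_num

lemma total_cellPairs (k₀ K : ℕ) : total (ofPairs (s.cellPairs k₀ K)) = 0 := by
  induction K generalizing k₀ with
  | zero => simp [Stage.cellPairs, ofPairs, total_zero]
  | succ K ih => simp [Stage.cellPairs, ofPairs, total_add, total_single, total_neg, ih]

lemma total_vec (i : Fin 4) : total (s.vec i) = 0 := by
  have h : ∀ j, total (ofPairs (s.genPairs j)) = 0 := fun j => by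
    simp [Stage.genPairs, ofPairs, ofPairs_append, total_add, total_single, total_neg,
      total_cellPairs]
  unfold Stage.vec
  split <;> simp [h, total_neg, total_push]

/-- The value of the vector of `i` at a point pulled back into a cell. -/
lemma pre_vec_neg {i : Fin 4} {k : ℕ} {z : s.carrier} (hk : 2 ≤ k) (hk2 : k + 3 ≤ M)
    (hki : k % 4 ≠ i.val) (h : s.InCell k z) : pre (s.vec i) z = -1 := by
  have hi := i.isLt
  unfold Stage.vec
  split_ifs with h2
  · rw [pre_genPairs s (by omega) (by omega) h, if_neg hki]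
  · rw [pre_neg, pre_push]
    obtain ⟨k', hk'⟩ : ∃ k', k' % 4 = (i + 2).val ∧ k ≤ k' + 1 ∧ k' ≤ k + 1 := by
      have e : (i + 2).val = (i.val + 2) % 4 := Fin.val_add i 2
      rcases (show (k % 4 = (i.val + 2) % 4) ∨ ((k + 1) % 4 = (i.val + 2) % 4) ∨
          ((k + 3) % 4 = (i.val + 2) % 4) by omega) with h' | h' | h'
      · exact ⟨k, by omega⟩
      · exact ⟨k + 1, by omega⟩
      · exact ⟨k - 1, by omega⟩
    have hc : s.c (k' - 1) ≤ s.c k := by
      rcases (show k' - 1 = k ∨ k' - 1 < k by omega) with he | he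
      · rw [he]
      · exact (s.mono _ _ he (by omega)).le
    have hc' : s.c (k + 1) ≤ s.c (k' + 2) := by
      rcases (show k + 1 = k' + 2 ∨ k + 1 < k' + 2 by omega) with he | he
      · rw [he]
      · exact (s.mono _ _ he (by omega)).le
    have hw := s.window hk'.1 (by omega) (by omega) (lt_of_le_of_lt hc h.1) (le_trans h.2 hc')
    rw [← s.gen_add_two]
    rw [pre_genPairs s (by omega) (by omega) ⟨hw.1, hw.2.le⟩, if_pos hk'.1]

/-- The value of the vector of `i` on the image of a window. -/
lemma pre_vec_pos {i : Fin 4} {k j : ℕ} {z : s.carrier} (hk : 2 ≤ k) (hk2 : k + 3 ≤ M)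
    (hki : k % 4 = i.val) (hj : k ≤ j + 1 ∧ j ≤ k + 1) (h : s.InCell j z) :
    pre (s.vec i) (s.gen i z) = 1 := by
  have hi := i.isLt
  unfold Stage.vec
  split_ifs with h2
  · have hc : s.c (k - 1) ≤ s.c j := by
      rcases (show k - 1 = j ∨ k - 1 < j by omega) with he | he
      · rw [he]
      · exact (s.mono _ _ he (by omega)).le
    have hc' : s.c (j + 1) ≤ s.c (k + 2) := by
      rcases (show j + 1 = k + 2 ∨ j + 1 < k + 2 by omega) with he | he
      · rw [he]
      · exact (s.mono _ _ he (by omega)).le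
    have hw := s.window hki (by omega) (by omega) (lt_of_le_of_lt hc h.1) (le_trans h.2 hc')
    rw [pre_genPairs s (by omega) (by omega) ⟨hw.1, hw.2.le⟩, if_pos hki]
  · rw [pre_neg, pre_push, RelIso.inv_apply_self, pre_genPairs s (by omega) (by omega) h,
      if_neg (by
        have e : (i + 2).val = (i.val + 2) % 4 := Fin.val_add i 2
        omega)]
    norm_num

/-- The vector part and the group part of a word. -/
noncomputable def Stage.word {M : ℕ} (s : Stage M) :
    List (Fin 4) → (s.carrier →₀ ℤ) × (s.carrier ≃o s.carrier)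
  | [] => (0, 1)
  | i :: l => (s.vec i + push (s.gen i) (Stage.word s l).1, s.gen i * (Stage.word s l).2)

/-- A word is reduced if no letter is followed by its inverse. -/
def Reduced (l : List (Fin 4)) : Prop := List.IsChain (fun i j : Fin 4 => j ≠ i + 2) l

lemma total_word (l : List (Fin 4)) : total (s.word l).1 = 0 := by
  induction l with
  | nil => exact total_zero
  | cons i l ih => simp [Stage.word, total_add, total_push, total_vec, ih]

/-- The prefix sums of a reduced word. -/
theorem pre_word (l : List (Fin 4)) : ∀ i : Fin 4, Reduced (i :: l) →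
    (∀ k z, l.length + 2 ≤ k → k + l.length + 3 ≤ M → k % 4 ≠ i.val → s.InCell k z →
      pre (s.word (i :: l)).1 z = -(l.length + 1 : ℤ)) ∧
    (∀ k, l.length + 2 ≤ k → k + l.length + 3 ≤ M → k % 4 = i.val →
      ∃ z, s.InCell k z ∧ pre (s.word (i :: l)).1 z = (l.length + 1 : ℤ)) := by
  induction l with
  | nil =>
    intro i _
    simp only [Stage.word, push_zero, add_zero, List.length_nil, Nat.cast_zero, zero_add]
    refine ⟨fun k z hk hk2 hki h => pre_vec_neg s hk hk2 hki h, fun k hk hk2 hki => ?_⟩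
    have hin : s.InCell (k + 1) (s.c (k + 2)) := ⟨s.mono _ _ (by omega) (by omega), le_rfl⟩
    refine ⟨s.gen i (s.c (k + 2)), ?_, pre_vec_pos s hk hk2 hki (by omega) hin⟩
    have hw := s.window hki (by omega) (by omega)
      (s.mono _ _ (show k - 1 < k + 2 by omega) (by omega)) le_rfl
    exact ⟨hw.1, hw.2.le⟩
  | cons y l ih =>
    intro i hred
    have hy : y ≠ i + 2 := (List.isChain_cons_cons.1 hred).1
    obtain ⟨ihY, ihP⟩ := ih y (List.isChain_cons_cons.1 hred).2
    have hyv : y.val ≠ (i.val + 2) % 4 := fun h => hy (Fin.ext (by rw [h, Fin.val_add]; rfl))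
    have hylt := y.isLt
    have hilt := i.isLt
    refine ⟨fun k z hk hk2 hki h => ?_, fun k hk hk2 hki => ?_⟩
    · simp only [List.length_cons] at hk hk2
      show pre (s.vec i + push (s.gen i) (s.word (y :: l)).1) z = _
      rw [pre_add, pre_push, pre_vec_neg s (by omega) (by omega) hki h]
      obtain ⟨k', hk'⟩ : ∃ k', k' % 4 = (i + 2).val ∧ k ≤ k' + 1 ∧ k' ≤ k + 1 := by
        have e : (i + 2).val = (i.val + 2) % 4 := Fin.val_add i 2
        rcases (show (k % 4 = (i.val + 2) % 4) ∨ ((k + 1) % 4 = (i.val + 2) % 4) ∨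
            ((k + 3) % 4 = (i.val + 2) % 4) by omega) with h' | h' | h'
        · exact ⟨k, by omega⟩
        · exact ⟨k + 1, by omega⟩
        · exact ⟨k - 1, by omega⟩
      have hc : s.c (k' - 1) ≤ s.c k := by
        rcases (show k' - 1 = k ∨ k' - 1 < k by omega) with he | he
        · rw [he]
        · exact (s.mono _ _ he (by omega)).le
      have hc' : s.c (k + 1) ≤ s.c (k' + 2) := by
        rcases (show k + 1 = k' + 2 ∨ k + 1 < k' + 2 by omega) with he | he
        · rw [he]
        · exact (s.mono _ _ he (by omega)).le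
      have hw := s.window hk'.1 (by omega) (by omega) (lt_of_le_of_lt hc h.1) (le_trans h.2 hc')
      rw [← s.gen_add_two, ihY k' _ (by omega) (by omega)
        (by rw [hk'.1, Fin.val_add]; exact fun h' => hyv h'.symm) ⟨hw.1, hw.2.le⟩]
      simp only [List.length_cons]; push_cast; ring
    · simp only [List.length_cons] at hk hk2
      obtain ⟨j, hj⟩ : ∃ j, j % 4 = y.val ∧ k ≤ j + 1 ∧ j ≤ k + 1 := by
        rcases (show (k % 4 = y.val) ∨ ((k + 1) % 4 = y.val) ∨ ((k + 3) % 4 = y.val) by omega)
          with h' | h' | h'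
        · exact ⟨k, by omega⟩
        · exact ⟨k + 1, by omega⟩
        · exact ⟨k - 1, by omega⟩
      obtain ⟨z, hz, hzv⟩ := ihP j (by omega) (by omega) hj.1
      have hc : s.c (k - 1) ≤ s.c j := by
        rcases (show k - 1 = j ∨ k - 1 < j by omega) with he | he
        · rw [he]
        · exact (s.mono _ _ he (by omega)).le
      have hc' : s.c (j + 1) ≤ s.c (k + 2) := by
        rcases (show j + 1 = k + 2 ∨ j + 1 < k + 2 by omega) with he | he
        · rw [he]
        · exact (s.mono _ _ he (by omega)).le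
      have hw := s.window hki (by omega) (by omega) (lt_of_le_of_lt hc hz.1) (le_trans hz.2 hc')
      refine ⟨s.gen i z, ⟨hw.1, hw.2.le⟩, ?_⟩
      show pre (s.vec i + push (s.gen i) (s.word (y :: l)).1) (s.gen i z) = _
      rw [pre_add, pre_push, RelIso.inv_apply_self, hzv,
        pre_vec_pos s (by omega) (by omega) hki ⟨hj.2.1, hj.2.2⟩ hz]
      simp only [List.length_cons]; push_cast; ring

/-- Cuts along `K` consecutive cells of type `k mod 4`, starting with cell `k`. -/
theorem exists_cuts (l : List (Fin 4)) (i : Fin 4) (hred : Reduced (i :: l)) (K : ℕ) :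
    ∀ k, l.length + 3 ≤ k → k + 4 * K + l.length + 3 ≤ M → k % 4 = i.val →
      ∃ zs : List s.carrier, List.IsChain (· < ·) (s.c k :: zs) ∧
        diffs (pre (s.word (i :: l)).1) 0 (-(l.length + 1 : ℤ)) zs
          = (altTail K).map (fun a => (l.length + 1 : ℤ) * a) := by
  obtain ⟨hY, hP⟩ := pre_word s l i hred
  induction K with
  | zero =>
    intro k _ _ _
    exact ⟨[], List.IsChain.singleton _, by simp [diffs, altTail]⟩
  | succ K ih =>
    intro k hk hk2 hki
    obtain ⟨z, hz, hzv⟩ := hP k (by omega) (by omega) hki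
    obtain ⟨zs, hzs, hd⟩ := ih (k + 4) (by omega) (by omega) (by omega)
    refine ⟨z :: s.c (k + 4) :: zs, ?_, ?_⟩
    · refine List.isChain_cons_cons.2 ⟨hz.1, List.isChain_cons_cons.2 ⟨?_, hzs⟩⟩
      exact lt_of_le_of_lt hz.2 (s.mono _ _ (by omega) (by omega))
    · have h4 : pre (s.word (i :: l)).1 (s.c (k + 4)) = -(l.length + 1 : ℤ) :=
        hY (k + 3) _ (by omega) (by omega) (by omega)
          ⟨s.mono _ _ (by omega) (by omega), le_rfl⟩
      rw [diffs, diffs, hzv, h4, hd, altTail, List.map_cons, List.map_cons]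
      congr 1
      · ring
      · congr 1
        ring

/-- The whole cut list of a reduced word. -/
theorem exists_alt_cuts (l : List (Fin 4)) (i : Fin 4) (hred : Reduced (i :: l)) (K : ℕ)
    (hK : 4 * K + 2 * l.length + 9 ≤ M) :
    ∃ zs : List s.carrier, List.IsChain (· < ·) zs ∧
      diffs (pre (s.word (i :: l)).1) (total (s.word (i :: l)).1) 0 zs
        = (alt K).map (fun a => (l.length + 1 : ℤ) * a) := by
  have hilt := i.isLt
  obtain ⟨k, hk, hk'⟩ : ∃ k, k % 4 = i.val ∧ l.length + 3 ≤ k ∧ k ≤ l.length + 6 := by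
    refine ⟨l.length + 3 + (i.val + 4 - (l.length + 3) % 4) % 4, ?_, ?_, ?_⟩ <;> omega
  obtain ⟨zs, hzs, hd⟩ := exists_cuts s l i hred K k hk'.1 (by omega) hk
  refine ⟨s.c k :: zs, hzs, ?_⟩
  have h0 : pre (s.word (i :: l)).1 (s.c k) = -(l.length + 1 : ℤ) := by
    have hin : s.InCell (k - 1) (s.c k) := ⟨s.mono _ _ (by omega) (by omega),
      le_of_eq (by rw [show k - 1 + 1 = k by omega])⟩
    exact (pre_word s l i hred).1 (k - 1) _ (by omega) (by omega) (by omega) hin
  rw [total_word, diffs, h0, hd, alt, List.map_cons, mul_neg_one, sub_zero]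

end Vale.Agent.P125
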