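import Mathlib
import Vale.Agent.P125.Defs
import Vale.Agent.P125.Words

/-!
# P125: spreading seminorms evaluated on configurations

Merging neighbouring coefficients along cuts only decreases a spreading seminorm. Hence the
configuration of a reduced word of length `r` is at least `r` times the alternating list.
-/

namespace Vale.Agent.P125

open Finsupp

namespace SpreadNorm

variable {θ : ℝ} {q : ∀ n : ℕ, (Fin n → ℝ) → ℝ} (S : SpreadNorm θ q)

lemma η_nil : S.η [] = 0 := by
  simpa using S.smul 0 []

lemma η_neg (l : List ℝ) : S.η (l.map fun a => -a) = S.η l := by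
  have := S.smul (-1) l
  simpa [neg_one_mul] using this

lemma η_filter_aux (l : List ℝ) : ∀ pre : List ℝ,
    S.η (pre ++ l) = S.η (pre ++ l.filter fun a => decide (a ≠ 0)) := by
  induction l with
  | nil => intro pre; rfl
  | cons a l ih =>
    intro pre
    by_cases ha : a = 0
    · subst ha
      rw [S.insert_zero, ih pre]
      simp
    · rw [List.filter_cons_of_pos (by simpa using ha)]
      have := ih (pre ++ [a])
      simpa using this

lemma η_filter (l : List ℝ) : S.η l = S.η (l.filter fun a => decide (a ≠ 0)) := by
  simpa using S.η_filter_aux l []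

lemma merge_list (m : List ℝ) : ∀ l r : List ℝ, S.η (l ++ m.sum :: r) ≤ S.η (l ++ m ++ r) := by
  induction m with
  | nil => intro l r; rw [List.sum_nil, S.insert_zero, List.append_nil]
  | cons a m ih =>
    intro l r
    rw [List.sum_cons]
    refine le_trans (S.merge l r a m.sum) ?_
    have := ih (l ++ [a]) r
    simpa using this

lemma η_replicate_zero (n : ℕ) : S.η (List.replicate n 0) = 0 := by
  rw [S.η_filter]
  simp [S.η_nil]

lemma η_pad_right (l : List ℝ) (n : ℕ) : S.η (l ++ List.replicate n 0) = S.η l := by
  rw [S.η_filter, S.η_filter l, List.filter_append]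
  simp

lemma η_pad_left (l : List ℝ) (n : ℕ) : S.η (List.replicate n 0 ++ l) = S.η l := by
  rw [S.η_filter, S.η_filter l, List.filter_append]
  simp

lemma add_le_of_eq {l₁ l₂ l₃ : List ℝ} (h : l₁.length = l₂.length)
    (h₃ : List.zipWith (· + ·) l₁ l₂ = l₃) : S.η l₃ ≤ S.η l₁ + S.η l₂ := by
  have := S.add_le (l₁.zip l₂)
  rw [List.map_fst_zip (by omega), List.map_snd_zip (by omega)] at this
  refine le_trans (le_of_eq ?_) this
  rw [← h₃, List.zip, List.map_zipWith]

lemma η_append_le (l₁ l₂ : List ℝ) : S.η (l₁ ++ l₂) ≤ S.η l₁ + S.η l₂ := by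
  have h := S.add_le_of_eq (l₁ := l₁ ++ List.replicate l₂.length 0)
    (l₂ := List.replicate l₁.length 0 ++ l₂) (l₃ := l₁ ++ l₂) (by simp) (by
      rw [List.zipWith_append (by simp)]
      congr 1
      · induction l₁ with
        | nil => rfl
        | cons a l ih => simp [List.replicate_succ, ih]
      · induction l₂ with
        | nil => rfl
        | cons a l ih => simp [List.replicate_succ, ih])
  rwa [S.η_pad_right, S.η_pad_left] at h

/-- The seminorm of the list `-1, 2, -2, ..., 2, -2, 1`. -/
noncomputable def altVal (K : ℕ) : ℝ := S.η ((alt K).map fun a : ℤ => (a : ℝ))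

lemma altVal_zero : S.altVal 0 = S.η [1, -1] := by
  rw [altVal, ← S.η_neg]
  simp [alt, altTail]

lemma theta_le_altVal_zero : θ ≤ S.altVal 0 := by
  rw [S.altVal_zero]
  simpa using S.lower [] [1] [-1]

lemma altVal_le_succ (K : ℕ) : S.altVal K ≤ S.altVal (K + 1) := by
  have h := S.merge [-1] ((altTail K).map fun a : ℤ => (a : ℝ)) 2 (-2)
  have h' := S.insert_zero [-1] ((altTail K).map fun a : ℤ => (a : ℝ))
  simp only [add_neg_cancel, List.cons_append, List.nil_append] at h h'
  rw [h'] at h
  simpa [altVal, alt, altTail] using h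

lemma altVal_mono : Monotone S.altVal := monotone_nat_of_le_succ S.altVal_le_succ

/-- The pairs `2, -2`, repeated. -/
def pairsList : ℕ → List ℝ
  | 0 => []
  | K + 1 => 2 :: -2 :: pairsList K

lemma altTail_eq (K : ℕ) : (altTail K).map (fun a : ℤ => (a : ℝ)) = pairsList K ++ [1] := by
  induction K with
  | zero => simp [altTail, pairsList]
  | succ K ih => simp [altTail, pairsList, ih]

lemma pairsList_add (K J : ℕ) : pairsList (K + J) = pairsList K ++ pairsList J := by
  induction K with
  | zero => simp [pairsList]
  | succ K ih => rw [Nat.succ_add]; simp [pairsList, ih]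

lemma altVal_eq (K : ℕ) : S.altVal K = S.η (-1 :: (pairsList K ++ [1])) := by
  rw [altVal, alt, List.map_cons, altTail_eq]; norm_num

lemma altVal_add_le (K J : ℕ) :
    S.altVal (K + J) ≤ S.altVal K + S.altVal J + S.altVal 0 := by
  set P := (-1 : ℝ) :: pairsList K
  set R := pairsList J ++ [(1 : ℝ)]
  have h1 : S.η (P ++ [0, 0] ++ R) = S.altVal (K + J) := by
    rw [show P ++ [0, 0] ++ R = P ++ 0 :: 0 :: R by simp, S.insert_zero, S.insert_zero,
      S.altVal_eq, pairsList_add]
    simp [P, R]
  have h2 : S.η (P ++ [1, -1] ++ R) ≤ S.altVal K + S.altVal J := by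
    rw [show P ++ [1, -1] ++ R = (P ++ [1]) ++ (-1 :: R) by simp, S.altVal_eq, S.altVal_eq]
    exact le_trans (S.η_append_le _ _) (le_of_eq (by simp [P, R]))
  have h3 : S.η (List.replicate P.length 0 ++ [-1, 1] ++ List.replicate R.length 0)
      = S.altVal 0 := by
    rw [S.η_pad_right, S.η_pad_left, S.altVal_eq]
    simp [pairsList]
  have h4 := S.add_le_of_eq (l₁ := P ++ [1, -1] ++ R)
    (l₂ := List.replicate P.length 0 ++ [-1, 1] ++ List.replicate R.length 0)
    (l₃ := P ++ [0, 0] ++ R) (by simp) (by
      rw [List.zipWith_append (by simp), List.zipWith_append (by simp)]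
      have key : ∀ l : List ℝ, List.zipWith (· + ·) l (List.replicate l.length 0) = l := by
        intro l
        induction l with
        | nil => rfl
        | cons a l ih => simp [List.replicate_succ, ih]
      rw [key, key]
      norm_num)
  linarith

variable {Ω : Type} [LinearOrder Ω]

/-- The seminorm of a configuration. -/
noncomputable def ev (v : Ω →₀ ℤ) : ℝ :=
  S.η ((v.support.sort (· ≤ ·)).map fun p => (v p : ℝ))

lemma η_sorted_eq_ev (v : Ω →₀ ℤ) {L : List Ω} (hL : L.Pairwise (· < ·))
    (hsub : ∀ p ∈ v.support, p ∈ L) : S.η (L.map fun p => (v p : ℝ)) = S.ev v := by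
  have hs : L.filter (fun p => decide (v p ≠ 0)) = v.support.sort (· ≤ ·) := by
    refine List.Perm.eq_of_pairwise' ?_ (v.support.pairwise_sort (· ≤ ·)) ?_
    · exact (hL.filter _).imp fun h => h.le
    · refine (List.perm_ext_iff_of_nodup (hL.nodup.filter _) (Finset.sort_nodup _ _)).2
        fun p => ?_
      simp only [List.mem_filter, Finset.mem_sort, decide_eq_true_eq]
      exact ⟨fun h => Finsupp.mem_support_iff.2 h.2,
        fun h => ⟨hsub p h, Finsupp.mem_support_iff.1 h⟩⟩
  rw [ev, S.η_filter, ← hs, List.filter_map]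
  congr 2
  refine List.filter_congr fun p _ => ?_
  simp

lemma ev_push (g : Ω ≃o Ω) (v : Ω →₀ ℤ) : S.ev (push g v) = S.ev v := by
  have hL : ((v.support.sort (· ≤ ·)).map g).Pairwise (· < ·) :=
    List.Pairwise.map g (fun a b h => g.strictMono h) v.support.sortedLT_sort.pairwise
  rw [← S.η_sorted_eq_ev (push g v) hL (fun p hp => by
    refine List.mem_map.2 ⟨g.symm p, ?_, g.apply_symm_apply p⟩
    rw [Finset.mem_sort, Finsupp.mem_support_iff, ← push_apply]
    exact Finsupp.mem_support_iff.1 hp)]
  rw [ev, List.map_map]
  refine congrArg S.η (List.map_congr_left fun p _ => ?_)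
  simp [push_apply]

lemma ev_neg (v : Ω →₀ ℤ) : S.ev (-v) = S.ev v := by
  rw [ev, ev, ← S.η_neg ((v.support.sort (· ≤ ·)).map _), List.map_map]
  simp only [Finsupp.support_neg]
  refine congrArg S.η (List.map_congr_left fun p _ => ?_)
  simp

lemma ev_ofPairs {l : List (Ω × ℤ)} (hl : (l.map Prod.fst).Pairwise (· < ·)) :
    S.ev (ofPairs l) = S.η (l.map fun z => (z.2 : ℝ)) := by
  have out : ∀ l : List (Ω × ℤ), ∀ p, p ∉ l.map Prod.fst → ofPairs l p = 0 := by
    intro l
    induction l with
    | nil => intro p _; rfl
    | cons z l ih =>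
      intro p hp
      simp only [List.map_cons, List.mem_cons, not_or] at hp
      rw [ofPairs, Finsupp.add_apply, Finsupp.single_eq_of_ne hp.1, ih p hp.2, add_zero]
  have key : ∀ l : List (Ω × ℤ), (l.map Prod.fst).Pairwise (· < ·) →
      (l.map Prod.fst).map (fun p => (ofPairs l p : ℝ)) = l.map fun z => (z.2 : ℝ) := by
    intro l
    induction l with
    | nil => intro _; rfl
    | cons z l ih =>
      intro h
      rw [List.map_cons, List.pairwise_cons] at h
      simp only [List.map_cons, List.cons.injEq]
      refine ⟨?_, ?_⟩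
      · rw [ofPairs, Finsupp.add_apply, Finsupp.single_eq_same,
          out l z.1 fun hm => lt_irrefl _ (h.1 _ hm)]
        simp
      · rw [← ih h.2]
        refine List.map_congr_left fun p hp => ?_
        rw [ofPairs, Finsupp.add_apply, Finsupp.single_eq_of_ne (h.1 p hp).ne', zero_add]
  rw [← S.η_sorted_eq_ev _ hl fun p hp => by
    by_contra hc
    exact Finsupp.mem_support_iff.1 hp (out l p hc), key l hl]

lemma filter_split {L : List Ω} (hL : L.Pairwise (· < ·)) (z : Ω) :
    L = (L.filter fun p => decide (p < z)) ++ L.filter fun p => !decide (p < z) := by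
  induction L with
  | nil => rfl
  | cons a L ih =>
    rw [List.pairwise_cons] at hL
    by_cases ha : a < z
    · rw [List.filter_cons_of_pos (by simpa using ha),
        List.filter_cons_of_neg (by simpa using ha), List.cons_append, ← ih hL.2]
    · have he : (L.filter fun p => decide (p < z)) = [] := by
        rw [List.filter_eq_nil_iff]
        intro b hb
        simpa using le_trans (not_lt.1 ha) (hL.1 b hb).le
      have hf : (L.filter fun p => !decide (p < z)) = L := by
        rw [List.filter_eq_self]
        intro b hb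
        simpa using le_trans (not_lt.1 ha) (hL.1 b hb).le
      rw [List.filter_cons_of_neg (by simpa using ha),
        List.filter_cons_of_pos (by simpa using ha), he, hf]
      rfl

/-- Merging along cuts. -/
lemma diffs_le_ev (v : Ω →₀ ℤ) {zs : List Ω} (hzs : List.IsChain (· < ·) zs) :
    S.η ((diffs (pre v) (total v) 0 zs).map fun a : ℤ => (a : ℝ)) ≤ S.ev v := by
  -- prefix sums along a sorted list
  let F : List Ω → Ω → ℤ := fun L z => ((L.filter fun p => decide (p < z)).map v).sum
  have gen : ∀ zs : List Ω, List.Pairwise (· < ·) zs → ∀ (L : List Ω), L.Pairwise (· < ·) →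
      ∀ (acc : List ℝ) (c : ℤ) (G : Ω → ℤ) (tot : ℤ),
        (∀ z ∈ zs, G z = c + F L z) → tot = c + (L.map v).sum →
        S.η (acc ++ (diffs G tot c zs).map fun a : ℤ => (a : ℝ))
          ≤ S.η (acc ++ L.map fun p => (v p : ℝ)) := by
    intro zs
    induction zs with
    | nil =>
      intro _ L _ acc c G tot _ htot
      have := S.merge_list (L.map fun p => (v p : ℝ)) acc []
      simp only [List.append_nil] at this
      refine le_trans (le_of_eq ?_) this
      congr 2
      rw [diffs, htot]
      simp [Function.comp_def]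
    | cons z zs ih =>
      intro hzs L hL acc c G tot hG htot
      rw [List.pairwise_cons] at hzs
      have hsplit := filter_split hL z
      set lo := L.filter fun p => decide (p < z) with hlo
      set hi := L.filter fun p => !decide (p < z) with hhi
      have hGz : G z = c + (lo.map v).sum := hG z (by simp)
      have hrec := ih hzs.2 hi (hL.filter _) (acc ++ [((G z - c : ℤ) : ℝ)]) (G z) G tot
        (fun y hy => by
          rw [hG y (List.mem_cons_of_mem _ hy), hGz]
          have hzy := hzs.1 y hy
          have hlo' : (lo.filter fun p => decide (p < y)) = lo := by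
            rw [List.filter_eq_self]
            intro b hb
            have := (List.mem_filter.1 hb).2
            simp only [decide_eq_true_eq] at this ⊢
            exact this.trans hzy
          show c + ((L.filter fun p => decide (p < y)).map v).sum = _
          conv_lhs => rw [hsplit, List.filter_append, List.map_append, List.sum_append, hlo']
          show _ = c + (lo.map v).sum + ((hi.filter fun p => decide (p < y)).map v).sum
          ring)
        (by
          rw [htot, hGz]
          conv_lhs => rw [hsplit, List.map_append, List.sum_append]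
          ring)
      rw [diffs, List.map_cons]
      refine le_trans (le_of_eq (by simp)) (le_trans hrec ?_)
      have := S.merge_list (lo.map fun p => (v p : ℝ)) acc (hi.map fun p => (v p : ℝ))
      conv_rhs => rw [hsplit, List.map_append, ← List.append_assoc]
      refine le_trans (le_of_eq ?_) this
      rw [List.append_assoc, List.singleton_append]
      congr 2
      rw [hGz]
      simp [Function.comp_def]
  have hp : ∀ z, pre v z = 0 + F (v.support.sort (· ≤ ·)) z := by
    intro z
    rw [zero_add, pre, Finsupp.sum]
    show _ = (((v.support.sort (· ≤ ·)).filter fun p => decide (p < z)).map v).sum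
    rw [← List.sum_toFinset _ ((Finset.sort_nodup _ _).filter _), ← Finset.sum_filter]
    refine Finset.sum_congr ?_ fun _ _ => rfl
    ext p
    simp
  have ht : total v = 0 + ((v.support.sort (· ≤ ·)).map v).sum := by
    rw [zero_add, ← List.sum_toFinset _ (Finset.sort_nodup _ _)]
    simp [total, Finsupp.sum]
  have := gen zs (List.isChain_iff_pairwise.1 hzs) _ v.support.sortedLT_sort.pairwise [] 0
    (pre v) (total v) (fun z _ => hp z) ht
  simpa [ev] using this

variable {M : ℕ} (s : Stage M)

/-- A reduced word is large. -/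
theorem word_lower (l : List (Fin 4)) (i : Fin 4) (hred : Reduced (i :: l)) (K : ℕ)
    (hK : 4 * K + 2 * l.length + 9 ≤ M) :
    ((l.length + 1 : ℕ) : ℝ) * S.altVal K ≤ S.ev (s.word (i :: l)).1 := by
  obtain ⟨zs, hzs, hd⟩ := exists_alt_cuts s l i hred K hK
  refine le_trans (le_of_eq ?_) (S.diffs_le_ev _ hzs)
  rw [hd, List.map_map]
  have := S.smul ((l.length + 1 : ℕ) : ℝ) ((alt K).map fun a : ℤ => (a : ℝ))
  rw [List.map_map, abs_of_nonneg (by positivity)] at this
  rw [altVal, ← this]
  refine congrArg S.η (List.map_congr_left fun a _ => ?_)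
  simp

lemma cellPairs_snd (k₀ K : ℕ) :
    (s.cellPairs k₀ K).map (fun z => (z.2 : ℝ)) = pairsList K := by
  induction K generalizing k₀ with
  | zero => rfl
  | succ K ih => simp [Stage.cellPairs, pairsList, ih]

lemma cellPairs_fst (k₀ K : ℕ) (hb : k₀ + 4 * K ≤ M + 2) :
    (((s.cellPairs k₀ K).map Prod.fst) ++ [s.c M]).Pairwise (· < ·) ∧
      ∀ x ∈ ((s.cellPairs k₀ K).map Prod.fst) ++ [s.c M], ∀ j, j < k₀ → j < M → s.c j < x := by
  induction K generalizing k₀ with
  | zero =>
    simp only [Stage.cellPairs, List.map_nil, List.nil_append]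
    refine ⟨List.pairwise_singleton _ _, fun x hx j hj hjM => ?_⟩
    rw [List.mem_singleton] at hx
    exact hx ▸ s.mono _ _ hjM le_rfl
  | succ K ih =>
    obtain ⟨h1, h2⟩ := ih (k₀ + 4) (by omega)
    simp only [Stage.cellPairs, List.map_cons, List.cons_append]
    refine ⟨?_, ?_⟩
    · refine List.pairwise_cons.2 ⟨fun x hx => ?_, List.pairwise_cons.2 ⟨fun x hx => ?_, h1⟩⟩
      · rcases List.mem_cons.1 hx with rfl | hx
        · exact s.mono _ _ (by omega) (by omega)
        · exact h2 x hx k₀ (by omega) (by omega)
      · rcases (show k₀ + 1 < M ∨ k₀ + 1 = M by omega) with h | h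
        · exact h2 x hx (k₀ + 1) (by omega) h
        · omega
    · intro x hx j hj hjM
      rcases List.mem_cons.1 hx with rfl | hx
      · exact s.mono _ _ hj (by omega)
      rcases List.mem_cons.1 hx with rfl | hx
      · exact s.mono _ _ (by omega) (by omega)
      · exact h2 x hx j (by omega) hjM

/-- A generator is small. -/
theorem vec_le (hM : 5 ≤ M) (i : Fin 4) {J : ℕ} (hJ : (M + 1) / 4 ≤ J) :
    S.ev (s.vec i) ≤ S.altVal J := by
  have h : ∀ j : Fin 4, S.ev (ofPairs (s.genPairs j)) ≤ S.altVal J := by
    intro j
    have hb := genPairs_bound j (show 4 ≤ M by omega)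
    have hn : numCells M j ≤ J := by
      unfold numCells
      omega
    have hsort : ((s.genPairs j).map Prod.fst).Pairwise (· < ·) := by
      obtain ⟨h1, h2⟩ := cellPairs_fst s (firstCell j) (numCells M j) hb.2
      simp only [Stage.genPairs, List.map_cons, List.map_append, List.map_nil]
      exact List.pairwise_cons.2 ⟨fun x hx => h2 x hx 0 (by omega) (by omega), h1⟩
    rw [S.ev_ofPairs hsort]
    refine le_trans (le_of_eq ?_) (S.altVal_mono hn)
    rw [S.altVal_eq]
    simp [Stage.genPairs, cellPairs_snd]
  unfold Stage.vec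
  split
  · exact h i
  · rw [S.ev_neg, S.ev_push]; exact h (i + 2)

end SpreadNorm

end Vale.Agent.P125
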