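import Vale.Agent.P125.Defs

/-!
# P125: the boundary-lazy random walk of four generators, and the length of reduced words

Four permutations `e l` with `e (l + 2) = (e l).symm`. On a finite set `S` the walk tries a uniform
letter and stays put when it would leave `S`; it is reversible for the uniform measure.

Main result: `markov_walk`, for the right translations by four elements of a group.
-/

open Finset

namespace Vale.Agent.P125

variable {α : Type*}

/-- Applying a word, first letter first. -/
def actWord (e : Fin 4 → Equiv.Perm α) : List (Fin 4) → α → α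
  | [], x => x
  | l :: w, x => actWord e w (e l x)

lemma actWord_append (e : Fin 4 → Equiv.Perm α) (u w : List (Fin 4)) (x : α) :
    actWord e (u ++ w) x = actWord e w (actWord e u x) := by
  induction u generalizing x with
  | nil => rfl
  | cons l u ih => exact ih (e l x)

/-- Adding a letter to a reduced word, cancelling an inverse pair. -/
def pushLetter (r : List (Fin 4)) (l : Fin 4) : List (Fin 4) :=
  match r with
  | [] => [l]
  | a :: r' => if a = l + 2 then r' else l :: a :: r'

/-- The reduced word of a word, stored backwards (last letter at the head). -/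
def redWord (w : List (Fin 4)) : List (Fin 4) := w.foldl pushLetter []

lemma actWord_pushLetter (e : Fin 4 → Equiv.Perm α) (he : ∀ l, e (l + 2) = (e l).symm)
    (r : List (Fin 4)) (l : Fin 4) (x : α) :
    actWord e (pushLetter r l).reverse x = e l (actWord e r.reverse x) := by
  rcases r with _ | ⟨a, r'⟩
  · rfl
  · by_cases h : a = l + 2
    · subst h
      simp only [pushLetter, if_pos, List.reverse_cons, actWord_append, actWord, he,
        Equiv.apply_symm_apply]
    · simp only [pushLetter, if_neg h, List.reverse_cons, actWord_append, actWord]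

lemma actWord_redWord (e : Fin 4 → Equiv.Perm α) (he : ∀ l, e (l + 2) = (e l).symm)
    (w : List (Fin 4)) (x : α) : actWord e (redWord w).reverse x = actWord e w x := by
  induction w using List.reverseRecOn with
  | nil => rfl
  | append_singleton w l ih =>
    rw [redWord, List.foldl_append, List.foldl_cons, List.foldl_nil, ← redWord,
      actWord_pushLetter e he, ih, actWord_append]
    rfl

/-- A reduced word has no cancelling neighbours. -/
lemma redWord_reduced (w : List (Fin 4)) :
    List.IsChain (fun a b => b ≠ a + 2) (redWord w) := by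
  induction w using List.reverseRecOn with
  | nil => exact List.IsChain.nil
  | append_singleton w l ih =>
    rw [redWord, List.foldl_append, List.foldl_cons, List.foldl_nil, ← redWord]
    rcases h : redWord w with _ | ⟨a, r⟩
    · simp [pushLetter]
    · rw [h] at ih
      by_cases ha : a = l + 2
      · simp only [pushLetter, if_pos ha]; exact ih.tail
      · simp only [pushLetter, if_neg ha]; exact ih.cons_cons ha

lemma reduced_reverse_redWord (w : List (Fin 4)) :
    List.IsChain (fun a b => b ≠ a + 2) (redWord w).reverse := by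
  rw [List.isChain_reverse]
  refine (redWord_reduced w).imp fun a b hab h => hab ?_
  subst h; rw [add_assoc, show (2 : Fin 4) + 2 = 0 by decide, add_zero]

lemma length_redWord_le (w : List (Fin 4)) : (redWord w).length ≤ w.length := by
  induction w using List.reverseRecOn with
  | nil => simp [redWord]
  | append_singleton w l ih =>
    rw [redWord, List.foldl_append, List.foldl_cons, List.foldl_nil, ← redWord, List.length_append]
    rcases h : redWord w with _ | ⟨a, r⟩
    · simp [pushLetter]
    · rw [h] at ih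
      simp only [pushLetter]
      split <;> simp at ih ⊢ <;> omega

lemma sum_length_pushLetter (r : List (Fin 4)) :
    4 * (r.length : ℝ) + 2 ≤ ∑ l : Fin 4, ((pushLetter r l).length : ℝ) := by
  rcases r with _ | ⟨a, r'⟩
  · simp [pushLetter]; norm_num
  · fin_cases a <;> simp [pushLetter, Fin.sum_univ_four] <;> linarith

/-- The mean length of the reduced word of a random word of length `t` is at least `t / 2`. -/
lemma sum_length_redWord (t : ℕ) :
    4 ^ t * ((t : ℝ) / 2) ≤ ∑ w : Fin t → Fin 4, ((redWord (List.ofFn w)).length : ℝ) := by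
  induction t with
  | zero => simp
  | succ t ih =>
    rw [← Equiv.sum_comp (Fin.snocEquiv fun _ => Fin 4), Fintype.sum_prod_type, Finset.sum_comm]
    have key : ∀ w : Fin t → Fin 4,
        4 * ((redWord (List.ofFn w)).length : ℝ) + 2 ≤
          ∑ l : Fin 4, ((redWord (List.ofFn (Fin.snoc w l : Fin (t + 1) → Fin 4))).length : ℝ) := by
      intro w
      refine (sum_length_pushLetter (redWord (List.ofFn w))).trans_eq (sum_congr rfl fun l _ => ?_)
      rw [List.ofFn_succ']
      simp [redWord, List.concat_eq_append]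
    refine le_trans ?_ (sum_le_sum fun w _ => key w)
    rw [sum_add_distrib, ← mul_sum, sum_const, card_univ, Fintype.card_fun, Fintype.card_fin,
      Fintype.card_fin, nsmul_eq_mul]
    push_cast
    rw [pow_succ]
    linarith

variable [DecidableEq α]

/-- One step of the walk which stays in `S`. -/
def stepIn (e : Fin 4 → Equiv.Perm α) (S : Finset α) (l : Fin 4) (x : α) : α :=
  if e l x ∈ S then e l x else x

lemma stepIn_mem (e : Fin 4 → Equiv.Perm α) {S : Finset α} (l : Fin 4) {x : α} (hx : x ∈ S) :
    stepIn e S l x ∈ S := by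
  unfold stepIn; split <;> assumption

lemma stepIn_eq_iff (e : Fin 4 → Equiv.Perm α) {S : Finset α}
    (l : Fin 4) {x y : α} (hy : y ∈ S) (hxy : x ≠ y) :
    stepIn e S l x = y ↔ e l x = y := by
  unfold stepIn
  split
  · exact Iff.rfl
  · next h => exact ⟨fun h' => absurd h' hxy, fun h' => absurd (h' ▸ hy) h⟩

variable {X : Type*} [NormedAddCommGroup X] [NormedSpace ℝ X] {p K : ℝ}

omit [NormedSpace ℝ X] in
/-- The Markov type inequality for chains indexed by any finite type. -/
lemma MarkovTypeWith.fintype (h : MarkovTypeWith X p K) {ι : Type*} [Fintype ι] [DecidableEq ι]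
    (π : ι → ℝ) (P : Matrix ι ι ℝ) (hπ : ∀ i, 0 ≤ π i) (hπ1 : ∑ i, π i = 1)
    (hP : ∀ i j, 0 ≤ P i j) (hP1 : ∀ i, ∑ j, P i j = 1)
    (hrev : ∀ i j, π i * P i j = π j * P j i) (f : ι → X) (t : ℕ) (ht : 1 ≤ t) :
    ∑ i, ∑ j, π i * (P ^ t) i j * ‖f j - f i‖ ^ p ≤
      K ^ p * t * ∑ i, ∑ j, π i * P i j * ‖f j - f i‖ ^ p := by
  let u : Fin (Fintype.card ι) ≃ ι := (Fintype.equivFin ι).symm
  have hpow : ∀ i j, ((P.submatrix u u) ^ t) i j = (P ^ t) (u i) (u j) := by
    intro i j
    have := congrFun (congrFun (map_pow (Matrix.reindexAlgEquiv ℝ ℝ u.symm) P t) i) j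
    simpa [Matrix.reindex_apply] using this.symm
  have H := h (Fintype.card ι) (fun i => π (u i)) (P.submatrix u u) (fun i => hπ _)
    (by rw [u.sum_comp]; exact hπ1) (fun i j => hP _ _)
    (fun i => by simp only [Matrix.submatrix_apply]; rw [u.sum_comp (fun j => P (u i) j)]; exact hP1 _)
    (fun i j => hrev _ _) (fun i => f (u i)) t ht
  simp only [hpow, Matrix.submatrix_apply] at H
  rw [← u.sum_comp (fun i => ∑ j, π i * (P ^ t) i j * ‖f j - f i‖ ^ p),
    ← u.sum_comp (fun i => ∑ j, π i * P i j * ‖f j - f i‖ ^ p)]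
  simp only [← u.sum_comp (fun j => π (u _) * (P ^ t) (u _) j * ‖f j - f (u _)‖ ^ p),
    ← u.sum_comp (fun j => π (u _) * P (u _) j * ‖f j - f (u _)‖ ^ p)]
  exact H

omit [NormedSpace ℝ X] in
/-- Markov type bounds the displacement of random words by the displacement of single steps, for
the points all of whose short word images stay in the finite set `S`. -/
theorem markovType_words (h : MarkovTypeWith X p K) (e : Fin 4 → Equiv.Perm α)
    (he : ∀ l, e (l + 2) = (e l).symm) {S G : Finset α} (hS : S.Nonempty) (hG : G ⊆ S)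
    {t : ℕ} (ht : 1 ≤ t)
    (good : ∀ x ∈ G, ∀ w : List (Fin 4), w.length ≤ t → actWord e w x ∈ S) (f : α → X) :
    ∑ x ∈ G, ∑ w : Fin t → Fin 4, ‖f (actWord e (List.ofFn w) x) - f x‖ ^ p ≤
      K ^ p * t * 4 ^ t * ((1 / 4) * ∑ x ∈ S, ∑ l : Fin 4, ‖f (stepIn e S l x) - f x‖ ^ p) := by
  classical
  let T : Fin 4 → {x // x ∈ S} → {x // x ∈ S} :=
    fun l x => ⟨stepIn e S l x.1, stepIn_mem e l x.2⟩
  let P : Matrix {x // x ∈ S} {x // x ∈ S} ℝ :=
    Matrix.of fun i j => (1 / 4) * ∑ l, if T l i = j then (1 : ℝ) else 0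
  have hPsum : ∀ (i : {x // x ∈ S}) (g : {x // x ∈ S} → ℝ),
      ∑ j, P i j * g j = (1 / 4) * ∑ l, g (T l i) := by
    intro i g
    simp only [P, Matrix.of_apply, mul_assoc, sum_mul, ← mul_sum]
    rw [sum_comm]
    simp
  have hcard : (0 : ℝ) < (S.card : ℝ) := by exact_mod_cast hS.card_pos
  have hsym : ∀ i j, P i j = P j i := by
    intro i j
    rcases eq_or_ne i j with rfl | hij
    · rfl
    have hij' : i.1 ≠ j.1 := fun hh => hij (Subtype.ext hh)
    simp only [P, Matrix.of_apply]
    congr 1
    rw [← Equiv.sum_comp (Equiv.addRight (2 : Fin 4))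
      (fun l => if T l j = i then (1 : ℝ) else 0)]
    refine sum_congr rfl fun l _ => ?_
    simp only [T, Equiv.coe_addRight, Subtype.ext_iff, stepIn_eq_iff e l j.2 hij',
      stepIn_eq_iff e (l + 2) i.2 hij'.symm, he, Equiv.symm_apply_eq]
    exact if_congr eq_comm rfl rfl
  have hpow : ∀ (n : ℕ) (i : {x // x ∈ S}) (g : {x // x ∈ S} → ℝ),
      ∑ j, (P ^ n) i j * g j =
        (1 / 4) ^ n * ∑ w : Fin n → Fin 4, g ((List.ofFn w).foldl (fun y l => T l y) i) := by
    intro n
    induction n with
    | zero => intro i g; simp [Matrix.one_apply]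
    | succ n ih =>
      intro i g
      have h1 : ∑ j, (P ^ (n + 1)) i j * g j = ∑ k, P i k * ∑ j, (P ^ n) k j * g j := by
        simp only [pow_succ', Matrix.mul_apply, sum_mul, mul_sum, mul_assoc]
        exact sum_comm
      rw [h1, hPsum, ← Equiv.sum_comp (Fin.consEquiv fun _ => Fin 4), Fintype.sum_prod_type]
      simp only [ih, ← mul_sum, ← mul_assoc, ← pow_succ']
      simp [Fin.consEquiv, List.ofFn_succ]
  have H := h.fintype (fun _ => (1 / S.card : ℝ)) P (fun _ => by positivity)
    (by simp [hcard.ne'])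
    (fun i j => by simp only [P, Matrix.of_apply]; positivity)
    (fun i => by simpa using hPsum i 1)
    (fun i j => by rw [hsym]) (fun i => f i.1) t ht
  simp only [mul_assoc, ← mul_sum] at H
  simp only [hpow, hPsum, ← mul_sum] at H
  rw [← mul_assoc (K ^ p), mul_left_comm _ (1 / (S.card : ℝ)),
    mul_le_mul_iff_right₀ (by positivity)] at H
  have key : ∀ (w : List (Fin 4)) (i : {x // x ∈ S}),
      (∀ u : List (Fin 4), u.length ≤ w.length → actWord e u i.1 ∈ S) →
      (w.foldl (fun y l => T l y) i).1 = actWord e w i.1 := by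
    intro w
    induction w with
    | nil => intro i _; rfl
    | cons l w ih =>
      intro i hi
      have hl : e l i.1 ∈ S := hi [l] (by simp)
      have hT : (T l i).1 = e l i.1 := if_pos hl
      rw [List.foldl_cons, ih _ fun u hu => by
        rw [hT]; exact hi (l :: u) (by simpa using hu), hT]
      rfl
  calc ∑ x ∈ G, ∑ w : Fin t → Fin 4, ‖f (actWord e (List.ofFn w) x) - f x‖ ^ p
      ≤ ∑ i : {x // x ∈ S}, ∑ w : Fin t → Fin 4,
          ‖f ((List.ofFn w).foldl (fun y l => T l y) i).1 - f i.1‖ ^ p := by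
        rw [Finset.univ_eq_attach, ← Finset.sum_filter_add_sum_filter_not S.attach (fun i => i.1 ∈ G)]
        refine le_trans (le_of_eq ?_) (le_add_of_nonneg_right (sum_nonneg fun i _ =>
          sum_nonneg fun w _ => by positivity))
        refine (sum_bij (fun i _ => i.1) (fun i hi => (mem_filter.1 hi).2)
          (fun i _ j _ hh => Subtype.ext hh) (fun x hx => ⟨⟨x, hG hx⟩, by simpa using hx, rfl⟩)
          fun i hi => sum_congr rfl fun w _ => ?_).symm
        rw [key _ i fun u hu => good i.1 (mem_filter.1 hi).2 u (by simpa using hu)]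
    _ = 4 ^ t * ((1 / 4) ^ t * ∑ i : {x // x ∈ S}, ∑ w : Fin t → Fin 4,
          ‖f ((List.ofFn w).foldl (fun y l => T l y) i).1 - f i.1‖ ^ p) := by
        rw [← mul_assoc, ← mul_pow]; norm_num
    _ ≤ 4 ^ t * (K ^ p * t * ((1 / 4) * ∑ i : {x // x ∈ S}, ∑ l,
          ‖f (T l i).1 - f i.1‖ ^ p)) := mul_le_mul_of_nonneg_left H (by positivity)
    _ = _ := by
        rw [← Finset.sum_coe_sort S (fun x => ∑ l : Fin 4, ‖f (stepIn e S l x) - f x‖ ^ p)]
        ring

omit [NormedSpace ℝ X] in
/-- If on half of the points of `S` words move `f` by at least `c` times their reduced length while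
single steps inside `S` move it by at most `B`, then `t` is bounded. -/
theorem markovType_drift (hp : 1 ≤ p) (hK : 0 ≤ K) (h : MarkovTypeWith X p K)
    (e : Fin 4 → Equiv.Perm α) (he : ∀ l, e (l + 2) = (e l).symm) {S G : Finset α}
    (hS : S.Nonempty) (hG : G ⊆ S) (hhalf : (S.card : ℝ) ≤ 2 * G.card) {t : ℕ} (ht : 1 ≤ t)
    (good : ∀ x ∈ G, ∀ w : List (Fin 4), w.length ≤ t → actWord e w x ∈ S) (f : α → X)
    {c B : ℝ} (hc : 0 ≤ c) (hB : 0 ≤ B)
    (hfar : ∀ x ∈ G, ∀ w : Fin t → Fin 4,
      c * (redWord (List.ofFn w)).length ≤ ‖f (actWord e (List.ofFn w) x) - f x‖)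
    (hnear : ∀ x ∈ S, ∀ l, ‖f (stepIn e S l x) - f x‖ ≤ B) :
    (c * t / 2) ^ p ≤ 2 * K ^ p * t * B ^ p := by
  have hG0 : (0 : ℝ) < G.card := by
    have : (0 : ℝ) < S.card := by exact_mod_cast hS.card_pos
    linarith
  have h4 : (0 : ℝ) < 4 ^ t := by positivity
  have mean : ∀ x ∈ G, 4 ^ t * (c * t / 2) ^ p ≤
      ∑ w : Fin t → Fin 4, ‖f (actWord e (List.ofFn w) x) - f x‖ ^ p := by
    intro x hx
    have hJ := Real.rpow_arith_mean_le_arith_mean_rpow (univ : Finset (Fin t → Fin 4))
      (fun _ => 1 / 4 ^ t) (fun w => c * (redWord (List.ofFn w)).length) (fun _ _ => by positivity)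
      (by simp) (fun w _ => by positivity) hp
    rw [← mul_sum, ← mul_sum, ← mul_sum] at hJ
    have hsum := sum_length_redWord t
    have h1 : c * t / 2 ≤
        1 / 4 ^ t * (c * ∑ w : Fin t → Fin 4, ((redWord (List.ofFn w)).length : ℝ)) := by
      rw [div_mul_eq_mul_div, one_mul, le_div_iff₀ h4]
      nlinarith [mul_le_mul_of_nonneg_left hsum hc]
    have h2 := (Real.rpow_le_rpow (by positivity) h1 (by linarith : (0 : ℝ) ≤ p)).trans hJ
    rw [div_mul_eq_mul_div, one_mul, le_div_iff₀ h4] at h2
    refine le_trans ((mul_comm _ _).trans_le h2) (sum_le_sum fun w _ => ?_)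
    exact Real.rpow_le_rpow (by positivity) (hfar x hx w) (by linarith)
  have step : ∑ x ∈ S, ∑ l : Fin 4, ‖f (stepIn e S l x) - f x‖ ^ p ≤ S.card * (4 * B ^ p) := by
    refine (sum_le_sum fun x hx => sum_le_sum fun l _ =>
      Real.rpow_le_rpow (norm_nonneg _) (hnear x hx l) (by linarith : (0 : ℝ) ≤ p)).trans ?_
    simp
  have hw := markovType_words h e he hS hG ht good f
  have hKt : 0 ≤ K ^ p * t * 4 ^ t := by positivity
  have hBp : 0 ≤ B ^ p := by positivity
  have hfin : (G.card : ℝ) * (4 ^ t * (c * t / 2) ^ p) ≤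
      (G.card : ℝ) * (4 ^ t * (2 * K ^ p * t * B ^ p)) := by
    calc (G.card : ℝ) * (4 ^ t * (c * t / 2) ^ p)
        = ∑ _x ∈ G, 4 ^ t * (c * t / 2) ^ p := by simp
      _ ≤ _ := sum_le_sum mean
      _ ≤ _ := hw
      _ ≤ K ^ p * t * 4 ^ t * ((1 / 4) * (S.card * (4 * B ^ p))) := by gcongr
      _ ≤ K ^ p * t * 4 ^ t * ((2 * G.card) * B ^ p) := by
        refine mul_le_mul_of_nonneg_left ?_ hKt
        nlinarith
      _ = _ := by ring
  exact le_of_mul_le_mul_left (le_of_mul_le_mul_left hfin hG0) h4

/-- For `p > 1` such a bound fails for large times. -/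
lemma exists_drift_time (hp : 1 < p) {c B : ℝ} (hc : 0 < c) :
    ∃ t : ℕ, 1 ≤ t ∧ 2 * K ^ p * t * B ^ p < (c * t / 2) ^ p := by
  obtain ⟨T, hT⟩ := Filter.eventually_atTop.1
    (((tendsto_rpow_atTop (by linarith : 0 < p - 1)).comp
      tendsto_natCast_atTop_atTop).eventually_gt_atTop (2 * K ^ p * B ^ p / (c / 2) ^ p))
  refine ⟨max T 1, le_max_right _ _, ?_⟩
  have h := hT _ (le_max_left T 1)
  simp only [Function.comp] at h
  set u : ℝ := ((max T 1 : ℕ) : ℝ)
  have hu : 0 < u := by positivity
  rw [div_lt_iff₀ (by positivity)] at h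
  rw [mul_div_right_comm, Real.mul_rpow (by positivity) hu.le]
  have hpu : u ^ p = u ^ (p - 1) * u := by
    rw [← Real.rpow_add_one hu.ne', sub_add_cancel]
  rw [hpu]
  nlinarith

section Group

variable {G : Type*} [Group G]

lemma actWord_mulRight (s : Fin 4 → G) (w : List (Fin 4)) (x : G) :
    actWord (fun i => Equiv.mulRight (s i)) w x = x * (w.map s).prod := by
  induction w generalizing x with
  | nil => simp [actWord]
  | cons l w ih => simp [actWord, ih, mul_assoc]

open scoped Classical in
omit [NormedSpace ℝ X] in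
/-- The random walk with steps `s` on a finite almost invariant set `F` of a group: if short
reduced words move `f` at least linearly in their length on the points whose short translates stay
in `F`, and single steps inside `F` move it by at most `D`, Markov type bounds the time. -/
theorem markov_walk (hp : 1 ≤ p) (hK : 0 ≤ K) (hM : MarkovTypeWith X p K)
    (s : Fin 4 → G) (hs : ∀ i, s (i + 2) = (s i)⁻¹) {t : ℕ} (ht : 1 ≤ t) {F : Finset G}
    (hne : F.Nonempty)
    (hF : #{γ ∈ F | ∃ w : List (Fin 4), w.length ≤ t ∧ γ * (w.map s).prod ∉ F} * 2 ≤ #F)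
    (f : G → X) {D L : ℝ}
    (hD : ∀ γ ∈ F, ∀ i, γ * s i ∈ F → ‖f (γ * s i) - f γ‖ ≤ D) (hL0 : 0 ≤ L)
    (hL : ∀ γ ∈ F, (∀ w : List (Fin 4), w.length ≤ t → γ * (w.map s).prod ∈ F) →
      ∀ w : List (Fin 4), List.IsChain (fun a b => b ≠ a + 2) w → w.length ≤ t →
        L * w.length ≤ ‖f (γ * (w.map s).prod) - f γ‖) :
    (L * t / 2) ^ p ≤ 2 * K ^ p * t * D ^ p := by
  classical
  let e : Fin 4 → Equiv.Perm G := fun i => Equiv.mulRight (s i)
  have he : ∀ l, e (l + 2) = (e l).symm := by
    intro l; ext x; simp [e, hs]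
  let Good : Finset G :=
    F.filter fun γ => ∀ w : List (Fin 4), w.length ≤ t → γ * (w.map s).prod ∈ F
  have hhalf : (F.card : ℝ) ≤ 2 * Good.card := by
    have h1 : #{γ ∈ F | ∃ w : List (Fin 4), w.length ≤ t ∧ γ * (w.map s).prod ∉ F} =
        (F.filter fun γ => ¬ ∀ w : List (Fin 4),
          w.length ≤ t → γ * (w.map s).prod ∈ F).card := by
      congr 1; ext γ; simp
    have h2 := card_filter_add_card_filter_not (s := F)
      (p := fun γ => ∀ w : List (Fin 4), w.length ≤ t → γ * (w.map s).prod ∈ F)
    rw [h1] at hF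
    exact_mod_cast (show F.card ≤ 2 * Good.card by simp only [Good]; omega)
  have hD0 : 0 ≤ D := by
    have hpos : (0 : ℝ) < Good.card := by
      have : (0 : ℝ) < F.card := by exact_mod_cast hne.card_pos
      linarith
    obtain ⟨γ, hγ⟩ := Finset.card_pos.1 (by exact_mod_cast hpos : 0 < Good.card)
    have h0 := (mem_filter.1 hγ).2 [0] (by simpa using ht)
    exact (norm_nonneg _).trans (hD γ (mem_filter.1 hγ).1 0 (by simpa using h0))
  refine markovType_drift hp hK hM e he hne (filter_subset _ _) hhalf ht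
    (fun x hx w hw => ?_) f hL0 hD0 (fun x hx w => ?_) (fun x hx l => ?_)
  · rw [actWord_mulRight]; exact (mem_filter.1 hx).2 w hw
  · rw [← actWord_redWord e he, actWord_mulRight, ← List.length_reverse]
    refine hL x (mem_filter.1 hx).1 (mem_filter.1 hx).2 _ (reduced_reverse_redWord _) ?_
    simpa using (length_redWord_le (List.ofFn w)).trans_eq List.length_ofFn
  · rw [stepIn]
    by_cases h : e l x ∈ F
    · rw [if_pos h]; exact hD x hx l h
    · rw [if_neg h]; simpa using hD0

end Group

end Vale.Agent.P125
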