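import Mathlib
import Vale.Agent.P125.Defs
import Vale.Agent.P125.Potential
import Vale.Agent.P125.L2Systems
import Vale.Agent.P125.Dual
import Vale.Agent.P125.Limit
import Vale.Agent.P125.James

/-!
# P125, part D: a space without summing systems can be renormed
-/

namespace Vale.Agent.P125

open P125.Renorm

variable {X : Type*} [NormedAddCommGroup X] [NormedSpace ℝ X]

/-- A normed space without summing systems of unbounded length has an equivalent uniformly convex
norm. -/
theorem exists_equiv_uniformlyConvex (h : NoSummingSystems X) :
    ∃ N : Seminorm ℝ X, IsEquivNorm N ∧ IsUniformlyConvex N := by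
  by_contra hne
  have H : ¬ StepBound X := fun H => hne (exists_uniformlyConvex H)
  obtain ⟨θ, hθ, q, hsys, hrep⟩ := exists_l2_systems H
  obtain ⟨S⟩ := exists_spreadNorm hθ hsys
  obtain ⟨n, hn⟩ := h (1 / 4) (by norm_num)
  exact hn (summingSystem_of_spreadNorm hθ hrep S n)

/-- Absence of summing systems passes to the dual. -/
theorem noSummingSystems_dual (h : NoSummingSystems X) : NoSummingSystems (X →L[ℝ] ℝ) := by
  intro θ hθ
  obtain ⟨n, hn⟩ := h (θ / 4) (by positivity)
  exact ⟨n, fun hd => hn (summingSystem_of_dual hθ hd)⟩

/-- A normed space without summing systems of unbounded length has an equivalent uniformly smooth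
norm. -/
theorem exists_equiv_uniformlySmooth (h : NoSummingSystems X) :
    ∃ N : Seminorm ℝ X, IsEquivNorm N ∧ IsUniformlySmooth N := by
  obtain ⟨ν, hν, hν'⟩ := exists_equiv_uniformlyConvex (noSummingSystems_dual h)
  exact exists_uniformlySmooth hν hν'

end Vale.Agent.P125
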