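import Mathlib
import Vale.Agent.P125.Defs
import Vale.Agent.P125.Chain
import Vale.Agent.P125.Words
import Vale.Agent.P125.Merge
import Vale.Agent.P125.RandomWalk

/-!
# P125: a space with a spreading seminorm has no nontrivial Markov type

The random walk on a Følner set of the wreath extension of a long crossing chain moves linearly
in a space in which a spreading seminorm with `0 < η [1, -1]` is finitely representable.
-/

namespace Vale.Agent.P125

open Finsupp

variable {X : Type*} [NormedAddCommGroup X] [NormedSpace ℝ X]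

section Token

variable {M : ℕ} (s : Stage M)

/-- The generators of the last extension. -/
noncomputable def Stage.tok (i : Fin 4) :
    Lex (s.carrier →₀ ℤ) ≃o Lex (s.carrier →₀ ℤ) :=
  ext' (s.vec i) (s.gen i)

lemma tok_add_two (i : Fin 4) : s.tok (i + 2) = (s.tok i)⁻¹ := by
  have hilt := i.isLt
  rw [Stage.tok, Stage.tok, ext'_inv, ← s.gen_add_two]
  congr 1
  have e : (i + 2).val = (i.val + 2) % 4 := Fin.val_add i 2
  have h4 : i + 2 + 2 = i := by
    refine Fin.ext ?_
    rw [Fin.val_add, Fin.val_add]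
    show ((i.val + 2) % 4 + 2) % 4 = i.val
    omega
  by_cases h : i.val < 2
  · conv_lhs => rw [Stage.vec, if_neg (by omega), h4]
    conv_rhs => rw [Stage.vec, if_pos h]
  · conv_lhs => rw [Stage.vec, if_pos (by omega)]
    conv_rhs => rw [Stage.vec, if_neg h, push_neg, neg_neg, s.gen_add_two, ← push_mul,
      inv_mul_cancel, push_one]

lemma tok_prod (w : List (Fin 4)) :
    (w.map s.tok).prod = ext' (s.word w).1 (s.word w).2 := by
  induction w with
  | nil => simp [Stage.word, ext'_one]
  | cons i w ih => rw [List.map_cons, List.prod_cons, ih, Stage.tok, ext'_mul]; rfl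

lemma tok_mem (i : Fin 4) : s.tok i ∈ extGroup s.H :=
  ext'_mem _ (ty_mem _ s.a_mem s.b_mem _)

lemma tok_prod_mem (w : List (Fin 4)) : (w.map s.tok).prod ∈ extGroup s.H := by
  refine Subgroup.list_prod_mem _ fun x hx => ?_
  obtain ⟨i, _, rfl⟩ := List.mem_map.1 hx
  exact tok_mem s i

end Token

/-- The position of an element: the image of the zero configuration. -/
noncomputable def posOf {Ω : Type} [LinearOrder Ω] (γ : Lex (Ω →₀ ℤ) ≃o Lex (Ω →₀ ℤ)) : Ω →₀ ℤ :=
  ofLex (γ 0)

open scoped Classical in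
/-- Markov type `p > 1` is incompatible with a finitely representable spreading seminorm. -/
theorem false_of_spreadNorm {p K θ : ℝ} (hp : 1 < p) (hK : 0 < K) (hM : MarkovTypeWith X p K)
    (hθ : 0 < θ) {q : ∀ n : ℕ, (Fin n → ℝ) → ℝ}
    (hq : ∀ n, ∃ x : Fin n → X, ∀ a, q n a = ‖∑ i, a i • x i‖) (S : SpreadNorm θ q) : False := by
  obtain ⟨t, ht, hdrift⟩ := exists_drift_time (K := K) (B := 4) hp (c := 1 / 2) (by norm_num)
  obtain ⟨s⟩ := exists_stage (6 * t + 23)
  set A := S.altVal (t + 4) with hA
  have hA0 : 0 < A :=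
    lt_of_lt_of_le (lt_of_lt_of_le hθ S.theta_le_altVal_zero) (S.altVal_mono (Nat.zero_le _))
  -- the finite set of short products
  set W : Finset (List (Fin 4)) :=
    (Finset.range (t + 1)).biUnion fun r => (Finset.univ : Finset (Fin r → Fin 4)).image List.ofFn
    with hW
  have memW : ∀ w : List (Fin 4), w.length ≤ t → w ∈ W := fun w hw => by
    rw [hW]
    exact Finset.mem_biUnion.2 ⟨w.length, Finset.mem_range.2 (by omega),
      Finset.mem_image.2 ⟨w.get, Finset.mem_univ _, List.ofFn_get w⟩⟩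
  set P0 := W.image fun w => (w.map s.tok).prod with hP0
  have hP0ne : P0.Nonempty :=
    ⟨([] : List (Fin 4)).map s.tok |>.prod, Finset.mem_image.2 ⟨[], memW [] (by simp), rfl⟩⟩
  have hP0c : (0 : ℝ) < P0.card := by exact_mod_cast hP0ne.card_pos
  obtain ⟨F, hFne, hFH, hF⟩ := folner_extGroup s.H s.folner P0 (fun x hx => by
    obtain ⟨w, _, rfl⟩ := Finset.mem_image.1 (Finset.mem_coe.1 hx)
    exact tok_prod_mem s w) (1 / (2 * P0.card)) (by positivity)
  have hgood : (F.filter fun γ => ∃ w : List (Fin 4),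
      w.length ≤ t ∧ γ * (w.map s.tok).prod ∉ F).card * 2 ≤ F.card := by
    have h1 : (F.filter fun γ => ∃ w : List (Fin 4),
        w.length ≤ t ∧ γ * (w.map s.tok).prod ∉ F) ⊆
        P0.biUnion fun g => F.filter fun γ => γ * g ∉ F := by
      intro γ hγ
      rw [Finset.mem_filter] at hγ
      obtain ⟨hγF, w, hw, hout⟩ := hγ
      exact Finset.mem_biUnion.2 ⟨_, Finset.mem_image.2 ⟨w, memW w hw, rfl⟩,
        Finset.mem_filter.2 ⟨hγF, hout⟩⟩
    have h2 := le_trans (Finset.card_le_card h1) Finset.card_biUnion_le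
    have h3 : ((∑ g ∈ P0, (F.filter fun γ => γ * g ∉ F).card : ℕ) : ℝ) * 2 ≤ F.card := by
      push_cast
      calc (∑ g ∈ P0, ((F.filter fun γ => γ * g ∉ F).card : ℝ)) * 2
          ≤ (∑ _g ∈ P0, 1 / (2 * (P0.card : ℝ)) * F.card) * 2 := by
            gcongr with g hg
            exact hF g hg
        _ = F.card := by
            rw [Finset.sum_const, nsmul_eq_mul]
            field_simp
    have h4 : (∑ g ∈ P0, (F.filter fun γ => γ * g ∉ F).card) * 2 ≤ F.card := by exact_mod_cast h3
    exact le_trans (Nat.mul_le_mul_right 2 h2) h4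
  -- linearise the seminorm on the finitely many relevant configurations
  set Pts : Finset s.carrier := F.biUnion fun γ => (posOf γ).support with hPts
  set m := Pts.card with hm
  set e := Pts.orderEmbOfFin hm.symm with he
  set coef : (s.carrier →₀ ℤ) → Fin m → ℝ := fun v j => (v (e j) : ℝ) with hcoef
  set D := (F ×ˢ F).image fun z => coef (posOf z.1 - posOf z.2) with hD
  obtain ⟨N, T, _, hT⟩ := S.approx m D (A / 2) (by positivity)
  obtain ⟨x, hx⟩ := hq N
  let f : (Lex (s.carrier →₀ ℤ) ≃o Lex (s.carrier →₀ ℤ)) → X := fun γ =>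
    ∑ j, coef (posOf γ) j • ∑ k, T j k • x k
  have hnorm : ∀ γ ∈ F, ∀ γ' ∈ F, |‖f γ - f γ'‖ - S.ev (posOf γ - posOf γ')| ≤ A / 2 := by
    intro γ hγ γ' hγ'
    set d := posOf γ - posOf γ' with hd
    have h1 : f γ - f γ' = ∑ k, (∑ j, coef d j • T j) k • x k := by
      simp only [f, ← Finset.sum_sub_distrib, ← sub_smul]
      have : ∀ j, coef (posOf γ) j - coef (posOf γ') j = coef d j := fun j => by
        simp [hcoef, hd]
      simp only [this, Finset.smul_sum, Finset.sum_apply, Pi.smul_apply, Finset.sum_smul,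
        smul_eq_mul, smul_smul]
      exact Finset.sum_comm
    have h2 : S.η (List.ofFn (coef d)) = S.ev d := by
      have hlist : List.ofFn (coef d) = (List.ofFn e).map fun p => (d p : ℝ) := by
        rw [List.map_ofFn]; rfl
      rw [hlist]
      refine S.η_sorted_eq_ev d (List.pairwise_ofFn.2 fun i j hij => e.strictMono hij) fun p hp => ?_
      have hp' : p ∈ Pts := by
        have := Finsupp.support_sub hp
        rw [Finset.mem_union] at this
        rcases this with h | h
        · exact Finset.mem_biUnion.2 ⟨γ, hγ, h⟩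
        · exact Finset.mem_biUnion.2 ⟨γ', hγ', h⟩
      rw [List.mem_ofFn]
      have : p ∈ Set.range e := by
        rw [he, Finset.range_orderEmbOfFin]; exact hp'
      exact this
    rw [← h2, h1, ← hx]
    exact hT _ (Finset.mem_image.2 ⟨(γ, γ'), Finset.mem_product.2 ⟨hγ, hγ'⟩, rfl⟩)
  have hstep : ∀ γ ∈ F, ∀ w : List (Fin 4),
      S.ev (posOf (γ * (w.map s.tok).prod) - posOf γ) = S.ev (s.word w).1 := by
    intro γ hγ w
    obtain ⟨v, g, _, rfl⟩ := hFH (Finset.mem_coe.2 hγ)
    rw [tok_prod, ext'_mul]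
    simp only [posOf, ext'_apply_zero, ofLex_toLex, add_sub_cancel_left]
    exact S.ev_push g _
  have hgen : ∀ γ ∈ F, ∀ i, γ * s.tok i ∈ F → ‖f (γ * s.tok i) - f γ‖ ≤ 4 * A := by
    intro γ hγ i hi
    have h1 := hnorm _ hi _ hγ
    have h2 := hstep γ hγ [i]
    rw [List.map_cons, List.map_nil, List.prod_cons, List.prod_nil, mul_one] at h2
    rw [h2] at h1
    have h3 : (s.word [i]).1 = s.vec i := by simp [Stage.word, push_zero]
    rw [h3] at h1
    have h4 : S.ev (s.vec i) ≤ S.altVal ((t + 4) + (t + 4)) :=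
      S.vec_le s (by omega) i (by omega)
    have h5 := S.altVal_add_le (t + 4) (t + 4)
    have h6 : S.altVal 0 ≤ A := S.altVal_mono (Nat.zero_le _)
    have := abs_le.1 h1
    linarith [this.2]
  have hlow : ∀ γ ∈ F, (∀ w : List (Fin 4), w.length ≤ t → γ * (w.map s.tok).prod ∈ F) →
      ∀ w : List (Fin 4), List.IsChain (fun a b => b ≠ a + 2) w → w.length ≤ t →
        A / 2 * w.length ≤ ‖f (γ * (w.map s.tok).prod) - f γ‖ := by
    intro γ hγ hall w hw hlen
    cases w with
    | nil => simp
    | cons i l =>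
      have h1 := abs_le.1 (hnorm _ (hall _ hlen) _ hγ)
      rw [hstep γ hγ] at h1
      simp only [List.length_cons] at hlen ⊢
      have h2 := S.word_lower s l i hw (t + 4) (by omega)
      have h3 : A / 2 ≤ A / 2 * ((l.length + 1 : ℕ) : ℝ) := by
        refine le_mul_of_one_le_right (by positivity) ?_
        push_cast
        linarith [Nat.cast_nonneg (α := ℝ) l.length]
      rw [← hA] at h2
      linarith [h1.1]
  have hmain := markov_walk hp.le hK.le hM s.tok (tok_add_two s) ht hFne hgood f hgen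
    (by positivity) hlow
  have h7 : (A / 2 * t / 2) ^ p = A ^ p * (1 / 2 * (t : ℝ) / 2) ^ p := by
    rw [← Real.mul_rpow hA0.le (by positivity)]
    ring_nf
  rw [h7, Real.mul_rpow (by norm_num) hA0.le] at hmain
  have h8 : 0 < A ^ p := Real.rpow_pos_of_pos hA0 p
  nlinarith [mul_lt_mul_of_pos_left hdrift h8]

end Vale.Agent.P125
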